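import Mathlib

/-!
# Weak approximation on a quadric with one rational point

Abstract form.  `k` is a commutative ring, `V` a `k`-module with a quadratic form `Q`, and for
finitely many indices `i` there are a topological commutative ring `R i` and a topological
`R i`-module `W i` with a continuous quadratic form `Qi i`, such that `k → ∏ R i` and `V → ∏ W i`
have dense range.  If `Q p = 0` then every family of smooth zeros of the `Qi i` is approximated by
a zero of `Q` in `V` (stereographic projection).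
-/

namespace Vale.Agent.P011.H182.QW

open Topology Filter QuadraticMap

section algebra

variable {R V : Type*} [CommRing R] [AddCommGroup V] [Module R V]

/-- the stereographic projection with centre `p`, in homogeneous form -/
def ster (Q : QuadraticForm R V) (p y : V) : V := polar Q p y • y - Q y • p

theorem map_ster (Q : QuadraticForm R V) {p : V} (hp : Q p = 0) (y : V) :
    Q (ster Q p y) = 0 := by
  have h : ster Q p y = polar Q p y • y + (-(Q y)) • p := by
    rw [ster, neg_smul, sub_eq_add_neg]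
  rw [h, QuadraticMap.map_add (⇑Q), QuadraticMap.map_smul, QuadraticMap.map_smul, hp,
    QuadraticMap.polar_smul_left, QuadraticMap.polar_smul_right, QuadraticMap.polar_comm Q y p]
  simp only [smul_eq_mul]
  ring

theorem ster_of_zero (Q : QuadraticForm R V) (p : V) {x : V} (hx : Q x = 0) :
    ster Q p x = polar Q p x • x := by
  rw [ster, hx, zero_smul, sub_zero]

theorem polar_ster (Q : QuadraticForm R V) (p y x : V) :
    polar Q (ster Q p y) x = polar Q p y * polar Q y x - Q y * polar Q p x := by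
  rw [ster, sub_eq_add_neg, QuadraticMap.polar_add_left, QuadraticMap.polar_neg_left,
    QuadraticMap.polar_smul_left, QuadraticMap.polar_smul_left]
  simp only [smul_eq_mul]
  ring

/-- the two step map of the proof -/
def two (Q : QuadraticForm R V) (p : V) (s : R) (y z : V) : V := s • ster Q (ster Q p y) z

theorem map_two (Q : QuadraticForm R V) {p : V} (hp : Q p = 0) (s : R) (y z : V) :
    Q (two Q p s y z) = 0 := by
  rw [two, QuadraticMap.map_smul, map_ster Q (map_ster Q hp y), smul_zero]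

theorem two_eq (Q : QuadraticForm R V) {p x : V} (hx : Q x = 0) (s : R) (y : V)
    (hs : s * (polar Q p y * polar Q y x - Q y * polar Q p x) = 1) : two Q p s y x = x := by
  rw [two, ster_of_zero Q _ hx, polar_ster, smul_smul, hs, one_smul]

end algebra

section semi

variable {k V R W : Type*} [CommRing k] [AddCommGroup V] [Module k V] [CommRing R]
  [AddCommGroup W] [Module R W] {φ : k →+* R}

theorem polar_map (Q : QuadraticForm k V) (Q' : QuadraticForm R W) (j : V →ₛₗ[φ] W)
    (h : ∀ v, Q' (j v) = φ (Q v)) (x y : V) : polar Q' (j x) (j y) = φ (polar Q x y) := by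
  simp only [polar]
  rw [← map_add, h, h, h, map_sub, map_sub]

theorem ster_map (Q : QuadraticForm k V) (Q' : QuadraticForm R W) (j : V →ₛₗ[φ] W)
    (h : ∀ v, Q' (j v) = φ (Q v)) (x y : V) : j (ster Q x y) = ster Q' (j x) (j y) := by
  rw [ster, ster, map_sub, map_smulₛₗ, map_smulₛₗ, h, polar_map Q Q' j h]

theorem two_map (Q : QuadraticForm k V) (Q' : QuadraticForm R W) (j : V →ₛₗ[φ] W)
    (h : ∀ v, Q' (j v) = φ (Q v)) (p y z : V) (s : k) :
    j (two Q p s y z) = two Q' (j p) (φ s) (j y) (j z) := by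
  rw [two, two, map_smulₛₗ, ster_map Q Q' j h, ster_map Q Q' j h]

end semi

section topo

variable {R W : Type*} [CommRing R] [TopologicalSpace R] [IsTopologicalRing R]
  [AddCommGroup W] [TopologicalSpace W] [Module R W] [ContinuousSMul R W]
  [IsTopologicalAddGroup W]

omit [ContinuousSMul R W] in
theorem continuous_polar (Q : QuadraticForm R W) (hQ : Continuous Q) :
    Continuous fun t : W × W => polar Q t.1 t.2 := by
  simp only [polar]
  exact ((hQ.comp (continuous_fst.add continuous_snd)).sub (hQ.comp continuous_fst)).sub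
    (hQ.comp continuous_snd)

theorem continuous_ster (Q : QuadraticForm R W) (hQ : Continuous Q) :
    Continuous fun t : W × W => ster Q t.1 t.2 := by
  simp only [ster]
  exact ((continuous_polar Q hQ).smul continuous_snd).sub
    ((hQ.comp continuous_snd).smul continuous_fst)

theorem continuous_two (Q : QuadraticForm R W) (hQ : Continuous Q) (p : W) :
    Continuous fun t : R × W × W => two Q p t.1 t.2.1 t.2.2 := by
  simp only [two]
  have h1 : Continuous fun t : R × W × W => ster Q p t.2.1 :=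
    (continuous_ster Q hQ).comp (continuous_const.prodMk (continuous_fst.comp continuous_snd))
  exact continuous_fst.smul
    ((continuous_ster Q hQ).comp (h1.prodMk (continuous_snd.comp continuous_snd)))

end topo

/-- **Weak approximation on a quadric with a rational point**, ring version.  The hypothesis `hs`
says that `x i` and `j i p` are smooth points which are joined by a path of two secants. -/
theorem wa_ring {k V ι : Type*} [Finite ι] [CommRing k] [AddCommGroup V] [Module k V]
    (Q : QuadraticForm k V) {R W : ι → Type*} [∀ i, CommRing (R i)]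
    [∀ i, TopologicalSpace (R i)] [∀ i, IsTopologicalRing (R i)] [∀ i, AddCommGroup (W i)]
    [∀ i, TopologicalSpace (W i)] [∀ i, Module (R i) (W i)] [∀ i, ContinuousSMul (R i) (W i)]
    [∀ i, IsTopologicalAddGroup (W i)] (φ : ∀ i, k →+* R i) (j : ∀ i, V →ₛₗ[φ i] W i)
    (Q' : ∀ i, QuadraticForm (R i) (W i)) (hQ : ∀ i v, Q' i (j i v) = φ i (Q v))
    (hc : ∀ i, Continuous (Q' i)) (hk : DenseRange fun (s : k) i => φ i s)
    (hV : DenseRange fun (v : V) i => j i v) {p : V} (hp : Q p = 0) (x : ∀ i, W i)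
    (hx : ∀ i, Q' i (x i) = 0)
    (hs : ∀ i, ∃ y, IsUnit (polar (Q' i) (j i p) y * polar (Q' i) y (x i) -
      Q' i y * polar (Q' i) (j i p) (x i)))
    {U : ∀ i, Set (W i)} (hU : ∀ i, U i ∈ 𝓝 (x i)) : ∃ v : V, Q v = 0 ∧ ∀ i, j i v ∈ U i := by
  choose y hy using hs
  choose s hs using fun i => (hy i).exists_left_inv
  have key : ∀ i, ∀ᶠ t in 𝓝 ((s i, y i, x i) : R i × W i × W i),
      two (Q' i) (j i p) t.1 t.2.1 t.2.2 ∈ U i := by
    intro i
    refine (continuous_two (Q' i) (hc i) (j i p)).continuousAt.eventually_mem ?_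
    rw [two_eq (Q' i) (hx i) (s i) (y i) (hs i)]
    exact hU i
  have h2 : ∀ i, ∃ A ∈ 𝓝 (s i), ∃ B ∈ 𝓝 (y i), ∃ C ∈ 𝓝 (x i), ∀ a ∈ A, ∀ b ∈ B, ∀ c ∈ C,
      two (Q' i) (j i p) a b c ∈ U i := by
    intro i
    obtain ⟨A, hA, T, hT, hAT⟩ := mem_nhds_prod_iff.1 (key i)
    obtain ⟨B, hB, C, hC, hBC⟩ := mem_nhds_prod_iff.1 hT
    exact ⟨A, hA, B, hB, C, hC, fun a ha b hb c hc' =>
      hAT (Set.mk_mem_prod ha (hBC (Set.mk_mem_prod hb hc')))⟩
  choose A hA B hB C hC hABC using h2
  have e1 : ∃ a : k, ∀ i, φ i a ∈ A i := by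
    obtain ⟨a, ha⟩ := (mem_closure_iff_nhds.1 (hk s)) (Set.pi Set.univ A)
      (set_pi_mem_nhds Set.finite_univ fun i _ => hA i)
    obtain ⟨ha1, b, rfl⟩ := ha
    exact ⟨b, fun i => ha1 i (Set.mem_univ i)⟩
  have e2 : ∃ a : V, ∀ i, j i a ∈ B i := by
    obtain ⟨a, ha⟩ := (mem_closure_iff_nhds.1 (hV y)) (Set.pi Set.univ B)
      (set_pi_mem_nhds Set.finite_univ fun i _ => hB i)
    obtain ⟨ha1, b, rfl⟩ := ha
    exact ⟨b, fun i => ha1 i (Set.mem_univ i)⟩
  have e3 : ∃ a : V, ∀ i, j i a ∈ C i := by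
    obtain ⟨a, ha⟩ := (mem_closure_iff_nhds.1 (hV x)) (Set.pi Set.univ C)
      (set_pi_mem_nhds Set.finite_univ fun i _ => hC i)
    obtain ⟨ha1, b, rfl⟩ := ha
    exact ⟨b, fun i => ha1 i (Set.mem_univ i)⟩
  obtain ⟨a, ha⟩ := e1
  obtain ⟨b, hb⟩ := e2
  obtain ⟨c, hc'⟩ := e3
  refine ⟨two Q p a b c, map_two Q hp a b c, fun i => ?_⟩
  rw [two_map Q (Q' i) (j i) (hQ i)]
  exact hABC i _ (ha i) _ (hb i) _ (hc' i)

section field

variable {K W : Type*} [Field K] [AddCommGroup W] [Module K W]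

/-- two linear forms which are not zero are not zero at a common vector -/
theorem exists_two (f g : W →ₗ[K] K) {a b : W} (ha : f a ≠ 0) (hb : g b ≠ 0) :
    ∃ c, f c ≠ 0 ∧ g c ≠ 0 := by
  by_cases h1 : g a = 0
  · by_cases h2 : f b = 0
    · exact ⟨a + b, by rw [map_add, h2, add_zero]; exact ha,
        by rw [map_add, h1, zero_add]; exact hb⟩
    · exact ⟨b, h2, hb⟩
  · exact ⟨a, ha, h1⟩

/-- over a field the condition of `wa_ring` follows from smoothness and rank at least three -/
theorem unit_of_smooth (Q : QuadraticForm K W) {p x : W} (hp : ∃ y, polar Q p y ≠ 0)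
    (hx : ∃ y, polar Q x y ≠ 0) (hr : ∃ y, polar Q p y = 0 ∧ Q y ≠ 0) :
    ∃ y, IsUnit (polar Q p y * polar Q y x - Q y * polar Q p x) := by
  by_cases h : polar Q p x = 0
  · obtain ⟨a, ha⟩ := hp
    obtain ⟨b, hb⟩ := hx
    obtain ⟨c, hc1, hc2⟩ := exists_two (Q.polarBilin p) (Q.polarBilin x) (a := a) (b := b) ha hb
    refine ⟨c, ?_⟩
    have hc1' : polar Q p c ≠ 0 := hc1
    have hc2' : polar Q x c ≠ 0 := hc2
    rw [h, mul_zero, sub_zero, isUnit_iff_ne_zero, QuadraticMap.polar_comm Q c x]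
    exact mul_ne_zero hc1' hc2'
  · obtain ⟨y, hy1, hy2⟩ := hr
    refine ⟨y, ?_⟩
    rw [hy1, zero_mul, zero_sub, isUnit_iff_ne_zero]
    exact neg_ne_zero.2 (mul_ne_zero hy2 h)

end field

/-- **Weak approximation on a quadric with a rational point**, field version: `p` is a smooth
zero of `Q`, `Q` has rank at least three at `p`, and the `x i` are smooth local zeros. -/
theorem wa_field {k V ι : Type*} [Finite ι] [Field k] [AddCommGroup V] [Module k V]
    (Q : QuadraticForm k V) {R W : ι → Type*} [∀ i, Field (R i)]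
    [∀ i, TopologicalSpace (R i)] [∀ i, IsTopologicalRing (R i)] [∀ i, AddCommGroup (W i)]
    [∀ i, TopologicalSpace (W i)] [∀ i, Module (R i) (W i)] [∀ i, ContinuousSMul (R i) (W i)]
    [∀ i, IsTopologicalAddGroup (W i)] (φ : ∀ i, k →+* R i) (j : ∀ i, V →ₛₗ[φ i] W i)
    (Q' : ∀ i, QuadraticForm (R i) (W i)) (hQ : ∀ i v, Q' i (j i v) = φ i (Q v))
    (hc : ∀ i, Continuous (Q' i)) (hk : DenseRange fun (s : k) i => φ i s)
    (hV : DenseRange fun (v : V) i => j i v) {p : V} (hp : Q p = 0)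
    (hp1 : ∃ y, polar Q p y ≠ 0) (hp2 : ∃ y, polar Q p y = 0 ∧ Q y ≠ 0) (x : ∀ i, W i)
    (hx : ∀ i, Q' i (x i) = 0) (hs : ∀ i, ∃ y, polar (Q' i) (x i) y ≠ 0)
    {U : ∀ i, Set (W i)} (hU : ∀ i, U i ∈ 𝓝 (x i)) : ∃ v : V, Q v = 0 ∧ ∀ i, j i v ∈ U i := by
  refine wa_ring Q φ j Q' hQ hc hk hV hp x hx (fun i => unit_of_smooth (Q' i) ?_ (hs i) ?_) hU
  · obtain ⟨y, hy⟩ := hp1
    refine ⟨j i y, ?_⟩
    rw [polar_map Q (Q' i) (j i) (hQ i)]
    exact (map_ne_zero (φ i)).2 hy
  · obtain ⟨y, hy1, hy2⟩ := hp2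
    refine ⟨j i y, ?_, ?_⟩
    · rw [polar_map Q (Q' i) (j i) (hQ i), hy1, map_zero]
    · rw [hQ i]
      exact (map_ne_zero (φ i)).2 hy2

end Vale.Agent.P011.H182.QW
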