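import Vale.Agent.P011.H182.Poles
import Vale.Agent.P011.Two.LocCay

/-!
Approximation at one place, from a local model of the algebra.
-/

open Module NumberField IsDedekindDomain Filter Topology

set_option linter.unusedSectionVars false

namespace Vale.Agent.P011.H182

open Vale.Agent.P011.Arith Vale.Agent.P011.Even Vale.Agent.P011.Two Vale.Agent.P011.One

section compact

variable {F E : Type} [NormedField F] [ProperSpace F] [Ring E] [Algebra F E] {N : ℕ}
  (BE : Basis (Fin N) F E) (I : Inv F E)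

/-- The size of an element of the local algebra. -/
noncomputable def ne (y : E) : ℝ := ∑ i, ‖BE.repr y i‖

include BE in
theorem one_of_one {x y : E} (h : x * y = 1) : y * x = 1 := by
  classical
  have h1 : Algebra.leftMulMatrix BE x * Algebra.leftMulMatrix BE y = 1 := by
    rw [← map_mul, h, map_one]
  have h2 := _root_.mul_eq_one_comm.mp h1
  rw [← map_mul, ← map_one (Algebra.leftMulMatrix BE)] at h2
  exact Algebra.leftMulMatrix_injective BE h2

/-- Bounded sets are relatively compact. -/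
theorem isCompact_bdd (R : ℝ) : IsCompact {T : UT BE I | ∀ i, ‖BE.repr T.val i‖ ≤ R} := by
  classical
  have hind : Topology.IsInducing (fun (T : UT BE I) (i : Fin N) => BE.repr T.val i) := ⟨rfl⟩
  rw [hind.isCompact_iff]
  -- the image
  let P : (Fin N → F) → E := fun c => ∑ i, c i • BE i
  have himg : (fun (T : UT BE I) (i : Fin N) => BE.repr T.val i) ''
      {T : UT BE I | ∀ i, ‖BE.repr T.val i‖ ≤ R} =
      {c | ∀ i, ‖c i‖ ≤ R} ∩ {c | ∀ l, BE.repr (P c * I.τ (P c)) l = BE.repr 1 l} := by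
    ext c
    constructor
    · rintro ⟨T, hT, rfl⟩
      refine ⟨hT, fun l => ?_⟩
      have h1 : P (fun i => BE.repr T.val i) = T.val := BE.sum_repr T.val
      rw [h1, T.mul_star]
    · rintro ⟨hc1, hc2⟩
      have h1 : P c * I.τ (P c) = 1 := by
        apply BE.repr.injective
        ext l
        exact hc2 l
      have h2 := one_of_one BE h1
      let T : UT BE I := ⟨⟨P c, I.τ (P c), h1, h2⟩, h1⟩
      have h3 : (fun i => BE.repr T.val i) = c := by
        funext i
        change BE.repr (∑ i, c i • BE i) i = c i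
        rw [BE.repr_sum_self]
      exact ⟨T, fun i => by rw [congrFun h3 i]; exact hc1 i, h3⟩
  rw [himg]
  have hcont : ∀ l, Continuous fun c : Fin N → F => BE.repr (P c * I.τ (P c)) l := by
    intro l
    have h1 : (fun c : Fin N → F => BE.repr (P c * I.τ (P c)) l) =
        fun c => ∑ i, ∑ j, c i * c j * BE.repr (BE i * I.τ (BE j)) l := by
      funext c
      have h2 : P c * I.τ (P c) = ∑ i, ∑ j, (c i * c j) • (BE i * I.τ (BE j)) := by
        change (∑ i, c i • BE i) * I.τ (∑ j, c j • BE j) = _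
        rw [map_sum, Finset.sum_mul_sum]
        refine Finset.sum_congr rfl fun i _ => Finset.sum_congr rfl fun j _ => ?_
        rw [map_smul, smul_mul_smul_comm]
      rw [h2, map_sum, Finsupp.finsetSum_apply]
      refine Finset.sum_congr rfl fun i _ => ?_
      rw [map_sum, Finsupp.finsetSum_apply]
      refine Finset.sum_congr rfl fun j _ => ?_
      rw [map_smul, Finsupp.smul_apply, smul_eq_mul]
    rw [h1]
    fun_prop
  refine IsCompact.inter_right ?_ ?_
  · have h1 : {c : Fin N → F | ∀ i, ‖c i‖ ≤ R} = Set.pi Set.univ fun _ => Metric.closedBall 0 R := by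
      ext c
      simp [Set.mem_pi, dist_zero_right]
    rw [h1]
    exact isCompact_univ_pi fun _ => isCompact_closedBall _ _
  · have h1 : {c : Fin N → F | ∀ l, BE.repr (P c * I.τ (P c)) l = BE.repr 1 l} =
        ⋂ l, {c | BE.repr (P c * I.τ (P c)) l = BE.repr 1 l} := by
      ext c
      simp
    rw [h1]
    exact isClosed_iInter fun l => isClosed_eq (hcont l) continuous_const

theorem continuous_lin (L : E →ₗ[F] F) : Continuous fun T : UT BE I => L T.val := by
  have h1 : (fun T : UT BE I => L T.val) = fun T => ∑ i, BE.repr T.val i * L (BE i) := by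
    funext T
    conv_lhs => rw [← BE.sum_repr T.val]
    rw [map_sum]
    exact Finset.sum_congr rfl fun i _ => by rw [map_smul, smul_eq_mul]
  rw [h1]
  have h2 : Continuous (fun (T : UT BE I) (i : Fin N) => BE.repr T.val i) :=
    continuous_induced_dom
  exact continuous_finsetSum _ fun i _ => ((continuous_apply i).comp h2).mul continuous_const

/-- The distance from the centre in the local algebra. -/
noncomputable def ce (y : E) : ℝ := ∑ i, ne BE (y * BE i - BE i * y)

theorem continuous_ne (L : E →ₗ[F] E) (y0 : E) :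
    Continuous fun T : UT BE I => ne BE (L T.val - y0) := by
  refine continuous_finsetSum _ fun i _ => ?_
  have h1 : (fun T : UT BE I => ‖BE.repr (L T.val - y0) i‖) =
      fun T => ‖(BE.coord i ∘ₗ L) T.val - BE.repr y0 i‖ := by
    funext T
    rw [map_sub, Finsupp.sub_apply]
    rfl
  rw [h1]
  exact ((continuous_lin BE I _).sub continuous_const).norm

theorem continuous_ce : Continuous fun T : UT BE I => ce BE T.val := by
  refine continuous_finsetSum _ fun i _ => ?_
  have h1 := continuous_ne BE I (LinearMap.mulRight F (BE i) - LinearMap.mulLeft F (BE i)) 0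
  refine h1.congr fun T => ?_
  rw [sub_zero]
  rfl

theorem coord_le_ne (y : E) (i : Fin N) : ‖BE.repr y i‖ ≤ ne BE y :=
  Finset.single_le_sum (f := fun i => ‖BE.repr y i‖) (fun _ _ => norm_nonneg _) (Finset.mem_univ i)

theorem ne_nonneg' (y : E) : 0 ≤ ne BE y := Finset.sum_nonneg fun _ _ => norm_nonneg _

theorem ne_add_le (x y : E) : ne BE (x + y) ≤ ne BE x + ne BE y := by
  rw [ne, ne, ne, ← Finset.sum_add_distrib]
  refine Finset.sum_le_sum fun i _ => ?_
  rw [map_add, Finsupp.add_apply]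
  exact norm_add_le _ _

theorem ne_smul (c : F) (x : E) : ne BE (c • x) = ‖c‖ * ne BE x := by
  rw [ne, ne, Finset.mul_sum]
  refine Finset.sum_congr rfl fun i _ => ?_
  rw [map_smul, Finsupp.smul_apply, smul_eq_mul, norm_mul]

theorem ne_sum_le {ι : Type} (s : Finset ι) (g : ι → E) :
    ne BE (∑ i ∈ s, g i) ≤ ∑ i ∈ s, ne BE (g i) := by
  classical
  induction s using Finset.induction_on with
  | empty =>
    rw [Finset.sum_empty, Finset.sum_empty]
    simp [ne]
  | insert b s hb ih =>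
    rw [Finset.sum_insert hb, Finset.sum_insert hb]
    exact (ne_add_le BE _ _).trans (add_le_add le_rfl ih)

/-- linear maps are bounded -/
theorem ne_linear (L : E →ₗ[F] E) : ∃ C : ℝ, 0 < C ∧ ∀ x, ne BE (L x) ≤ C * ne BE x := by
  refine ⟨∑ i, ne BE (L (BE i)) + 1, ?_, fun x => ?_⟩
  · have := Finset.sum_nonneg fun (i : Fin N) (_ : i ∈ Finset.univ) => ne_nonneg' BE (L (BE i))
    linarith
  · have h1 : L x = ∑ i, BE.repr x i • L (BE i) := by
      conv_lhs => rw [← BE.sum_repr x]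
      rw [map_sum]
      exact Finset.sum_congr rfl fun i _ => map_smul _ _ _
    rw [h1]
    refine (ne_sum_le BE _ _).trans ?_
    have h2 : ∀ i ∈ (Finset.univ : Finset (Fin N)), ne BE (BE.repr x i • L (BE i)) ≤
        (∑ i, ne BE (L (BE i)) + 1) * ‖BE.repr x i‖ := by
      intro i _
      rw [ne_smul, mul_comm]
      refine mul_le_mul_of_nonneg_right ?_ (norm_nonneg _)
      have := Finset.single_le_sum (f := fun i => ne BE (L (BE i)))
        (fun _ _ => ne_nonneg' _ _) (Finset.mem_univ i)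
      linarith
    refine (Finset.sum_le_sum h2).trans ?_
    rw [← Finset.mul_sum]
    rfl

/-- the multiplication is bounded -/
theorem ne_mul : ∃ C : ℝ, 0 < C ∧ ∀ x y, ne BE (x * y) ≤ C * ne BE x * ne BE y := by
  choose C hC hCm using fun i => ne_linear BE (LinearMap.mulLeft F (BE i))
  refine ⟨∑ i, C i + 1, ?_, fun x y => ?_⟩
  · have := Finset.sum_nonneg fun (i : Fin N) (_ : i ∈ Finset.univ) => (hC i).le
    linarith
  · have h1 : x * y = ∑ i, BE.repr x i • (BE i * y) := by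
      conv_lhs => rw [← BE.sum_repr x]
      rw [Finset.sum_mul]
      exact Finset.sum_congr rfl fun i _ => smul_mul_assoc _ _ _
    rw [h1]
    refine (ne_sum_le BE _ _).trans ?_
    have h2 : ∀ i ∈ (Finset.univ : Finset (Fin N)), ne BE (BE.repr x i • (BE i * y)) ≤
        (∑ i, C i + 1) * ne BE y * ‖BE.repr x i‖ := by
      intro i _
      rw [ne_smul, mul_comm]
      refine mul_le_mul_of_nonneg_right ?_ (norm_nonneg _)
      refine (hCm i y).trans ?_
      refine mul_le_mul_of_nonneg_right ?_ (ne_nonneg' _ _)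
      have := Finset.single_le_sum (f := C) (fun i _ => (hC i).le) (Finset.mem_univ i)
      linarith
    refine (Finset.sum_le_sum h2).trans ?_
    rw [← Finset.mul_sum]
    change _ * ne BE x ≤ _
    exact le_of_eq (by ring)

end compact

section model

variable {k K D : Type} [Field k] [NumberField k] [Field K] [StarRing K]
  [DivisionRing D] [StarRing D] [Algebra k K] [Algebra k D] [Algebra K D] [IsScalarTower k K D]
  {d : kˣ} {s : K} {N : ℕ} {Ω : Type} [Field Ω] [Algebra K Ω] {n : ℕ}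

/-- The special unitary group as a subgroup of the unitary group. -/
def SUu (f : D →ₐ[K] Matrix (Fin n) (Fin n) Ω) : Subgroup (unitary D) where
  carrier := {t | (t : D) ∈ GU f}
  mul_mem' := fun {a b} ha hb => gu_mul (g := (a : D)) (h := (b : D)) ha hb
  one_mem' := gu_one
  inv_mem' := fun {a} ha => by
    have h1 : ((a⁻¹ : unitary D) : D) = star (a : D) := rfl
    change ((a⁻¹ : unitary D) : D) ∈ GU f
    rw [h1]
    exact gu_star ha

theorem mem_SUu {f : D →ₐ[K] Matrix (Fin n) (Fin n) Ω} {t : unitary D} :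
    t ∈ SUu f ↔ (t : D) ∈ GU f := Iff.rfl

theorem gu_unitary {f : D →ₐ[K] Matrix (Fin n) (Fin n) Ω} {x : D} (hx : x ∈ GU f) :
    x ∈ unitary D := Unitary.mem_iff.mpr ⟨gu_star_mul hx, hx.1⟩

variable {F E : Type} [NormedField F] [ProperSpace F] [Algebra k F] [Ring E] [Algebra F E]
  (BE : Basis (Fin N) F E) (I : Inv F E) (B : Basis (Fin N) k D)
  (a : AbsoluteValue k ℝ) (jm : D →+* E)

/-- A local model of the algebra at the place of the absolute value `a`. -/
structure Mdl : Prop where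
  smul : ∀ (a : k) x, jm (a • x) = algebraMap k F a • jm x
  basis : ∀ i, BE i = jm (B i)
  star : ∀ x, I.τ (jm x) = jm (star x)
  norm : ∀ x : k, ‖algebraMap k F x‖ = a x

variable {BE I B a jm} {v : HeightOneSpectrum (𝓞 k)}

theorem Mdl.repr (h : Mdl BE I B a jm) (x : D) (i : Fin N) :
    BE.repr (jm x) i = algebraMap k F (B.repr x i) := by
  have h1 : jm x = ∑ i, algebraMap k F (B.repr x i) • BE i := by
    conv_lhs => rw [← B.sum_repr x]
    rw [map_sum]
    exact Finset.sum_congr rfl fun i _ => by rw [h.smul, h.basis]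
  rw [h1, BE.repr_sum_self]

theorem Mdl.ne (h : Mdl BE I B a jm) (x : D) : H182.ne BE (jm x) = na B a x := by
  refine Finset.sum_congr rfl fun i _ => ?_
  rw [h.repr, h.norm]

theorem Mdl.ce (h : Mdl BE I B a jm) (x : D) : H182.ce BE (jm x) = nc B a x := by
  refine Finset.sum_congr rfl fun i _ => ?_
  rw [h.basis, ← map_mul, ← map_mul, ← map_sub, h.ne]

/-- The map of unitary groups. -/
noncomputable def Mdl.gU (h : Mdl BE I B a jm) : unitary D →* UT BE I := Two.gU BE jm I h.star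

theorem Mdl.gU_val (h : Mdl BE I B a jm) (t : unitary D) : (h.gU t).val = jm t := rfl

/-- The closure of the rational special unitary group. -/
noncomputable def Mdl.cl (h : Mdl BE I B a jm) (f : D →ₐ[K] Matrix (Fin n) (Fin n) Ω) :
    Subgroup (UT BE I) := ((SUu f).map h.gU).topologicalClosure

/-- The local property of closed normal subgroups. -/
def Mdl.Loc (h : Mdl BE I B a jm) (f : D →ₐ[K] Matrix (Fin n) (Fin n) Ω) : Prop :=
  ∀ H : Subgroup (UT BE I), IsClosed (H : Set (UT BE I)) →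
    (∀ g ∈ h.cl f, ∀ x ∈ H, g * x * g⁻¹ ∈ H) → (∃ x ∈ H, ∃ y : E, x.val * y ≠ y * x.val) →
      ∀ t ∈ SUu f, h.gU t ∈ H

/-- The approximable elements. -/
def HH (h : Mdl BE I B (fa v) jm) (q : HeightOneSpectrum (𝓞 k)) (M : Set D) : Set (UT BE I) :=
  {T | ∀ T1 : Set (HeightOneSpectrum (𝓞 k)), T1.Finite → Bad B ⊆ T1 → ∀ ε : ℝ, 0 < ε →
    ∀ O ∈ 𝓝 T, ∃ t : unitary D, (t : D) ∈ M ∧ (t : D) ∈ Lv B {v, q} T1 ε ∧ h.gU t ∈ O}

variable (f : D →ₐ[K] Matrix (Fin n) (Fin n) Ω)

/-- The group of the approximable elements. -/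
noncomputable def HHg (h : Mdl BE I B (fa v) jm) (hst : ∀ (c : k) (x : D), Star.star (c • x) = c • Star.star x)
    (q : HeightOneSpectrum (𝓞 k)) {M : Set D} (hMG : M ⊆ GU f) (h1 : (1 : D) ∈ M)
    (hmul : ∀ a ∈ M, ∀ b ∈ M, a * b ∈ M) (hinv : ∀ a ∈ M, Star.star a ∈ M) :
    Subgroup (UT BE I) where
  carrier := HH h q M
  mul_mem' := by
    intro S T hS hT T1 hT1 hb ε hε O hO
    obtain ⟨ε', hε', -, -, hm, -⟩ := mul_level (S := {v, q}) hst hT1 hb hε
    have hc : Continuous fun x : UT BE I × UT BE I => x.1 * x.2 := continuous_mul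
    have h2 : (fun x : UT BE I × UT BE I => x.1 * x.2) ⁻¹' O ∈ 𝓝 (S, T) :=
      hc.continuousAt hO
    rw [nhds_prod_eq, mem_prod_iff] at h2
    obtain ⟨O1, hO1, O2, hO2, h3⟩ := h2
    obtain ⟨s1, hs1, hs2, hs3⟩ := hS T1 hT1 hb ε' hε' O1 hO1
    obtain ⟨t1, ht1, ht2, ht3⟩ := hT T1 hT1 hb ε' hε' O2 hO2
    refine ⟨s1 * t1, hmul _ hs1 _ ht1, hm _ hs2 _ ht2, ?_⟩
    rw [map_mul]
    exact h3 (Set.mk_mem_prod hs3 ht3)
  one_mem' := by
    intro T1 hT1 hb ε hε O hO
    refine ⟨1, h1, lv_one hε hb, ?_⟩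
    rw [map_one]
    exact mem_of_mem_nhds hO
  inv_mem' := by
    intro S hS T1 hT1 hb ε hε O hO
    obtain ⟨ε', hε', -, -, -, hs⟩ := mul_level (S := {v, q}) hst hT1 hb hε
    have h2 : (fun x : UT BE I => x⁻¹) ⁻¹' O ∈ 𝓝 S := continuous_inv.continuousAt hO
    obtain ⟨s1, hs1, hs2, hs3⟩ := hS T1 hT1 hb ε' hε' _ h2
    refine ⟨s1⁻¹, hinv _ hs1, hs _ hs2, ?_⟩
    rw [map_inv]
    exact hs3

variable {f}

/-- **Approximation at one place from a local model.** -/
theorem apx_of_model (hS : Setting k K D d s) (h : Mdl BE I B (fa v) jm) (hloc : h.Loc f)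
    (hU : Unb f B v) {q : HeightOneSpectrum (𝓞 k)} (hvq : v ≠ q) {M : Set D}
    (hMG : M ⊆ GU f) (h1 : (1 : D) ∈ M) (hmul : ∀ a ∈ M, ∀ b ∈ M, a * b ∈ M)
    (hinv : ∀ a ∈ M, Star.star a ∈ M) (hn : ∀ g ∈ GU f, ∀ x ∈ M, g * x * g⁻¹ ∈ M)
    (hcoc : Coc B v (GU f) (GU f)) (hinf : Inf B q M) : Apx f B q v M := by
  classical
  have hst : ∀ (c : k) (x : D), Star.star (c • x) = c • Star.star x :=
    fun c x => (Setting.sig hS).map_smul c x
  let H := HHg f h hst q hMG h1 hmul hinv
  -- closedness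
  have hclosed : IsClosed (H : Set (UT BE I)) := by
    rw [← closure_subset_iff_isClosed]
    intro T hT T1 hT1 hb ε hε O hO
    rw [mem_closure_iff_nhds] at hT
    obtain ⟨O', hO'O, hO'o, hTO'⟩ := mem_nhds_iff.mp hO
    obtain ⟨S, hS1, hS2⟩ := hT O' (hO'o.mem_nhds hTO')
    obtain ⟨t, ht1, ht2, ht3⟩ := hS2 T1 hT1 hb ε hε O' (hO'o.mem_nhds hS1)
    exact ⟨t, ht1, ht2, hO'O ht3⟩
  -- normality
  have hnorm1 : ∀ g : unitary D, g ∈ SUu f → ∀ x ∈ H, h.gU g * x * (h.gU g)⁻¹ ∈ H := by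
    intro g hg x hx T1 hT1 hb ε hε O hO
    obtain ⟨Mw, hMw, R, hgB⟩ := exists_bnd (B := B) {v, q} (g := (g : D)) hg.1
    obtain ⟨T', hT', hTT', ε', hε', -, -, hconj⟩ :=
      conj_level (B := B) hst (S := {v, q}) hMw R hT1 hb hε
    have hc : Continuous fun x : UT BE I => h.gU g * x * (h.gU g)⁻¹ := by fun_prop
    obtain ⟨t, ht1, ht2, ht3⟩ := hx T' hT' (hb.trans hTT') ε' hε' _ (hc.continuousAt hO)
    have e : ((g * t * g⁻¹ : unitary D) : D) = (g : D) * t * (g : D)⁻¹ := by
      rw [gu_inv_eq hg]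
      rfl
    refine ⟨g * t * g⁻¹, ?_, ?_, ?_⟩
    · rw [e]
      exact hn _ hg _ ht1
    · rw [e]
      exact hconj _ hgB _ ht2
    · rw [map_mul, map_mul, map_inv]
      exact ht3
  have hnorm : ∀ g ∈ h.cl f, ∀ x ∈ H, g * x * g⁻¹ ∈ H := by
    intro g hg x hx
    have hc : Continuous fun g : UT BE I => g * x * g⁻¹ := by fun_prop
    have h2 : g ∈ closure (((SUu f).map h.gU : Subgroup (UT BE I)) : Set (UT BE I)) := hg
    have h3 := map_mem_closure hc h2 (t := (H : Set (UT BE I))) (by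
      rintro _ ⟨y, hy, rfl⟩
      exact hnorm1 y hy x hx)
    rwa [hclosed.closure_eq] at h3
  -- a noncentral element
  have hne : ∃ x ∈ H, ∃ y : E, x.val * y ≠ y * x.val := by
    obtain ⟨C, hC1, hshell⟩ := shell hS hU hn hcoc hinf hvq
    let Idx := {T : Set (HeightOneSpectrum (𝓞 k)) // T.Finite ∧ Bad B ⊆ T} × {ε : ℝ // 0 < ε}
    let A : Idx → Set (UT BE I) := fun i => h.gU '' {t : unitary D | (t : D) ∈ M ∧
      (t : D) ∈ Lv B {v, q} i.1.1 i.2.1 ∧ 1 ≤ nc B (fa v) (t : D) ∧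
      na B (fa v) ((t : D) - 1) ≤ C * 1}
    have hA : ∀ i, (A i).Nonempty := by
      intro i
      obtain ⟨z, hz1, hz2, hz3, hz4⟩ := hshell 1 one_pos i.1.1 i.1.2.1 i.1.2.2 i.2.1 i.2.2
      exact ⟨_, ⟨z, gu_unitary (hMG hz1)⟩, ⟨hz1, hz2, hz3, hz4⟩, rfl⟩
    have hdir : Directed (· ≥ ·) fun i => 𝓟 (A i) := by
      intro i i'
      refine ⟨(⟨i.1.1 ∪ i'.1.1, i.1.2.1.union i'.1.2.1, i.1.2.2.trans Set.subset_union_left⟩,
        ⟨min 1 (min i.2.1 i'.2.1), lt_min one_pos (lt_min i.2.2 i'.2.2)⟩), ?_, ?_⟩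
      · refine principal_mono.mpr (Set.image_mono ?_)
        rintro t ⟨h1, h2, h3, h4⟩
        exact ⟨h1, lv_mono Set.subset_union_left i.1.2.2
          ((min_le_right _ _).trans (min_le_left _ _)) (min_le_left _ _) h2, h3, h4⟩
      · refine principal_mono.mpr (Set.image_mono ?_)
        rintro t ⟨h1, h2, h3, h4⟩
        exact ⟨h1, lv_mono Set.subset_union_right i'.1.2.2
          ((min_le_right _ _).trans (min_le_right _ _)) (min_le_left _ _) h2, h3, h4⟩
    have hidx : Nonempty Idx := ⟨(⟨Bad B, finite_Bad B, subset_rfl⟩, ⟨1, one_pos⟩)⟩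
    have hnb : (⨅ i, 𝓟 (A i)).NeBot :=
      iInf_neBot_of_directed hdir fun i => principal_neBot_iff.mpr (hA i)
    -- the compact set
    obtain ⟨R, hR⟩ : ∃ R : ℝ, R = C * 1 + H182.ne BE (1 : E) := ⟨_, rfl⟩
    have hcomp := isCompact_bdd BE I R
    have hsub : ∀ i, A i ⊆ {T : UT BE I | ∀ i, ‖BE.repr T.val i‖ ≤ R} ∩ {T | 1 ≤ H182.ce BE T.val} := by
      rintro i _ ⟨t, ⟨-, -, h3, h4⟩, rfl⟩
      refine ⟨fun l => ?_, ?_⟩
      · refine (coord_le_ne BE _ l).trans ?_
        have e : (h.gU t).val = jm ((t : D) - 1) + 1 := by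
          rw [h.gU_val, map_sub, map_one, sub_add_cancel]
        rw [e, hR]
        refine (ne_add_le BE _ _).trans (add_le_add ?_ le_rfl)
        rw [h.ne]
        exact h4
      · rw [Set.mem_ofPred_eq, h.gU_val, h.ce]
        exact h3
    have hcomp2 : IsCompact ({T : UT BE I | ∀ i, ‖BE.repr T.val i‖ ≤ R} ∩
        {T | 1 ≤ H182.ce BE T.val}) :=
      hcomp.inter_right (isClosed_le continuous_const (continuous_ce BE I))
    obtain ⟨b, hbK, hb⟩ := hcomp2 (f := ⨅ i, 𝓟 (A i))
      ((iInf_le _ hidx.some).trans (principal_mono.mpr (hsub _)))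
    refine ⟨b, ?_, ?_⟩
    · intro T1 hT1 hb1 ε hε O hO
      have h2 : (O ∩ A (⟨T1, hT1, hb1⟩, ⟨ε, hε⟩)).Nonempty := by
        have h3 : (𝓝 b ⊓ ⨅ i, 𝓟 (A i)).NeBot := hb
        have h4 : O ∩ A (⟨T1, hT1, hb1⟩, ⟨ε, hε⟩) ∈ 𝓝 b ⊓ ⨅ i, 𝓟 (A i) :=
          inter_mem_inf hO (mem_iInf_of_mem (⟨T1, hT1, hb1⟩, ⟨ε, hε⟩) (mem_principal_self _))
        exact h3.nonempty_of_mem h4
      obtain ⟨_, hO1, t, ⟨g1, g2, -, -⟩, rfl⟩ := h2
      exact ⟨t, g1, g2, hO1⟩
    · by_contra hcon
      push Not at hcon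
      have h2 : H182.ce BE b.val = 0 := by
        refine Finset.sum_eq_zero fun i _ => ?_
        rw [hcon (BE i), sub_self]
        simp [H182.ne]
      have h3 : 1 ≤ H182.ce BE b.val := hbK.2
      rw [h2] at h3
      exact absurd h3 (by norm_num)
  -- conclusion
  have hall := hloc H hclosed hnorm hne
  intro T1 hT1 hb ε hε g hg δ hδ
  have hgu := gu_unitary hg
  have h2 := hall ⟨g, hgu⟩ hg
  have hO : {T : UT BE I | H182.ne BE (T.val - jm g) < δ} ∈ 𝓝 (h.gU ⟨g, hgu⟩) := by
    refine IsOpen.mem_nhds ?_ ?_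
    · exact isOpen_lt (continuous_ne BE I LinearMap.id (jm g)) continuous_const
    · rw [Set.mem_ofPred_eq, h.gU_val, sub_self]
      simpa [H182.ne] using hδ
  obtain ⟨t, ht1, ht2, ht3⟩ := h2 T1 hT1 hb ε hε _ hO
  refine ⟨t, ht1, ht2, ?_⟩
  rw [Set.mem_ofPred_eq, h.gU_val, ← map_sub, h.ne] at ht3
  exact ht3

end model

end Vale.Agent.P011.H182
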