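import Vale.Agent.P011.H487.LinMat
import Vale.Agent.P011.One.GLGen

/-!
Subgroups of the general linear group over a division ring which are normalised by the
commutators.
-/

open Matrix

set_option linter.unusedSectionVars false

namespace Vale.Agent.P011.H182

open Vale.Agent.P011.H487.Lin Vale.Agent.P011.One

variable {E : Type} [DivisionRing E] [CharZero E] {r : ℕ}

/-- Transvections are commutators. -/
theorem tvm_comm (a x : Fin r → E) (h : x ⬝ᵥ a = 0) : ∃ g : (Matrix (Fin r) (Fin r) E)ˣ,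
    g * tvm a x h * g⁻¹ * (tvm a x h)⁻¹ = tvm a x h := by
  by_cases ha : a = 0
  · subst ha
    have h1 : tvm (0 : Fin r → E) x h = 1 := by
      apply Units.ext
      rw [tvm_val, Units.val_one, zero_vecMulVec, add_zero]
    exact ⟨1, by rw [h1]; group⟩
  obtain ⟨i, hi⟩ : ∃ i, a i ≠ 0 := by
    by_contra hcon
    push Not at hcon
    exact ha (funext hcon)
  let y : Fin r → E := Pi.single i (a i)⁻¹
  have hy : y ⬝ᵥ a = 1 := by
    rw [single_dotProduct, inv_mul_cancel₀ hi]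
  have hmul : ∀ (u v w z : Fin r → E), vecMulVec u v * vecMulVec w z =
      vecMulVec u ((v ⬝ᵥ w) • z) := by
    intro u v w z
    ext p q
    rw [Matrix.mul_apply, vecMulVec_apply, Pi.smul_apply, smul_eq_mul, dotProduct, Finset.sum_mul,
      Finset.mul_sum]
    refine Finset.sum_congr rfl fun l _ => ?_
    rw [vecMulVec_apply, vecMulVec_apply]
    simp only [mul_assoc]
  have h2 : (2 : E) ≠ 0 := two_ne_zero
  have hyy : vecMulVec a y * vecMulVec a y = vecMulVec a y := by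
    rw [hmul, hy, one_smul]
  have hayx : vecMulVec a y * vecMulVec a x = vecMulVec a x := by
    rw [hmul, hy, one_smul]
  have haxy : vecMulVec a x * vecMulVec a y = 0 := by
    rw [hmul, h, zero_smul, vecMulVec_zero]
  have haxx : vecMulVec a x * vecMulVec a x = 0 := by
    rw [hmul, h, zero_smul, vecMulVec_zero]
  let P : Matrix (Fin r) (Fin r) E := vecMulVec a y
  let X : Matrix (Fin r) (Fin r) E := vecMulVec a x
  have hPP : P * P = P := hyy
  have hPX : P * X = X := hayx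
  have hXP : X * P = 0 := haxy
  have hXX : X * X = 0 := haxx
  -- `1 + P` and its inverse `1 - P / 2`
  have hhalf : ∃ Q : Matrix (Fin r) (Fin r) E, Q + Q = P ∧ P * Q = Q ∧ Q * P = Q ∧ X * Q = 0 := by
    refine ⟨vecMulVec a ((2⁻¹ : E) • y), ?_, ?_, ?_, ?_⟩
    · rw [← vecMulVec_add, ← two_smul E, smul_smul, mul_inv_cancel₀ h2, one_smul]
    · change vecMulVec a y * vecMulVec a ((2⁻¹ : E) • y) = _
      rw [hmul, hy, one_smul]
    · change vecMulVec a ((2⁻¹ : E) • y) * vecMulVec a y = _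
      rw [hmul, smul_dotProduct, hy, smul_eq_mul, mul_one]
    · change vecMulVec a x * vecMulVec a ((2⁻¹ : E) • y) = _
      rw [hmul, h, zero_smul, vecMulVec_zero]
  obtain ⟨Q, hQQ, hPQ, hQP, hXQ⟩ := hhalf
  let g : (Matrix (Fin r) (Fin r) E)ˣ := ⟨1 + P, 1 - Q, by
      calc (1 + P) * (1 - Q) = 1 + P - Q - P * Q := by noncomm_ring
        _ = 1 + P - (Q + Q) := by rw [hPQ]; abel
        _ = 1 := by rw [hQQ]; abel, by
      calc (1 - Q) * (1 + P) = 1 + P - Q - Q * P := by noncomm_ring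
        _ = 1 + P - (Q + Q) := by rw [hQP]; abel
        _ = 1 := by rw [hQQ]; abel⟩
  refine ⟨g, ?_⟩
  rw [mul_inv_eq_iff_eq_mul]
  apply Units.ext
  change (1 + P) * (1 + X) * (1 - Q) = (1 + X) * (1 + X)
  have e1 : (1 + P) * (1 + X) = 1 + P + X + X := by
    calc (1 + P) * (1 + X) = 1 + P + X + P * X := by noncomm_ring
      _ = _ := by rw [hPX]
  have e2 : (1 + P + X + X) * (1 - Q) = 1 + P + X + X - (Q + P * Q) - X * Q - X * Q := by
    noncomm_ring
  have e3 : (1 + X) * (1 + X) = 1 + X + X + X * X := by noncomm_ring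
  rw [e1, e2, e3, hPQ, hXQ, hQQ, hXX]
  abel

/-- Conjugates of transvections. -/
theorem tvm_conj (g : (Matrix (Fin r) (Fin r) E)ˣ) (a x : Fin r → E) (h : x ⬝ᵥ a = 0) :
    ∃ (a' x' : Fin r → E) (h' : x' ⬝ᵥ a' = 0), g * tvm a x h * g⁻¹ = tvm a' x' h' := by
  let G : Matrix (Fin r) (Fin r) E := (g : Matrix (Fin r) (Fin r) E)
  let G' : Matrix (Fin r) (Fin r) E :=
    ((g⁻¹ : (Matrix (Fin r) (Fin r) E)ˣ) : Matrix (Fin r) (Fin r) E)
  have hG : G' * G = 1 := g.inv_mul
  have hG' : G * G' = 1 := g.mul_inv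
  have h1 : (x ᵥ* G') ⬝ᵥ (G *ᵥ a) = 0 := by
    rw [dotProduct_mulVec, vecMul_vecMul, hG, vecMul_one, h]
  refine ⟨G *ᵥ a, x ᵥ* G', h1, ?_⟩
  apply Units.ext
  change G * (1 + vecMulVec a x) * G' = 1 + vecMulVec (G *ᵥ a) (x ᵥ* G')
  have h2 : G * vecMulVec a x * G' = vecMulVec (G *ᵥ a) (x ᵥ* G') := by
    rw [mul_vecMulVec, vecMulVec_mul]
  rw [mul_add, add_mul, mul_one, hG', h2]

/-- **Noncentral subgroups normalised by the commutators contain the commutators.** -/
theorem comm_le_of_norm (hr : 2 ≤ r) {Γ : Subgroup (Matrix (Fin r) (Fin r) E)ˣ}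
    (hΓ : ∀ S T : (Matrix (Fin r) (Fin r) E)ˣ, ∀ γ ∈ Γ,
      (S * T * S⁻¹ * T⁻¹) * γ * (S * T * S⁻¹ * T⁻¹)⁻¹ ∈ Γ)
    (hns : ∃ T ∈ Γ, ∃ Y : Matrix (Fin r) (Fin r) E, (T : Matrix (Fin r) (Fin r) E) * Y ≠ Y * T) :
    commutator (Matrix (Fin r) (Fin r) E)ˣ ≤ Γ := by
  have h1 : ∀ (a x : Fin r → E) (h : x ⬝ᵥ a = 0), tvm a x h ∈ Γ := by
    refine fun a x h => mat_S2 (a := (2 : E)) two_ne_zero
      (fun x => (Nat.cast_commute 2 x).eq) (by norm_num) (by rw [Fintype.card_fin]; exact hr)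
      ?_ ?_ a x h
    · intro a x h T hT
      obtain ⟨g, hg⟩ := tvm_comm a x h
      rw [← hg]
      exact hΓ g (tvm a x h) T hT
    · obtain ⟨T, hT, Y, hY⟩ := hns
      refine ⟨T, hT, fun c hc hTc => hY ?_⟩
      rw [hTc]
      ext i j
      rw [diagonal_mul, mul_diagonal]
      exact hc _
  let N : Subgroup (Matrix (Fin r) (Fin r) E)ˣ := Subgroup.closure
    {t | ∃ (a x : Fin r → E) (h : x ⬝ᵥ a = 0), t = tvm a x h}
  have hN : N.Normal := by
    refine ⟨fun t ht g => ?_⟩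
    change t ∈ Subgroup.closure _ at ht
    induction ht using Subgroup.closure_induction with
    | mem t ht =>
      obtain ⟨a, x, h, rfl⟩ := ht
      obtain ⟨a', x', h', he⟩ := tvm_conj g a x h
      rw [he]
      exact Subgroup.subset_closure ⟨_, _, _, rfl⟩
    | one => rw [mul_one, mul_inv_cancel]; exact one_mem _
    | mul s t _ _ hs ht =>
      have e : g * (s * t) * g⁻¹ = (g * s * g⁻¹) * (g * t * g⁻¹) := by group
      rw [e]
      exact mul_mem hs ht
    | inv t _ ht =>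
      have e : g * t⁻¹ * g⁻¹ = (g * t * g⁻¹)⁻¹ := by group
      rw [e]
      exact inv_mem ht
  have h2 : N ≤ Γ := by
    rw [Subgroup.closure_le]
    rintro _ ⟨a, x, h, rfl⟩
    exact h1 a x h
  refine (comm_le_of_tvu hr N ?_).trans h2
  intro i j hij c
  have hx : (Pi.single j 1 : Fin r → E) ⬝ᵥ Pi.single i c = 0 := by
    rw [dotProduct_single, Pi.single_eq_of_ne hij, zero_mul]
  have e : tvu hij c = tvm (Pi.single i c) (Pi.single j 1) hx := by
    apply Units.ext
    rw [tvu_val, tvm_val]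
    congr 1
    ext p q
    rw [vecMulVec_apply, Matrix.single_apply]
    by_cases h1 : i = p
    · by_cases h2 : j = q
      · subst h1 h2; simp
      · rw [Pi.single_eq_of_ne (Ne.symm h2), mul_zero, if_neg (fun h => h2 h.2)]
    · rw [Pi.single_eq_of_ne (Ne.symm h1), zero_mul, if_neg (fun h => h1 h.1)]
  rw [e]
  exact Subgroup.subset_closure ⟨_, _, _, rfl⟩

end Vale.Agent.P011.H182
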