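import Vale.Agent.P011.H182.Dens
import Vale.Agent.P011.H182.GLx
import Vale.Agent.P011.One.SplitLT

/-!
Approximation and unboundedness at the finite places which split.
-/

open Module NumberField IsDedekindDomain Filter Topology Matrix TensorProduct

set_option linter.unusedSectionVars false

namespace Vale.Agent.P011.H182

open Vale.Agent.P011.Arith Vale.Agent.P011.Even Vale.Agent.P011.Two Vale.Agent.P011.One

section swap

variable {F A : Type} [NormedField F] [Ring A] [Algebra F A]

/-- The involution which exchanges the two factors. -/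
def swp (F A : Type) [NormedField F] [Ring A] [Algebra F A] : Inv F (A × Aᵐᵒᵖ) where
  τ := { toFun := fun x => (x.2.unop, MulOpposite.op x.1)
         map_add' := fun _ _ => rfl
         map_smul' := fun _ _ => rfl }
  mul := fun _ _ => rfl
  inv := fun _ => rfl

variable {ι : Type} [Fintype ι] (BE : Basis ι F (A × Aᵐᵒᵖ))

/-- The units as unitary elements. -/
def mkU : Aˣ →* UT BE (swp F A) where
  toFun a := ⟨⟨((a : A), MulOpposite.op ((a⁻¹ : Aˣ) : A)),
      (((a⁻¹ : Aˣ) : A), MulOpposite.op (a : A)),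
      Prod.ext a.mul_inv (MulOpposite.unop_injective a.mul_inv),
      Prod.ext a.inv_mul (MulOpposite.unop_injective a.inv_mul)⟩,
    Prod.ext a.mul_inv (MulOpposite.unop_injective a.mul_inv)⟩
  map_one' := by
    apply UT.ext
    refine Prod.ext rfl (MulOpposite.unop_injective ?_)
    change (((1 : Aˣ)⁻¹ : Aˣ) : A) = 1
    rw [inv_one, Units.val_one]
  map_mul' a b := by
    apply UT.ext
    refine Prod.ext rfl (MulOpposite.unop_injective ?_)
    change (((a * b)⁻¹ : Aˣ) : A) = ((b⁻¹ : Aˣ) : A) * ((a⁻¹ : Aˣ) : A)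
    rw [_root_.mul_inv_rev, Units.val_mul]

theorem mkU_val (a : Aˣ) : (mkU BE a).val = ((a : A), MulOpposite.op ((a⁻¹ : Aˣ) : A)) := rfl

theorem mkU_surj (T : UT BE (swp F A)) : ∃ a : Aˣ, mkU BE a = T := by
  have h1 := T.mul_star
  have h2 := (T⁻¹).mul_star
  rw [UT.val_inv, (swp F A).inv] at h2
  have e1 : T.val.1 * T.val.2.unop = 1 := congrArg Prod.fst h1
  have e2 : T.val.2.unop * T.val.1 = 1 := congrArg Prod.fst h2
  refine ⟨⟨T.val.1, T.val.2.unop, e1, e2⟩, ?_⟩
  apply UT.ext
  exact Prod.ext rfl (MulOpposite.unop_injective rfl)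

end swap

section model

variable {k K D : Type} [Field k] [NumberField k] [Field K] [NumberField K] [StarRing K]
  [DivisionRing D] [StarRing D] [Algebra k K] [Algebra k D] [Algebra K D] [IsScalarTower k K D]
  [StarModule K D] [Algebra.IsCentral K D] [FiniteDimensional K D]
  {d : kˣ} {s : K} {N n : ℕ} {Ω : Type} [Field Ω] [Algebra K Ω]

/-- **The places which split, abstract form.** -/
theorem exists_split {F : Type} [NormedField F] [ProperSpace F] [Algebra k F] [Algebra K F]
    (hS : Setting k K D d s) (hdeg : finrank K D = n ^ 2)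
    (B : Basis (Fin N) k D) (a : AbsoluteValue k ℝ)
    (f : D →ₐ[K] Matrix (Fin n) (Fin n) Ω)
    (hkK : ∀ c : k, algebraMap K F (algebraMap k K c) = algebraMap k F c)
    (hnorm : ∀ x : k, ‖algebraMap k F x‖ = a x)
    (hden : ∀ (y : F) (ε : ℝ), 0 < ε → ∃ x : k, ‖algebraMap k F x - y‖ < ε)
    (hbig : ∃ t : F, 1 < ‖t‖)
    {r : ℕ} (hr : 2 ≤ r) {Δ : Type} [DivisionRing Δ] [Algebra F Δ]
    (ψ : F ⊗[K] D ≃ₐ[F] Matrix (Fin r) (Fin r) Δ) :
    ∃ (E : Type) (_ : Ring E) (_ : Algebra F E) (BE : Basis (Fin N) F E) (I : Two.Inv F E)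
      (jm : D →+* E) (h : Mdl BE I B a jm), h.Gm f := by
  classical
  have hcharD : CharZero D := charZero_of_injective_algebraMap (algebraMap K D).injective
  have hcharF : CharZero F := charZero_of_injective_algebraMap (algebraMap K F).injective
  have hcharΔ : CharZero Δ := charZero_of_injective_algebraMap (algebraMap F Δ).injective
  have hfinQ : FiniteDimensional ℚ D := FiniteDimensional.trans ℚ K D
  have hst : ∀ (c : k) (x : D), star (c • x) = c • star x :=
    fun c x => (Setting.sig hS).map_smul c x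
  have hne : ∃ z : K, star z ≠ z := by
    refine ⟨s, fun h => ?_⟩
    rw [hS.star_s] at h
    exact hS.s_ne (self_eq_neg.mp h.symm)
  let A := F ⊗[K] D
  let i1 : D →+* A := ((Algebra.TensorProduct.includeRight : D →ₐ[K] F ⊗[K] D) : D →+* F ⊗[K] D)
  have hi1 : ∀ x, i1 x = (1 : F) ⊗ₜ[K] x := fun x => rfl
  have hi1K : ∀ (c : K) (x : D), i1 (c • x) = algebraMap K F c • i1 x := by
    intro c x
    rw [hi1, hi1, ← TensorProduct.smul_tmul, Algebra.smul_def, mul_one, TensorProduct.smul_tmul',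
      smul_eq_mul, mul_one]
  let i2 : D →+* Aᵐᵒᵖ :=
    { toFun := fun x => MulOpposite.op (i1 (star x))
      map_one' := by rw [star_one, map_one]; rfl
      map_mul' := fun x y => by rw [star_mul, map_mul]; rfl
      map_zero' := by rw [star_zero, map_zero]; rfl
      map_add' := fun x y => by rw [star_add, map_add]; rfl }
  let jm : D →+* A × Aᵐᵒᵖ := i1.prod i2
  have hjm : ∀ x, jm x = (i1 x, MulOpposite.op (i1 (star x))) := fun x => rfl
  have hsm : ∀ (a : k) (x : D), jm (a • x) = algebraMap k F a • jm x := by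
    intro a x
    have e : ∀ y : D, i1 (a • y) = algebraMap k F a • i1 y := by
      intro y
      have e1 : a • y = algebraMap k K a • y := by rw [algebraMap_smul]
      rw [e1, hi1K, hkK]
    rw [hjm, hjm, hst, e, e]
    rfl
  -- spanning
  have hθ : algebraMap K F s ≠ 0 := (map_ne_zero _).mpr hS.s_ne
  let Sp : Submodule F (A × Aᵐᵒᵖ) := Submodule.span F (Set.range fun j => jm (B j))
  have hj : ∀ x : D, jm x ∈ Sp := by
    intro x
    have e : jm x = ∑ j, algebraMap k F (B.repr x j) • jm (B j) := by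
      conv_lhs => rw [← B.sum_repr x]
      rw [map_sum]
      exact Finset.sum_congr rfl fun j _ => hsm _ _
    rw [e]
    exact Submodule.sum_mem _ fun j _ => Submodule.smul_mem _ _
      (Submodule.subset_span ⟨j, rfl⟩)
  have hjs : ∀ x : D, jm (s • x) = (algebraMap K F s • i1 x,
      MulOpposite.op (-(algebraMap K F s) • i1 (star x))) := by
    intro x
    rw [hjm, hS.star_smul, hS.star_s, hi1K, hi1K, map_neg]
  have h2 : (2 : F) ≠ 0 := two_ne_zero
  have hleft : ∀ x : D, (i1 x, (0 : Aᵐᵒᵖ)) ∈ Sp := by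
    intro x
    have e : (i1 x, (0 : Aᵐᵒᵖ)) = (2 : F)⁻¹ • (jm x + (algebraMap K F s)⁻¹ • jm (s • x)) := by
      rw [hjs, hjm]
      refine Prod.ext ?_ (MulOpposite.unop_injective ?_)
      · change i1 x = (2 : F)⁻¹ • (i1 x + (algebraMap K F s)⁻¹ • (algebraMap K F s • i1 x))
        rw [smul_smul, inv_mul_cancel₀ hθ, one_smul, ← two_smul F (i1 x), smul_smul,
          inv_mul_cancel₀ h2, one_smul]
      · change (0 : A) = (2 : F)⁻¹ • (i1 (star x) + (algebraMap K F s)⁻¹ •
          (-(algebraMap K F s) • i1 (star x)))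
        rw [smul_smul, mul_neg, inv_mul_cancel₀ hθ, neg_one_smul, add_neg_cancel, smul_zero]
    rw [e]
    exact Submodule.smul_mem _ _ (Submodule.add_mem _ (hj x) (Submodule.smul_mem _ _ (hj _)))
  have hright : ∀ x : D, ((0 : A), MulOpposite.op (i1 x)) ∈ Sp := by
    intro x
    have e : ((0 : A), MulOpposite.op (i1 x)) = jm (star x) - (i1 (star x), (0 : Aᵐᵒᵖ)) := by
      rw [hjm, star_star]
      refine Prod.ext ?_ (MulOpposite.unop_injective ?_)
      · change (0 : A) = i1 (star x) - i1 (star x)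
        rw [sub_self]
      · change i1 x = i1 x - 0
        rw [sub_zero]
    rw [e]
    exact Submodule.sub_mem _ (hj _) (hleft _)
  have hspanL : ∀ a : A, (a, (0 : Aᵐᵒᵖ)) ∈ Sp := by
    intro a
    change F ⊗[K] D at a
    induction a using TensorProduct.induction_on with
    | zero => exact Submodule.zero_mem _
    | tmul c x =>
      have e : ((c ⊗ₜ[K] x : A), (0 : Aᵐᵒᵖ)) = c • (i1 x, (0 : Aᵐᵒᵖ)) := by
        refine Prod.ext ?_ (smul_zero c).symm
        change c ⊗ₜ[K] x = c • ((1 : F) ⊗ₜ[K] x)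
        rw [TensorProduct.smul_tmul', smul_eq_mul, mul_one]
      rw [e]
      exact Submodule.smul_mem _ _ (hleft x)
    | add a b ha hb =>
      have e : ((a + b : A), (0 : Aᵐᵒᵖ)) = (a, 0) + (b, 0) := Prod.ext rfl (add_zero _).symm
      rw [e]
      exact Submodule.add_mem _ ha hb
  have hspanR : ∀ a : A, ((0 : A), MulOpposite.op a) ∈ Sp := by
    intro a
    change F ⊗[K] D at a
    induction a using TensorProduct.induction_on with
    | zero => exact Submodule.zero_mem _
    | tmul c x =>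
      have e : ((0 : A), MulOpposite.op (c ⊗ₜ[K] x : A)) = c • ((0 : A), MulOpposite.op (i1 x)) := by
        refine Prod.ext (smul_zero c).symm (MulOpposite.unop_injective ?_)
        change c ⊗ₜ[K] x = c • ((1 : F) ⊗ₜ[K] x)
        rw [TensorProduct.smul_tmul', smul_eq_mul, mul_one]
      rw [e]
      exact Submodule.smul_mem _ _ (hright x)
    | add a b ha hb =>
      have e : ((0 : A), MulOpposite.op (a + b : A)) = (0, MulOpposite.op a) + (0, MulOpposite.op b) :=
        Prod.ext (add_zero _).symm rfl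
      rw [e]
      exact Submodule.add_mem _ ha hb
  have htop : ⊤ ≤ Sp := by
    rintro ⟨a, b⟩ -
    have e : (a, b) = (a, (0 : Aᵐᵒᵖ)) + ((0 : A), b) := Prod.ext (add_zero _).symm (zero_add _).symm
    rw [e]
    exact Submodule.add_mem _ (hspanL a) (hspanR b.unop)
  -- the basis
  have hfA : Module.finrank F A = n ^ 2 := by
    rw [← hdeg]
    exact Module.finrank_baseChange
  have hfinA : Module.Finite F A := inferInstance
  have hfO : Module.finrank F Aᵐᵒᵖ = n ^ 2 := by
    rw [← hfA]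
    exact (LinearEquiv.finrank_eq (MulOpposite.opLinearEquiv F : A ≃ₗ[F] Aᵐᵒᵖ)).symm
  have hfinO : Module.Finite F Aᵐᵒᵖ :=
    Module.Finite.equiv (MulOpposite.opLinearEquiv F : A ≃ₗ[F] Aᵐᵒᵖ)
  have hcard : Module.finrank F (A × Aᵐᵒᵖ) = N := by
    have h1 : finrank k D = N := by rw [Module.finrank_eq_card_basis B, Fintype.card_fin]
    have h2 := Module.finrank_mul_finrank k K D
    rw [hS.rank, hdeg, h1] at h2
    rw [Module.finrank_prod, hfA, hfO, ← h2]
    ring
  let BE : Basis (Fin N) F (A × Aᵐᵒᵖ) :=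
    basisOfTopLeSpanOfCardEqFinrank (fun j => jm (B j)) htop (by rw [Fintype.card_fin, hcard])
  have hBE : ∀ j, BE j = jm (B j) := fun j => by
    rw [coe_basisOfTopLeSpanOfCardEqFinrank]
  have hmdl : Mdl BE (swp F A) B a jm :=
    { smul := hsm
      basis := hBE
      star := fun x => by
        rw [hjm, hjm, star_star]
        rfl
      norm := hnorm }
  -- density
  have hshift : ∀ S : UT BE (swp F A), ∃ Z : UT BE (swp F A), (∀ W, Z * W = W * Z) ∧
      IsUnit (1 + (Z * S).val) := by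
    intro S
    obtain ⟨a, rfl⟩ := mkU_surj BE S
    obtain ⟨t, ht, htu⟩ := exists_shift (F := F) a
    refine ⟨mkU BE t, fun W => ?_, ?_⟩
    · obtain ⟨w, rfl⟩ := mkU_surj BE W
      rw [← map_mul, ht, map_mul]
    · rw [← map_mul, mkU_val]
      obtain ⟨V, hV⟩ := htu
      have h3 : IsUnit (1 + (((t * a)⁻¹ : Aˣ) : A)) := by
        have e : 1 + (((t * a)⁻¹ : Aˣ) : A) = (((t * a)⁻¹ : Aˣ) : A) * (1 + ((t * a : Aˣ) : A)) := by
          rw [mul_add, mul_one, Units.inv_mul, add_comm]
        rw [e, ← hV]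
        exact (Units.isUnit _).mul V.isUnit
      rw [Prod.isUnit_iff]
      refine ⟨?_, ?_⟩
      · change IsUnit (1 + ((t * a : Aˣ) : A))
        rw [← hV]
        exact V.isUnit
      · change IsUnit (1 + MulOpposite.op (((t * a)⁻¹ : Aˣ) : A))
        exact h3.op
  have hcomm := comm_mem_cl (f := f) hmdl hden hshift
  refine ⟨A × Aᵐᵒᵖ, inferInstance, inferInstance, BE, swp F A, jm, hmdl, ?_, hshift, ?_, ?_⟩
  · -- closed normal subgroups
    intro H _ hHn ⟨x, hxH, y, hxy⟩ t ht
    let Ψ : Aˣ ≃* (Matrix (Fin r) (Fin r) Δ)ˣ :=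
      Units.mapEquiv (ψ : F ⊗[K] D ≃* Matrix (Fin r) (Fin r) Δ)
    let Γ : Subgroup (Matrix (Fin r) (Fin r) Δ)ˣ := (H.comap (mkU BE)).map (Ψ : Aˣ →* _)
    have hΓ : ∀ S T : (Matrix (Fin r) (Fin r) Δ)ˣ, ∀ γ ∈ Γ,
        (S * T * S⁻¹ * T⁻¹) * γ * (S * T * S⁻¹ * T⁻¹)⁻¹ ∈ Γ := by
      rintro S T _ ⟨γ, hγ, rfl⟩
      obtain ⟨S, rfl⟩ := Ψ.surjective S
      obtain ⟨T, rfl⟩ := Ψ.surjective T
      refine ⟨(S * T * S⁻¹ * T⁻¹) * γ * (S * T * S⁻¹ * T⁻¹)⁻¹, ?_, ?_⟩
      · have h3 := hHn _ (hcomm (mkU BE S) (mkU BE T)) _ hγ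
        rw [← map_inv, ← map_inv, ← map_mul, ← map_mul, ← map_mul, ← map_inv, ← map_mul,
          ← map_mul] at h3
        exact h3
      · simp only [MonoidHom.coe_coe, map_mul, map_inv]
    have hns : ∃ T ∈ Γ, ∃ Y : Matrix (Fin r) (Fin r) Δ, (T : Matrix (Fin r) (Fin r) Δ) * Y ≠ Y * T := by
      obtain ⟨a, rfl⟩ := mkU_surj BE x
      have h3 : ∃ y : A, (a : A) * y ≠ y * a := by
        by_contra hcon
        push Not at hcon
        apply hxy
        rw [mkU_val]
        refine Prod.ext (hcon y.1) (MulOpposite.unop_injective ?_)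
        change y.2.unop * ((a⁻¹ : Aˣ) : A) = ((a⁻¹ : Aˣ) : A) * y.2.unop
        have h4 := hcon y.2.unop
        calc y.2.unop * ((a⁻¹ : Aˣ) : A) =
            ((a⁻¹ : Aˣ) : A) * ((a : A) * y.2.unop) * ((a⁻¹ : Aˣ) : A) := by
              rw [← mul_assoc, Units.inv_mul, one_mul]
          _ = ((a⁻¹ : Aˣ) : A) * y.2.unop * ((a : A) * ((a⁻¹ : Aˣ) : A)) := by
              rw [h4]; simp only [mul_assoc]
          _ = _ := by rw [Units.mul_inv, mul_one]
      obtain ⟨y, hy⟩ := h3
      refine ⟨Ψ a, ⟨a, hxH, rfl⟩, ψ y, fun h4 => hy ?_⟩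
      apply ψ.injective
      rw [map_mul, map_mul]
      exact h4
    have h3 := comm_le_of_norm hr hΓ hns
    have ht0 : (t : D) ≠ 0 := gu_ne ht
    have h4 : Units.mk0 (t : D) ht0 ∈ commutator Dˣ := mem_commutator hdeg hne f ht.1 ht.2
    let Φ : Dˣ →* (Matrix (Fin r) (Fin r) Δ)ˣ := (Ψ : Aˣ →* _).comp (Units.map (i1 : D →* A))
    have h5 : Φ (Units.mk0 (t : D) ht0) ∈ commutator (Matrix (Fin r) (Fin r) Δ)ˣ := by
      have h6 : (commutator Dˣ).map Φ ≤ commutator (Matrix (Fin r) (Fin r) Δ)ˣ := by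
        rw [commutator_def, commutator_def, Subgroup.map_commutator]
        exact Subgroup.commutator_mono le_top le_top
      exact h6 ⟨_, h4, rfl⟩
    obtain ⟨a, ha, hae⟩ := h3 h5
    have h6 : a = Units.map (i1 : D →* A) (Units.mk0 (t : D) ht0) := Ψ.injective hae
    have h7 : mkU BE a = hmdl.gU t := by
      apply UT.ext
      rw [h6, mkU_val]
      refine Prod.ext rfl (MulOpposite.unop_injective ?_)
      change i1 ((t : D)⁻¹) = i1 (star (t : D))
      rw [gu_inv_eq ht]
    rw [← h7]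
    exact ha
  · -- unboundedness
    obtain ⟨t0, ht0⟩ := hbig
    have ht00 : t0 ≠ 0 := by
      rintro rfl
      rw [norm_zero] at ht0
      linarith
    let Ψ : Aˣ ≃* (Matrix (Fin r) (Fin r) Δ)ˣ :=
      Units.mapEquiv (ψ : F ⊗[K] D ≃* Matrix (Fin r) (Fin r) Δ)
    let i : Fin r := ⟨0, by omega⟩
    let j : Fin r := ⟨1, by omega⟩
    have hij : i ≠ j := by
      intro h
      exact absurd (congrArg Fin.val h) (by simp [i, j])
    let x : Δˣ := Units.mk0 (algebraMap F Δ t0) ((map_ne_zero _).mpr ht00)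
    let W : (Matrix (Fin r) (Fin r) Δ)ˣ := tvu hij (1 : Δ) * tvu hij.symm (-1 : Δ) * tvu hij 1
    let T : (Matrix (Fin r) (Fin r) Δ)ˣ := dgu j x * (dgu i x)⁻¹
    have hT : T = W * dgu i x * W⁻¹ * (dgu i x)⁻¹ := by
      have h3 : W * dgu i x = dgu j x * W := weyl hij x
      rw [h3, mul_inv_cancel_right]
    have hTinv : T⁻¹ = dgu i x * (dgu j x)⁻¹ := by
      change (dgu j x * (dgu i x)⁻¹)⁻¹ = _
      rw [_root_.mul_inv_rev, inv_inv]
    have hx : (x : Δ) = algebraMap F Δ t0 := rfl
    have hxc : ∀ z : Δ, (x : Δ) * z = z * x := fun z => Algebra.commutes t0 z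
    have hxi : ((x⁻¹ : Δˣ) : Δ) = algebraMap F Δ t0⁻¹ := by
      rw [Units.val_inv_eq_inv_val, hx, map_inv₀]
    let Y : Matrix (Fin r) (Fin r) Δ := Matrix.single j i 1
    have hY0 : Y ≠ 0 := by
      intro h
      have h3 := congrFun (congrFun h j) i
      change Matrix.single j i (1 : Δ) j i = 0 at h3
      rw [single_apply_same] at h3
      exact one_ne_zero h3
    have e1 : ∀ z : Δˣ, ((dgu j z : (Matrix (Fin r) (Fin r) Δ)ˣ) : Matrix (Fin r) (Fin r) Δ) * Y =
        Matrix.single j i (z : Δ) := by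
      intro z
      rw [dgu_val, add_mul, one_mul, Matrix.single_mul_single_same, mul_one]
      change Matrix.single j i 1 + _ = _
      rw [← Matrix.single_add, add_sub_cancel]
    have e2 : ∀ (z : Δˣ) (c : Δ), ((dgu i z : (Matrix (Fin r) (Fin r) Δ)ˣ) : Matrix (Fin r) (Fin r) Δ) *
        Matrix.single j i c = Matrix.single j i c := by
      intro z c
      rw [dgu_val, add_mul, one_mul, Matrix.single_mul_single_of_ne _ _ _ _ hij, add_zero]
    have e3 : ∀ (z : Δˣ) (c : Δ), Matrix.single j i c *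
        ((dgu i z : (Matrix (Fin r) (Fin r) Δ)ˣ) : Matrix (Fin r) (Fin r) Δ) =
        Matrix.single j i (c * z) := by
      intro z c
      rw [dgu_val, mul_add, mul_one, Matrix.single_mul_single_same, ← Matrix.single_add, mul_sub,
        mul_one, add_sub_cancel]
    have e4 : ∀ (z : Δˣ) (c : Δ), Matrix.single j i c *
        ((dgu j z : (Matrix (Fin r) (Fin r) Δ)ˣ) : Matrix (Fin r) (Fin r) Δ) =
        Matrix.single j i c := by
      intro z c
      rw [dgu_val, mul_add, mul_one, Matrix.single_mul_single_of_ne _ _ _ _ hij, add_zero]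
    have hTY : (T : Matrix (Fin r) (Fin r) Δ) * Y *
        ((T⁻¹ : (Matrix (Fin r) (Fin r) Δ)ˣ) : Matrix (Fin r) (Fin r) Δ) = t0 ^ 2 • Y := by
      rw [hTinv]
      change ((dgu j x * (dgu i x)⁻¹ : (Matrix (Fin r) (Fin r) Δ)ˣ) : Matrix (Fin r) (Fin r) Δ) * Y *
        ((dgu i x * (dgu j x)⁻¹ : (Matrix (Fin r) (Fin r) Δ)ˣ) : Matrix (Fin r) (Fin r) Δ) = _
      rw [← map_inv, ← map_inv, Units.val_mul, Units.val_mul, mul_assoc _ _ Y, e2, e1, ← mul_assoc,
        e3, e4]
      ext p q
      rw [Matrix.smul_apply]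
      change Matrix.single j i ((x : Δ) * x) p q = t0 ^ 2 • Matrix.single j i (1 : Δ) p q
      rw [Matrix.single_apply, Matrix.single_apply]
      split_ifs
      · rw [hx, ← map_mul, Algebra.smul_def, mul_one, sq]
      · rw [smul_zero]
    have hτ : mkU BE (Ψ.symm T) ∈ hmdl.cl f := by
      rw [hT, map_mul, map_mul, map_mul, map_inv, map_inv, map_mul, map_mul, map_mul, map_inv,
        map_inv]
      exact hcomm _ _
    refine ⟨mkU BE (Ψ.symm T), hτ, (ψ.symm Y, 0), ?_, t0 ^ 2, ?_, ?_⟩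
    · intro h
      have h3 : ψ.symm Y = 0 := congrArg Prod.fst h
      rw [map_eq_zero_iff _ ψ.symm.injective] at h3
      exact hY0 h3
    · rw [norm_pow]
      exact one_lt_pow₀ ht0 two_ne_zero
    · have e5 : (mkU BE (Ψ.symm T)).val.1 = ψ.symm (T : Matrix (Fin r) (Fin r) Δ) := rfl
      have e6 : ((mkU BE (Ψ.symm T))⁻¹).val.1 =
          ψ.symm ((T⁻¹ : (Matrix (Fin r) (Fin r) Δ)ˣ) : Matrix (Fin r) (Fin r) Δ) := by
        rw [← map_inv, ← map_inv]
        rfl
      refine Prod.ext ?_ ?_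
      · change (mkU BE (Ψ.symm T)).val.1 * ψ.symm Y * ((mkU BE (Ψ.symm T))⁻¹).val.1 =
          t0 ^ 2 • ψ.symm Y
        rw [e5, e6, ← map_mul, ← map_mul, hTY, map_smul]
      · change (mkU BE (Ψ.symm T)).val.2 * 0 * ((mkU BE (Ψ.symm T))⁻¹).val.2 = t0 ^ 2 • 0
        rw [mul_zero, zero_mul, smul_zero]
  · -- noncentral commutators near one
    intro O hO
    obtain ⟨t0, ht0⟩ := hbig
    have ht00 : t0 ≠ 0 := by
      rintro rfl
      rw [norm_zero] at ht0
      linarith
    let Ψ : Aˣ ≃* (Matrix (Fin r) (Fin r) Δ)ˣ :=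
      Units.mapEquiv (ψ : F ⊗[K] D ≃* Matrix (Fin r) (Fin r) Δ)
    let i : Fin r := ⟨0, by omega⟩
    let j : Fin r := ⟨1, by omega⟩
    have hij : i ≠ j := by
      intro h
      exact absurd (congrArg Fin.val h) (by simp [i, j])
    let x : Δˣ := Units.mk0 (2 : Δ) two_ne_zero
    have hx : (x : Δ) = 1 + 1 := one_add_one_eq_two.symm
    let S : UT BE (swp F A) := mkU BE (Ψ.symm (dgu i x))
    let T : F → UT BE (swp F A) := fun t => mkU BE (Ψ.symm (tvu hij (algebraMap F Δ t)))
    have hST : ∀ t, S * T t * S⁻¹ * (T t)⁻¹ = T t := by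
      intro t
      have e1 : dgu i x * tvu hij (algebraMap F Δ t) =
          tvu hij (algebraMap F Δ t) * tvu hij (algebraMap F Δ t) * dgu i x := by
        apply Units.ext
        rw [Units.val_mul, Units.val_mul, Units.val_mul, tvu_val, dgu_val, hx, add_sub_cancel_right]
        simp only [mul_add, add_mul, mul_one, one_mul, Matrix.single_mul_single_same,
          Matrix.single_mul_single_of_ne _ _ _ _ hij.symm, add_zero]
        abel
      have e2 : Ψ.symm (dgu i x) * Ψ.symm (tvu hij (algebraMap F Δ t)) =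
          Ψ.symm (tvu hij (algebraMap F Δ t)) * Ψ.symm (tvu hij (algebraMap F Δ t)) *
            Ψ.symm (dgu i x) := by
        rw [← map_mul, e1, map_mul, map_mul]
      change mkU BE _ * mkU BE _ * (mkU BE _)⁻¹ * (mkU BE _)⁻¹ = mkU BE _
      rw [← map_mul, e2, map_mul, map_mul]
      group
    have hcts : Tendsto T (𝓝 0) (𝓝 1) := by
      have hT0 : T 0 = 1 := by
        have e1 : tvu hij (algebraMap F Δ 0) = 1 := by
          apply Units.ext
          rw [tvu_val, map_zero, Matrix.single_zero, add_zero, Units.val_one]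
        change mkU BE (Ψ.symm (tvu hij (algebraMap F Δ 0))) = 1
        rw [e1, map_one, map_one]
      rw [← hT0]
      refine UT.continuousAt BE (swp F A) fun l => ?_
      have e1 : ∀ t : F, (T t).val = (1, 1) + t • ((ψ.symm (Matrix.single i j 1) : A),
          MulOpposite.op (-(ψ.symm (Matrix.single i j 1) : A))) := by
        intro t
        have e2 : Matrix.single i j (algebraMap F Δ t) = t • (Matrix.single i j (1 : Δ)) := by
          ext p q
          rw [Matrix.smul_apply, Matrix.single_apply, Matrix.single_apply]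
          split_ifs
          · rw [Algebra.smul_def, mul_one]
          · rw [smul_zero]
        refine Prod.ext ?_ (MulOpposite.unop_injective ?_)
        · change ψ.symm (1 + Matrix.single i j (algebraMap F Δ t)) =
            1 + t • ψ.symm (Matrix.single i j 1)
          rw [map_add, map_one, e2, map_smul]
        · change ψ.symm (1 - Matrix.single i j (algebraMap F Δ t)) =
            1 + t • -ψ.symm (Matrix.single i j 1)
          rw [map_sub, map_one, e2, map_smul, smul_neg, sub_eq_add_neg]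
      have e3 : (fun t => BE.repr (T t).val l) = fun t => BE.repr ((1 : A), (1 : Aᵐᵒᵖ)) l +
          t * BE.repr ((ψ.symm (Matrix.single i j 1) : A),
            MulOpposite.op (-(ψ.symm (Matrix.single i j 1) : A))) l := by
        funext t
        rw [e1, map_add, map_smul, Finsupp.add_apply, Finsupp.smul_apply, smul_eq_mul]
      rw [e3]
      exact (continuous_const.add (continuous_id.mul continuous_const)).continuousAt
    have hO' : T ⁻¹' O ∈ 𝓝 (0 : F) := hcts hO
    obtain ⟨δ, hδ, hball⟩ := Metric.mem_nhds_iff.mp hO'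
    obtain ⟨m, hm⟩ := exists_pow_lt_of_lt_one hδ
      (show ‖t0⁻¹‖ < 1 by rw [norm_inv]; exact inv_lt_one_of_one_lt₀ ht0)
    obtain ⟨t, ht⟩ : ∃ t, t = t0⁻¹ ^ m := ⟨_, rfl⟩
    have htn : t ≠ 0 := by rw [ht]; exact pow_ne_zero _ (inv_ne_zero ht00)
    have htO : T t ∈ O := by
      apply hball
      rw [Metric.mem_ball, dist_zero_right, ht, norm_pow]
      exact hm
    refine ⟨S, T t, ?_, (ψ.symm (Matrix.single j j 1), 0), ?_⟩
    · rw [hST]
      exact htO
    · rw [hST]
      intro h
      have h1 : ψ.symm (1 + Matrix.single i j (algebraMap F Δ t)) * ψ.symm (Matrix.single j j 1) =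
          ψ.symm (Matrix.single j j 1) * ψ.symm (1 + Matrix.single i j (algebraMap F Δ t)) :=
        congrArg Prod.fst h
      rw [← map_mul, ← map_mul] at h1
      have h2 := ψ.symm.injective h1
      rw [add_mul, one_mul, mul_add, mul_one, Matrix.single_mul_single_same,
        Matrix.single_mul_single_of_ne _ _ _ _ hij.symm, add_zero, mul_one] at h2
      have h3 := congrFun (congrFun h2 i) j
      rw [Matrix.add_apply, single_apply_same, add_eq_left, map_eq_zero] at h3
      exact htn h3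

/-- **The finite places which split.** -/
theorem exists_S (hS : Setting k K D d s) (hdeg : finrank K D = n ^ 2)
    (B : Basis (Fin N) k D) (v : HeightOneSpectrum (𝓞 k)) (hv : d ∈ LS (v.valuation k))
    (hT : (Sum.inl v : Pl k) ∉ Tdiv k K D)
    (f : D →ₐ[K] Matrix (Fin n) (Fin n) Ω) :
    ∃ (F E : Type) (_ : NormedField F) (_ : ProperSpace F) (_ : Algebra k F) (_ : Ring E)
      (_ : Algebra F E) (BE : Basis (Fin N) F E) (I : Two.Inv F E) (jm : D →+* E)
      (h : Mdl BE I B (fa v) jm), h.Loc f ∧ Unb f B v := by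
  obtain ⟨θ, hθ⟩ := (isSquare_iff v d).mpr hv
  obtain ⟨φ, -⟩ := exists_lift hS (F := v.adicCompletion k) (θ := θ) (by rw [hθ, sq])
  let _ : Algebra K (v.adicCompletion k) := (φ : K →+* v.adicCompletion k).toAlgebra
  have hφ : ∀ c : k, algebraMap K (v.adicCompletion k) (algebraMap k K c) =
      algebraMap k (v.adicCompletion k) c := fun c => φ.commutes c
  obtain ⟨r, hr0, E, _, _, _, _, ψ, -⟩ := P011S.exists_wed (E := v.adicCompletion k) hdeg
  have hnu : ∃ x : v.adicCompletion k ⊗[K] D, x ≠ 0 ∧ ¬ IsUnit x := by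
    by_contra hcon
    push Not at hcon
    exact hT ⟨v, rfl, φ, hcon⟩
  have hr := two_le_of_not_unit (ψ : v.adicCompletion k ⊗[K] D ≃+* Matrix (Fin r) (Fin r) E) hnu
  obtain ⟨E', iE, iA, BE, I, jm, h, hG⟩ := exists_split hS hdeg B (fa v) f hφ
    (fun x => norm_algebraMap_eq v x) (fun y ε hε => by
      obtain ⟨x, hx⟩ := dense v y ε hε
      exact ⟨x, by rwa [← norm_neg, neg_sub]⟩) (by
      let _ := nnf v
      exact NormedField.exists_one_lt_norm (v.adicCompletion k)) hr ψ
  obtain ⟨τ, hτ, y0, hy0, t, ht, hy⟩ := hG.eig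
  exact ⟨_, E', inferInstance, inferInstance, inferInstance, iE, iA, BE, I, jm, h, hG.loc,
    unb_of_model h hτ hy0 ht hy⟩

end model

end Vale.Agent.P011.H182
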