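import Vale.Agent.P011.H182.Infin

/-!
From approximation at one place to strong approximation: the poles are removed one by one.
-/

open Module NumberField IsDedekindDomain Filter Topology

set_option linter.unusedSectionVars false

namespace Vale.Agent.P011.H182

open Vale.Agent.P011.Arith Vale.Agent.P011.Even Vale.Agent.P011.Two Vale.Agent.P011.One

variable {k K D : Type} [Field k] [NumberField k] [Field K] [StarRing K]
  [DivisionRing D] [StarRing D] [Algebra k K] [Algebra k D] [Algebra K D] [IsScalarTower k K D]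
  {d : kˣ} {s : K} {N : ℕ} {Ω : Type} [Field Ω] [Algebra K Ω] {n : ℕ}

/-- Every element of reduced norm one is approximated at `v` by elements of `M` in any level. -/
def Apx (f : D →ₐ[K] Matrix (Fin n) (Fin n) Ω) (B : Basis (Fin N) k D)
    (q v : HeightOneSpectrum (𝓞 k)) (M : Set D) : Prop :=
  ∀ T : Set (HeightOneSpectrum (𝓞 k)), T.Finite → Bad B ⊆ T → ∀ ε : ℝ, 0 < ε →
    ∀ g ∈ GU f, ∀ δ : ℝ, 0 < δ → ∃ x ∈ M, x ∈ Lv B {v, q} T ε ∧ na B (fa v) (x - g) < δ

variable {f : D →ₐ[K] Matrix (Fin n) (Fin n) Ω} {B : Basis (Fin N) k D}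

/-- **The poles are removed one by one.** -/
theorem poles (hst : ∀ (c : k) (x : D), star (c • x) = c • star x)
    {q : HeightOneSpectrum (𝓞 k)} {M : Set D} (hMG : M ⊆ GU f) (h1 : (1 : D) ∈ M)
    (hmul : ∀ a ∈ M, ∀ b ∈ M, a * b ∈ M) {T : Set (HeightOneSpectrum (𝓞 k))} (hT : T.Finite)
    (hb : Bad B ⊆ T) (hA : ∀ v ∉ T, v ≠ q → Apx f B q v M) {ε : ℝ}
    (F : Finset (HeightOneSpectrum (𝓞 k))) :
    (∀ v ∈ F, v ∉ T ∧ v ≠ q) → ∀ g ∈ GU f, g ∈ Lv B ({q} ∪ F) T ε →
      ∃ x ∈ M, g * x ∈ Lv B {q} T ε := by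
  classical
  induction F using Finset.induction_on with
  | empty =>
    intro _ g _ hg
    refine ⟨1, h1, ?_⟩
    rw [mul_one]
    simpa using hg
  | insert v F hv ih =>
    intro hF g hgG hg
    have hvT : v ∉ T := (hF v (Finset.mem_insert_self _ _)).1
    have hvq : v ≠ q := (hF v (Finset.mem_insert_self _ _)).2
    have hF' : ∀ v ∈ F, v ∉ T ∧ v ≠ q := fun w hw => hF w (Finset.mem_insert_of_mem hw)
    obtain ⟨hg1, hg2, hg3⟩ := hg
    obtain ⟨C, hC1, hCw, hCφ⟩ := exists_const (B := B) hst (hT.insert v)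
    have hC0 : 0 < C := by linarith
    -- a margin
    obtain ⟨η, hη, hη1, hη2, hη3⟩ : ∃ η : ℝ, 0 < η ∧
        (∀ w ∈ T, w ∉ ({q} ∪ (F : Set (HeightOneSpectrum (𝓞 k))) : Set _) →
          na B (fa w) (g - 1) + C * na B (fa w) g * η < ε) ∧
        (∀ φ : k →+* ℂ, na B (cAbv φ) (g - 1) + C * na B (cAbv φ) g * η < ε) ∧
        C * na B (fa v) g * η ≤ 1 := by
      have hm : ∀ (a b : ℝ), a < ε → 0 ≤ b → ∃ η : ℝ, 0 < η ∧ ∀ η' : ℝ, 0 < η' → η' ≤ η →
          a + C * b * η' < ε := by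
        intro a b ha hb
        refine ⟨(ε - a) / (2 * (C * b + 1)), div_pos (sub_pos.mpr ha) (by positivity), ?_⟩
        intro η' h0 h1
        have h2 : C * b * η' ≤ (C * b + 1) * ((ε - a) / (2 * (C * b + 1))) :=
          mul_le_mul (by linarith) h1 h0.le (by positivity)
        have h3 : (C * b + 1) * ((ε - a) / (2 * (C * b + 1))) = (ε - a) / 2 := by
          have : C * b + 1 ≠ 0 := by positivity
          field_simp
        linarith
      have hw : ∀ w : HeightOneSpectrum (𝓞 k), ∃ η : ℝ, 0 < η ∧ ∀ η' : ℝ, 0 < η' → η' ≤ η →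
          (w ∈ T → w ∉ ({q} ∪ (F : Set (HeightOneSpectrum (𝓞 k))) : Set _) →
          na B (fa w) (g - 1) + C * na B (fa w) g * η' < ε) := by
        intro w
        by_cases h : w ∈ T ∧ w ∉ ({q} ∪ (F : Set (HeightOneSpectrum (𝓞 k))) : Set _)
        · have hw' : w ∉ ({q} ∪ ((insert v F : Finset _) : Set (HeightOneSpectrum (𝓞 k))) : Set _) := by
            rw [Finset.coe_insert, Set.mem_union, not_or, Set.mem_insert_iff, not_or]
            have h2 := h.2
            rw [Set.mem_union, not_or] at h2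
            exact ⟨h2.1, fun hwv => hvT (hwv ▸ h.1), h2.2⟩
          obtain ⟨η, h1, h2⟩ := hm _ _ (hg1 w h.1 hw') (na_nonneg B (fa w) g)
          exact ⟨η, h1, fun η' h3 h4 _ _ => h2 η' h3 h4⟩
        · exact ⟨1, one_pos, fun η' _ _ h1 h2 => absurd ⟨h1, h2⟩ h⟩
      choose η1 p1 p2 using hw
      choose η2 p3 p4 using fun φ : k →+* ℂ => hm _ _ (hg3 φ) (na_nonneg B (cAbv φ) g)
      have hpos : ∀ {ι : Type} (s : Finset ι) (u : ι → ℝ), (∀ i, 0 < u i) →
          ∃ m : ℝ, 0 < m ∧ ∀ i ∈ s, m ≤ u i := by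
        intro ι s u hu
        induction s using Finset.induction_on with
        | empty => exact ⟨1, one_pos, by simp⟩
        | insert a s _ ih =>
          obtain ⟨m, hm, hm'⟩ := ih
          refine ⟨min (u a) m, lt_min (hu a) hm, fun i hi => ?_⟩
          rcases Finset.mem_insert.mp hi with rfl | hi
          · exact min_le_left _ _
          · exact (min_le_right _ _).trans (hm' i hi)
      obtain ⟨m1, hm1, hm1'⟩ := hpos hT.toFinset η1 p1
      obtain ⟨m2, hm2, hm2'⟩ := hpos (Finset.univ : Finset (k →+* ℂ)) η2 p3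
      have hgv := na_nonneg B (fa v) g
      obtain ⟨m3, hm3, hm3'⟩ : ∃ m3 : ℝ, 0 < m3 ∧ C * na B (fa v) g * m3 ≤ 1 := by
        refine ⟨1 / (C * na B (fa v) g + 1), by positivity, ?_⟩
        rw [mul_one_div, div_le_one (by positivity)]
        linarith
      refine ⟨min m1 (min m2 m3), lt_min hm1 (lt_min hm2 hm3), fun w hw hwS => ?_, fun φ => ?_, ?_⟩
      · exact p2 w _ (lt_min hm1 (lt_min hm2 hm3))
          ((min_le_left _ _).trans (hm1' w (hT.mem_toFinset.mpr hw))) hw hwS
      · exact p4 φ _ (lt_min hm1 (lt_min hm2 hm3))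
          ((min_le_right _ _).trans ((min_le_left _ _).trans (hm2' φ (Finset.mem_univ φ))))
      · refine le_trans ?_ hm3'
        exact mul_le_mul_of_nonneg_left ((min_le_right _ _).trans (min_le_right _ _))
          (by positivity)
    -- the correction
    obtain ⟨x, hxM, ⟨hx1, hx2, hx3⟩, hxv⟩ := hA v hvT hvq (T ∪ F) (hT.union F.finite_toSet)
      (hb.trans Set.subset_union_left) η hη g⁻¹ (gu_inv hgG) η hη
    have hg0 := gu_ne hgG
    have hxG := hMG hxM
    have hstep : ∀ a : AbsoluteValue k ℝ, (∀ x y, na B a (x * y) ≤ C * na B a x * na B a y) →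
        na B a (x - 1) < η → na B a (g * x - 1) ≤ na B a (g - 1) + C * na B a g * η := by
      intro a ha hx
      have e : g * x - 1 = (g - 1) + g * (x - 1) := by noncomm_ring
      rw [e]
      refine (na_add_le B a _ _).trans (add_le_add le_rfl ((ha _ _).trans ?_))
      exact mul_le_mul_of_nonneg_left hx.le (mul_nonneg hC0.le (na_nonneg _ _ _))
    have hgx : g * x ∈ Lv B ({q} ∪ (F : Set (HeightOneSpectrum (𝓞 k)))) T ε := by
      refine ⟨fun w hw hwS => ?_, fun w hw hwS => ?_, fun φ => ?_⟩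
      · have hwv : w ≠ v := fun h => hvT (h ▸ hw)
        have hwq : w ≠ q := fun h => hwS (Or.inl h)
        have h2 : w ∉ ({v, q} : Set (HeightOneSpectrum (𝓞 k))) := by
          rw [Set.mem_insert_iff, not_or]
          exact ⟨hwv, hwq⟩
        exact (hstep (fa w) (hCw w (Set.mem_insert_of_mem _ hw)).1
          (hx1 w (Or.inl hw) h2)).trans_lt (hη1 w hw hwS)
      · have hgd : Gd B (fa w) := by
          by_contra hcon
          exact hw (hb hcon)
        by_cases hwv : w = v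
        · subst hwv
          refine hgd.of_near ?_
          have e : g * x - 1 = g * (x - g⁻¹) := by rw [mul_sub, mul_inv_cancel₀ hg0]
          rw [e]
          refine ((hCw w (Set.mem_insert _ _)).1 _ _).trans (le_trans ?_ hη3)
          exact mul_le_mul_of_nonneg_left hxv.le (mul_nonneg hC0.le (na_nonneg _ _ _))
        · have hwq : w ≠ q := fun h => hwS (Or.inl h)
          have hwF : w ∉ (F : Set (HeightOneSpectrum (𝓞 k))) := fun h => hwS (Or.inr h)
          have h2 : w ∉ ({v, q} : Set (HeightOneSpectrum (𝓞 k))) := by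
            rw [Set.mem_insert_iff, not_or]
            exact ⟨hwv, hwq⟩
          have h3 : w ∉ T ∪ (F : Set (HeightOneSpectrum (𝓞 k))) := by
            rw [Set.mem_union, not_or]
            exact ⟨hw, hwF⟩
          refine hgd.mul' (hg2 w hw ?_) (hx2 w h3 h2)
          rw [Finset.coe_insert, Set.mem_union, not_or, Set.mem_insert_iff, not_or]
          exact ⟨hwq, hwv, hwF⟩
      · exact (hstep (cAbv φ) (hCφ φ).1 (hx3 φ)).trans_lt (hη2 φ)
    obtain ⟨y, hyM, hy⟩ := ih hF' (g * x) (gu_mul hgG hxG) hgx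
    refine ⟨x * y, hmul x hxM y hyM, ?_⟩
    rwa [← mul_assoc]

/-- **Strong approximation, abstract form.** -/
theorem strong_of_apx (hst : ∀ (c : k) (x : D), star (c • x) = c • star x)
    {q : HeightOneSpectrum (𝓞 k)} {M : Set D} (hMG : M ⊆ GU f) (h1 : (1 : D) ∈ M)
    (hmul : ∀ a ∈ M, ∀ b ∈ M, a * b ∈ M) {T : Set (HeightOneSpectrum (𝓞 k))} (hT : T.Finite)
    (hb : Bad B ⊆ T) (hA : ∀ v ∉ T, v ≠ q → Apx f B q v M) {ε : ℝ} {g : D} (hg : g ∈ GU f)
    (hgT : ∀ w ∈ T, w ≠ q → na B (fa w) (g - 1) < ε)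
    (hg3 : ∀ φ : k →+* ℂ, na B (cAbv φ) (g - 1) < ε) :
    ∃ x ∈ M, g * x ∈ Lv B {q} T ε := by
  classical
  have hfin : {v : HeightOneSpectrum (𝓞 k) | ¬ Ig B (fa v) g}.Finite := by
    refine (Set.finite_iUnion fun i => finite_big (B.repr g i)).subset fun v hv => ?_
    simp only [Set.mem_ofPred_eq, Ig, not_forall] at hv
    obtain ⟨i, hi⟩ := hv
    exact Set.mem_iUnion.mpr ⟨i, hi⟩
  refine poles hst hMG h1 hmul hT hb hA (hfin.toFinset.filter fun v => v ∉ T ∧ v ≠ q) ?_ g hg
    ⟨fun w hw hwS => hgT w hw fun h => hwS (Or.inl h), fun w hw hwS => ?_, hg3⟩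
  · intro v hv
    exact (Finset.mem_filter.mp hv).2
  · by_contra hcon
    apply hwS
    by_cases hwq : w = q
    · exact Or.inl hwq
    · right
      rw [Finset.mem_coe, Finset.mem_filter]
      exact ⟨hfin.mem_toFinset.mpr hcon, hw, hwq⟩

end Vale.Agent.P011.H182
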