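import Vale.Agent.P011.H182.LocNS
import Vale.Agent.P011.H182.LocS
import Vale.Agent.P011.H182.Poles
import Vale.Agent.P011.Pow.CentT

/-!
Strong approximation for normal subgroups of the special unitary group.
-/

open Module NumberField IsDedekindDomain Filter Topology

set_option linter.unusedSectionVars false

namespace Vale.Agent.P011.H182

open Vale.Agent.P011.Arith Vale.Agent.P011.Even Vale.Agent.P011.Two Vale.Agent.P011.One

variable {k K D : Type} [Field k] [NumberField k] [Field K] [NumberField K] [StarRing K]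
  [DivisionRing D] [StarRing D] [Algebra k K] [Algebra k D] [Algebra K D] [IsScalarTower k K D]
  {d : kˣ} {s : K} {N : ℕ} {Ω : Type} [Field Ω] [Algebra K Ω] {n : ℕ}
  {f : D →ₐ[K] Matrix (Fin n) (Fin n) Ω} {B : Basis (Fin N) k D}

/-- **The local models.** -/
theorem exists_model (hS : Setting k K D d s) (hn : 3 ≤ n) (hdeg : finrank K D = n ^ 2)
    (f : D →ₐ[K] Matrix (Fin n) (Fin n) Ω) (B : Basis (Fin N) k D)
    {v : HeightOneSpectrum (𝓞 k)} (hv : (Sum.inl v : Pl k) ∉ Tdiv k K D) :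
    ∃ (F E : Type) (_ : NormedField F) (_ : ProperSpace F) (_ : Algebra k F) (_ : Ring E)
      (_ : Algebra F E) (BE : Basis (Fin N) F E) (I : Two.Inv F E) (jm : D →+* E)
      (h : Mdl BE I B (fa v) jm), h.Loc f ∧ Unb f B v := by
  have hsm : StarModule K D := ⟨hS.star_smul⟩
  have hfin := hS.fin
  have hcen := hS.cen
  by_cases hd : d ∈ LS (v.valuation k)
  · exact exists_S hS hdeg B v hd hv f
  · exact exists_NS hS hn hdeg B v hd f

theorem unb (hS : Setting k K D d s) (hn : 3 ≤ n) (hdeg : finrank K D = n ^ 2)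
    (f : D →ₐ[K] Matrix (Fin n) (Fin n) Ω) (B : Basis (Fin N) k D)
    {v : HeightOneSpectrum (𝓞 k)} (hv : (Sum.inl v : Pl k) ∉ Tdiv k K D) : Unb f B v := by
  obtain ⟨_, _, _, _, _, _, _, _, _, _, _, -, h⟩ := exists_model hS hn hdeg f B hv
  exact h

theorem apx (hS : Setting k K D d s) (hn : 3 ≤ n) (hdeg : finrank K D = n ^ 2)
    {v q : HeightOneSpectrum (𝓞 k)} (hv : (Sum.inl v : Pl k) ∉ Tdiv k K D) (hvq : v ≠ q)
    {M : Set D} (hMG : M ⊆ GU f) (h1 : (1 : D) ∈ M) (hmul : ∀ a ∈ M, ∀ b ∈ M, a * b ∈ M)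
    (hinv : ∀ a ∈ M, star a ∈ M) (hnm : ∀ g ∈ GU f, ∀ x ∈ M, g * x * g⁻¹ ∈ M)
    (hinf : Inf B q M) : Apx f B q v M := by
  obtain ⟨F, E, i1, i2, i3, i4, i5, BE, I, jm, h, hloc, hU⟩ := exists_model hS hn hdeg f B hv
  exact apx_of_model hS h hloc hU hvq hMG h1 hmul hinv hnm (coc_all hS (by omega) hdeg f B v) hinf

/-- **Strong approximation for normal subgroups.** -/
theorem strong (hS : Setting k K D d s) (hn : 3 ≤ n) (hdeg : finrank K D = n ^ 2)
    {q : HeightOneSpectrum (𝓞 k)}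
    {M : Set D} (hMG : M ⊆ GU f) (h1 : (1 : D) ∈ M) (hmul : ∀ a ∈ M, ∀ b ∈ M, a * b ∈ M)
    (hinv : ∀ a ∈ M, star a ∈ M) (hnm : ∀ g ∈ GU f, ∀ x ∈ M, g * x * g⁻¹ ∈ M)
    (hinf : Inf B q M) {T : Set (HeightOneSpectrum (𝓞 k))} (hT : T.Finite) (hb : Bad B ⊆ T)
    (hTd : ∀ v, (Sum.inl v : Pl k) ∈ Tdiv k K D → v ∈ T) {ε : ℝ} {g : D} (hg : g ∈ GU f)
    (hgT : ∀ w ∈ T, w ≠ q → na B (fa w) (g - 1) < ε)
    (hg3 : ∀ φ : k →+* ℂ, na B (cAbv φ) (g - 1) < ε) :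
    ∃ x ∈ M, g * x ∈ Lv B {q} T ε := by
  have hst : ∀ (c : k) (x : D), star (c • x) = c • star x :=
    fun c x => (Setting.sig hS).map_smul c x
  exact strong_of_apx hst hMG h1 hmul hT hb (fun v hv hvq => apx hS hn hdeg
    (fun h => hv (hTd v h)) hvq hMG h1 hmul hinv hnm hinf) hg hgT hg3

/-- Noncentral elements in the intersections of levels. -/
theorem inf_of_lv (hS : Setting k K D d s) (hn : 3 ≤ n) (hdeg : finrank K D = n ^ 2)
    {q : HeightOneSpectrum (𝓞 k)} (hq : (Sum.inl q : Pl k) ∉ Tdiv k K D) {M : Set D}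
    {T : Set (HeightOneSpectrum (𝓞 k))} (hT : T.Finite) (hb : Bad B ⊆ T) {ε : ℝ} (hε : 0 < ε)
    (hM : ∀ g ∈ GU f, g ∈ Lv B {q} T ε → g ∈ M) : Inf B q M := by
  intro T1 hT1 hb1 ε1 hε1
  have hε2 : 0 < min ε (min ε1 1) := lt_min hε (lt_min hε1 one_pos)
  obtain ⟨x, y, hx, hy, -, hxy, b, hb2⟩ := inf_color hS (unb hS hn hdeg f B hq)
    (coc_all hS (by omega) hdeg f B q) (X := Unit) (fun _ => ()) (hT.union hT1)
    (hb.trans Set.subset_union_left) hε2
  refine ⟨x * y⁻¹, hM _ (gu_mul hx (gu_inv hy)) ?_, ?_, b, hb2⟩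
  · exact lv_mono Set.subset_union_left hb (min_le_left _ _)
      ((min_le_right _ _).trans (min_le_right _ _)) hxy
  · exact lv_mono Set.subset_union_right hb1 ((min_le_right _ _).trans (min_le_left _ _))
      ((min_le_right _ _).trans (min_le_right _ _)) hxy

/-- **A normal subgroup which contains a level contains all elements near one at finitely many
places.** -/
theorem near_of_lv (hS : Setting k K D d s) (hn : 3 ≤ n) (hdeg : finrank K D = n ^ 2)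
    {q : HeightOneSpectrum (𝓞 k)} (hq : (Sum.inl q : Pl k) ∉ Tdiv k K D)
    {M : Set D} (hMG : M ⊆ GU f) (h1 : (1 : D) ∈ M) (hmul : ∀ a ∈ M, ∀ b ∈ M, a * b ∈ M)
    (hinv : ∀ a ∈ M, star a ∈ M) (hnm : ∀ g ∈ GU f, ∀ x ∈ M, g * x * g⁻¹ ∈ M)
    {T : Set (HeightOneSpectrum (𝓞 k))} (hT : T.Finite) (hb : Bad B ⊆ T) {ε : ℝ} (hε : 0 < ε)
    (hM : ∀ g ∈ GU f, g ∈ Lv B {q} T ε → g ∈ M) :
    ∃ T' : Set (HeightOneSpectrum (𝓞 k)), T'.Finite ∧ ∃ ε' : ℝ, 0 < ε' ∧ ∀ g ∈ GU f,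
      (∀ w ∈ T', na B (fa w) (g - 1) < ε') → (∀ φ : k →+* ℂ, na B (cAbv φ) (g - 1) < ε') →
        g ∈ M := by
  have hinf := inf_of_lv hS hn hdeg hq hT hb hε hM
  have hfin := hS.fin
  have hcen := hS.cen
  have hTdf : {v : HeightOneSpectrum (𝓞 k) | (Sum.inl v : Pl k) ∈ Tdiv k K D}.Finite := by
    have h2 := Pow.tdiv_finite (k := k) (K := K) (D := D) (by omega : 2 ≤ n) hdeg
    exact h2.preimage Sum.inl_injective.injOn
  refine ⟨T ∪ {v | (Sum.inl v : Pl k) ∈ Tdiv k K D}, hT.union hTdf, min ε 1, lt_min hε one_pos,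
    fun g hg hg1 hg2 => ?_⟩
  obtain ⟨x, hx, hgx⟩ := strong hS hn hdeg hMG h1 hmul hinv hnm hinf
    (hT.union hTdf) (hb.trans Set.subset_union_left) (fun v hv => Or.inr hv) hg
    (fun w hw _ => hg1 w hw) hg2
  have h2 : g * x ∈ M := hM _ (gu_mul hg (hMG hx))
    (lv_mono Set.subset_union_left hb (min_le_left _ _) (min_le_right _ _) hgx)
  have h3 : g = (g * x) * star x := by
    rw [mul_assoc, (hMG hx).1, mul_one]
  rw [h3]
  exact hmul _ h2 _ (hinv _ hx)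

end Vale.Agent.P011.H182
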