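import Vale.Agent.P011.H182.Coset2
import Vale.Agent.P011.H182.Strong

/-!
# Strong approximation inside a coset of a dense normal subgroup of finite index
-/

open Module NumberField IsDedekindDomain Topology Filter

set_option linter.unusedSectionVars false

namespace Vale.Agent.P011.H182

open Vale.Agent.P011.Arith Vale.Agent.P011.Even Vale.Agent.P011.Two Vale.Agent.P011.One
  Vale.Agent.P011.MPQ

variable {k K D : Type} [Field k] [NumberField k] [Field K] [NumberField K] [StarRing K]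
  [DivisionRing D] [StarRing D] [Algebra k K] [Algebra k D] [Algebra K D] [IsScalarTower k K D]
  {d : kˣ} {s : K} {N : ℕ} {Ω : Type} [Field Ω] [Algebra K Ω] {n : ℕ}
  {f : D →ₐ[K] Matrix (Fin n) (Fin n) Ω} {B : Basis (Fin N) k D}

/-- **The poles are removed by an element which is close to one at the places of `T`.** -/
theorem poles2 (hst : ∀ (c : k) (x : D), star (c • x) = c • star x)
    {q : HeightOneSpectrum (𝓞 k)} {M : Set D} (hMG : M ⊆ GU f) (h1 : (1 : D) ∈ M)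
    (hmul : ∀ a ∈ M, ∀ b ∈ M, a * b ∈ M) {T : Set (HeightOneSpectrum (𝓞 k))} (hT : T.Finite)
    (hb : Bad B ⊆ T) (hA : ∀ v ∉ T, v ≠ q → Apx f B q v M)
    (F : Finset (HeightOneSpectrum (𝓞 k))) :
    (∀ v ∈ F, v ∉ T ∧ v ≠ q) → ∀ ε : ℝ, 0 < ε → ∀ g ∈ GU f,
      (∀ w, w ∉ T → w ≠ q → w ∉ F → Ig B (fa w) g) →
      ∃ x ∈ M, x ∈ Lv B (Tᶜ ∪ {q}) T ε ∧ ∀ w, w ∉ T → w ≠ q → Ig B (fa w) (g * x) := by
  classical
  induction F using Finset.induction_on with
  | empty =>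
    intro _ ε hε g _ hg
    refine ⟨1, h1, lv_one hε hb, fun w hw hwq => ?_⟩
    rw [mul_one]
    exact hg w hw hwq (Finset.notMem_empty w)
  | insert v F hv ih =>
    intro hF ε hε g hgG hg
    have hvT : v ∉ T := (hF v (Finset.mem_insert_self _ _)).1
    have hvq : v ≠ q := (hF v (Finset.mem_insert_self _ _)).2
    have hF' : ∀ v ∈ F, v ∉ T ∧ v ≠ q := fun w hw => hF w (Finset.mem_insert_of_mem hw)
    obtain ⟨ε', hε', -, -, hml, -⟩ := mul_level (B := B) (S := Tᶜ ∪ {q}) hst hT hb hε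
    obtain ⟨C, hC1, hCw, hCφ⟩ := exists_const (B := B) hst (hT.insert v)
    have hC0 : 0 < C := by linarith
    have hgv := na_nonneg B (fa v) g
    obtain ⟨η, hη, hη1, hη2⟩ : ∃ η : ℝ, 0 < η ∧ η ≤ ε' ∧ C * na B (fa v) g * η ≤ 1 := by
      refine ⟨min ε' (1 / (C * na B (fa v) g + 1)), lt_min hε' (by positivity),
        min_le_left _ _, ?_⟩
      have h2 : C * na B (fa v) g * (1 / (C * na B (fa v) g + 1)) ≤ 1 := by
        rw [mul_one_div, div_le_one (by positivity)]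
        linarith
      exact (mul_le_mul_of_nonneg_left (min_le_right _ _) (by positivity)).trans h2
    obtain ⟨x, hxM, ⟨hx1, hx2, hx3⟩, hxv⟩ := hA v hvT hvq (T ∪ F) (hT.union F.finite_toSet)
      (hb.trans Set.subset_union_left) η hη g⁻¹ (gu_inv hgG) η hη
    have hg0 := gu_ne hgG
    have hxG := hMG hxM
    have hxL : x ∈ Lv B (Tᶜ ∪ {q}) T ε' := by
      refine ⟨fun w hw hwS => ?_, fun w hw hwS => absurd (Or.inl hw) hwS, fun φ => ?_⟩
      · have hwv : w ≠ v := fun h => hvT (h ▸ hw)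
        have hwq : w ≠ q := fun h => hwS (Or.inr h)
        have h2 : w ∉ ({v, q} : Set (HeightOneSpectrum (𝓞 k))) := by
          rw [Set.mem_insert_iff, not_or]
          exact ⟨hwv, hwq⟩
        exact (hx1 w (Or.inl hw) h2).trans_le hη1
      · exact (hx3 φ).trans_le hη1
    have hgx : ∀ w, w ∉ T → w ≠ q → w ∉ F → Ig B (fa w) (g * x) := by
      intro w hw hwq hwF
      have hgd : Gd B (fa w) := by
        by_contra hcon
        exact hw (hb hcon)
      by_cases hwv : w = v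
      · subst hwv
        refine hgd.of_near ?_
        have e : g * x - 1 = g * (x - g⁻¹) := by rw [mul_sub, mul_inv_cancel₀ hg0]
        rw [e]
        refine ((hCw w (Set.mem_insert _ _)).1 _ _).trans (le_trans ?_ hη2)
        exact mul_le_mul_of_nonneg_left hxv.le (mul_nonneg hC0.le hgv)
      · have h2 : w ∉ ({v, q} : Set (HeightOneSpectrum (𝓞 k))) := by
          rw [Set.mem_insert_iff, not_or]
          exact ⟨hwv, hwq⟩
        have h3 : w ∉ T ∪ F := by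
          rw [Set.mem_union, not_or]
          exact ⟨hw, hwF⟩
        refine hgd.mul' (hg w hw hwq ?_) (hx2 w h3 h2)
        rw [Finset.mem_insert, not_or]
        exact ⟨hwv, hwF⟩
    obtain ⟨y, hyM, hyL, hy⟩ := ih hF' ε' hε' (g * x) (gu_mul hgG hxG) hgx
    refine ⟨x * y, hmul x hxM y hyM, hml x hxL y hyL, ?_⟩
    rwa [← mul_assoc]

/-- Noncentral elements in all levels. -/
theorem inf_of_index (hS : Setting k K D d s) (hn : 3 ≤ n) (hdeg : finrank K D = n ^ 2)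
    {q : HeightOneSpectrum (𝓞 k)} (hq : (Sum.inl q : Pl k) ∉ Tdiv k K D)
    (Q : Subgroup (SUD f)) [hQ : Q.Normal] (hi : Q.index ≠ 0) : Inf B q (Im Q) := by
  classical
  have : Q.FiniteIndex := ⟨hi⟩
  intro T hT hb ε hε
  let κ : D → SUD f ⧸ Q := fun x =>
    if h : ∃ g : SUD f, ((g : Dˣ) : D) = x then QuotientGroup.mk h.choose else QuotientGroup.mk 1
  have hκ : ∀ g : SUD f, κ ((g : Dˣ) : D) = QuotientGroup.mk g := by
    intro g
    have h : ∃ g' : SUD f, ((g' : Dˣ) : D) = ((g : Dˣ) : D) := ⟨g, rfl⟩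
    have h2 : h.choose = g := Subtype.ext (Units.ext h.choose_spec)
    show (if h : ∃ g' : SUD f, ((g' : Dˣ) : D) = ((g : Dˣ) : D) then
      (QuotientGroup.mk h.choose : SUD f ⧸ Q) else QuotientGroup.mk 1) = _
    rw [dif_pos h, h2]
  obtain ⟨x, y, hx, hy, hxy, hL, b, hb2⟩ := inf_color hS (unb hS hn hdeg f B hq)
    (coc_all hS (by omega) hdeg f B q) κ hT hb hε
  obtain ⟨x', hx', rfl⟩ := exists_SUD hx
  obtain ⟨y', hy', rfl⟩ := exists_SUD hy
  have h3 : (QuotientGroup.mk (⟨y', hy'⟩ : SUD f) : SUD f ⧸ Q) = QuotientGroup.mk ⟨x', hx'⟩ := by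
    rw [← hκ, ← hκ]
    exact hxy.symm
  rw [QuotientGroup.eq] at h3
  have h4 := hQ.conj_mem _ h3 (⟨y', hy'⟩ : SUD f)
  have e : (⟨y', hy'⟩ : SUD f) * ((⟨y', hy'⟩ : SUD f)⁻¹ * ⟨x', hx'⟩) * (⟨y', hy'⟩ : SUD f)⁻¹ =
      ⟨x', hx'⟩ * (⟨y', hy'⟩ : SUD f)⁻¹ := by group
  rw [e] at h4
  refine ⟨(x' : D) * (y' : D)⁻¹, ⟨_, h4, ?_⟩, hL, b, hb2⟩
  rw [coe_mul', coe_inv']

theorem na_inr (φ : k →+* ℂ) (x : D) :
    na B (pabv (Sum.inr (InfinitePlace.mk φ) : PlI k)) x = na B (cAbv φ) x :=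
  Finset.sum_congr rfl fun _ _ => rfl

/-- **Strong approximation inside a coset.**  `x` is congruent modulo `Q` to an element which is
close to `w` at the places of `T` and at all archimedean places and which is integral at all other
places, except possibly at `q`. -/
theorem coset_strong (hS : Setting k K D d s) (hn : 3 ≤ n) (hdeg : finrank K D = n ^ 2)
    (f : D →ₐ[K] Matrix (Fin n) (Fin n) Ω) (B : Basis (Fin N) k D) {Q H : Subgroup (SUD f)}
    [hQ : Q.Normal] (hi : Q.index ≠ 0)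
    (hd : ∀ V : Subgroup (SUD f), PF B (GU f) (Im V) (Tdiv k K D) → H ≤ Q ⊔ V)
    {q : HeightOneSpectrum (𝓞 k)} (hq : (Sum.inl q : Pl k) ∉ Tdiv k K D)
    {T : Set (HeightOneSpectrum (𝓞 k))} (hT : T.Finite) (hb : Bad B ⊆ T)
    (hTd : ∀ v, (Sum.inl v : Pl k) ∈ Tdiv k K D → v ∈ T) {x w : SUD f} (hx : x ∈ H)
    (hw : w ∈ H) {ε : ℝ} (hε : 0 < ε) : ∃ x' : SUD f, x⁻¹ * x' ∈ Q ∧
      (∀ v ∈ T, v ≠ q → na B (fa v) (((x' : Dˣ) : D) - ((w : Dˣ) : D)) < ε) ∧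
      (∀ φ : k →+* ℂ, na B (cAbv φ) (((x' : Dˣ) : D) - ((w : Dˣ) : D)) < ε) ∧
      ∀ v, v ∉ T → v ≠ q → Ig B (fa v) ((x' : Dˣ) : D) := by
  classical
  have hst : ∀ (c : k) (x : D), star (c • x) = c • star x :=
    fun c x => (Setting.sig hS).map_smul c x
  have hw0 : ((w : Dˣ) : D) ≠ 0 := Units.ne_zero _
  let P : Set (PlI k) := Sum.inl '' (T \ {q}) ∪ Set.range Sum.inr
  have hP : P.Finite := ((hT.subset Set.sdiff_subset).image _).union (Set.finite_range _)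
  -- the margin
  obtain ⟨ε1, hε1, hm1⟩ : ∃ ε1 : ℝ, 0 < ε1 ∧ ∀ t : D, NrI B P ε1 t → ∀ p ∈ P,
      na B (pabv p) (((w : Dˣ) : D) * t - ((w : Dˣ) : D)) < ε := by
    have h1 : ∀ p : PlI k, ∃ δ : ℝ, 0 < δ ∧ ∀ t : D, na B (pabv p) (t - 1) < δ →
        na B (pabv p) (((w : Dˣ) : D) * t - ((w : Dˣ) : D)) < ε := by
      intro p
      obtain ⟨C, hC1, hC, -⟩ := na_const B (pabv p) hst
      have hna := na_nonneg B (pabv p) ((w : Dˣ) : D)
      refine ⟨ε / (C * na B (pabv p) ((w : Dˣ) : D) + 1), by positivity, fun t ht => ?_⟩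
      have e : ((w : Dˣ) : D) * t - ((w : Dˣ) : D) = ((w : Dˣ) : D) * (t - 1) := by
        rw [mul_sub, mul_one]
      rw [e]
      refine (hC _ _).trans_lt ?_
      have hpos : 0 < C * na B (pabv p) ((w : Dˣ) : D) + 1 := by positivity
      rw [lt_div_iff₀ hpos] at ht
      have h2 := na_nonneg B (pabv p) (t - 1)
      nlinarith
    choose δ hδ h using h1
    obtain ⟨ε', hε', hle⟩ := exists_lower hP (u := δ) fun p _ => hδ p
    exact ⟨ε', hε', fun t ht p hp => h p t ((ht p hp).trans_le (hle p hp))⟩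
  obtain ⟨ε2, hε2, hm2⟩ := NrI.mul (B := B) hst hP hε1
  have hwi0 : (((w⁻¹ : SUD f) : Dˣ) : D) ≠ 0 := Units.ne_zero _
  obtain ⟨ε3, hε3, hm3⟩ := NrI.conj (B := B) hst hP hwi0 hε2
  -- the first step
  obtain ⟨y, hy, hz⟩ := coset_nearI hS hn hdeg f B hi hd hP (H.mul_mem hx (inv_mem hw)) hε3
  obtain ⟨x1, hx1⟩ : ∃ x1 : SUD f, x1 = x * w⁻¹ * y * w := ⟨_, rfl⟩
  have hx1Q : x⁻¹ * x1 ∈ Q := by
    have h2 := hQ.conj_mem y hy w⁻¹
    rw [inv_inv] at h2
    have h3 : x⁻¹ * x1 = w⁻¹ * y * w := by rw [hx1]; group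
    rwa [h3]
  -- the second step
  have hQi := inf_of_index hS hn hdeg (B := B) hq Q hi
  have hfin : {v : HeightOneSpectrum (𝓞 k) | ¬ Ig B (fa v) ((x1 : Dˣ) : D)}.Finite := by
    refine (Set.finite_iUnion fun i => finite_big (B.repr ((x1 : Dˣ) : D) i)).subset
      fun v hv => ?_
    simp only [Set.mem_ofPred_eq, Ig, not_forall] at hv
    obtain ⟨i, hi⟩ := hv
    exact Set.mem_iUnion.mpr ⟨i, hi⟩
  obtain ⟨x2, hx2M, hx2L, hx2⟩ := poles2 (f := f) hst (M := Im Q) im_sub one_im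
    (fun _ ha _ hb => mul_im ha hb) hT hb (fun v hv hvq => apx hS hn hdeg
      (fun h => hv (hTd v h)) hvq im_sub one_im (fun _ ha _ hb => mul_im ha hb) inv_im
      (conj_im hQ) hQi) (hfin.toFinset.filter fun v => v ∉ T ∧ v ≠ q)
    (fun v hv => (Finset.mem_filter.mp hv).2) ε2 hε2 ((x1 : Dˣ) : D) x1.2 (by
      intro v hv hvq hvF
      by_contra hcon
      exact hvF (Finset.mem_filter.mpr ⟨hfin.mem_toFinset.mpr hcon, hv, hvq⟩))
  obtain ⟨y2, hy2, rfl⟩ := hx2M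
  have hx2N : NrI B P ε2 ((y2 : Dˣ) : D) := by
    rintro p (⟨v, ⟨hv, hvq⟩, rfl⟩ | ⟨v, rfl⟩)
    · refine hx2L.1 v hv ?_
      rw [Set.mem_union, not_or]
      exact ⟨fun h => h hv, hvq⟩
    · have h2 := hx2L.2.2 v.embedding
      rwa [← na_inr, InfinitePlace.mk_embedding] at h2
  obtain ⟨x', hx'⟩ : ∃ x' : SUD f, x' = x1 * y2 := ⟨_, rfl⟩
  have hx'P : ∀ p ∈ P, na B (pabv p) (((x' : Dˣ) : D) - ((w : Dˣ) : D)) < ε := by
    have e : x' = w * (w⁻¹ * (x * w⁻¹ * y) * w⁻¹⁻¹ * y2) := by rw [hx', hx1]; group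
    rw [e, coe_mul', coe_mul', coe_mul', coe_mul', coe_inv' w⁻¹]
    exact hm1 _ (hm2 _ _ (hm3 _ hz) hx2N)
  refine ⟨x', ?_, fun v hv hvq => hx'P (Sum.inl v) (Or.inl ⟨v, ⟨hv, hvq⟩, rfl⟩), fun φ => ?_,
    fun v hv hvq => ?_⟩
  · rw [hx', ← mul_assoc]
    exact Q.mul_mem hx1Q hy2
  · have h2 := hx'P (Sum.inr (InfinitePlace.mk φ)) (Or.inr ⟨_, rfl⟩)
    rwa [na_inr] at h2
  · rw [hx', coe_mul']
    exact hx2 v hv hvq

end Vale.Agent.P011.H182
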