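import Vale.Agent.P011.H182.Span

/-!
Sizes of elements of a finite dimensional division algebra for an arbitrary absolute value of the
ground field, integrality with respect to a basis, good places.
-/

open Module NumberField IsDedekindDomain Filter Topology

set_option linter.unusedSectionVars false

namespace Vale.Agent.P011.H182

open Vale.Agent.P011.Arith Vale.Agent.P011.Even Vale.Agent.P011.Two Vale.Agent.P011.One

section norms

variable {k D : Type} [Field k] [DivisionRing D] [Algebra k D] {N : ℕ}
  (B : Basis (Fin N) k D) (a : AbsoluteValue k ℝ)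

/-- The size of an element. -/
noncomputable def na (x : D) : ℝ := ∑ i, a (B.repr x i)

theorem na_nonneg (x : D) : 0 ≤ na B a x := Finset.sum_nonneg fun _ _ => AbsoluteValue.nonneg _ _

theorem na_zero : na B a 0 = 0 := by
  simp [na]

theorem na_add_le (x y : D) : na B a (x + y) ≤ na B a x + na B a y := by
  rw [na, na, na, ← Finset.sum_add_distrib]
  refine Finset.sum_le_sum fun i _ => ?_
  rw [map_add, Finsupp.add_apply]
  exact AbsoluteValue.add_le _ _ _

theorem na_smul (c : k) (x : D) : na B a (c • x) = a c * na B a x := by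
  rw [na, na, Finset.mul_sum]
  refine Finset.sum_congr rfl fun i _ => ?_
  rw [map_smul, Finsupp.smul_apply, smul_eq_mul, map_mul]

theorem na_neg (x : D) : na B a (-x) = na B a x := by
  rw [na, na]
  refine Finset.sum_congr rfl fun i _ => ?_
  rw [map_neg, Finsupp.neg_apply, AbsoluteValue.map_neg]

theorem na_sub_le (x y : D) : na B a (x - y) ≤ na B a x + na B a y := by
  rw [sub_eq_add_neg]
  exact (na_add_le B a x (-y)).trans (by rw [na_neg])

theorem na_sub_comm (x y : D) : na B a (x - y) = na B a (y - x) := by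
  rw [← neg_sub, na_neg]

theorem na_sum_le {ι : Type} (s : Finset ι) (f : ι → D) :
    na B a (∑ i ∈ s, f i) ≤ ∑ i ∈ s, na B a (f i) := by
  classical
  induction s using Finset.induction_on with
  | empty => rw [Finset.sum_empty, Finset.sum_empty, na_zero]
  | insert b s hb ih =>
    rw [Finset.sum_insert hb, Finset.sum_insert hb]
    exact (na_add_le B a _ _).trans (add_le_add le_rfl ih)

theorem coord_le_na (x : D) (i : Fin N) : a (B.repr x i) ≤ na B a x :=
  Finset.single_le_sum (f := fun i => a (B.repr x i))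
    (fun _ _ => AbsoluteValue.nonneg _ _) (Finset.mem_univ i)

theorem na_le_of_coord {x : D} {M : ℝ} (h : ∀ i, a (B.repr x i) ≤ M) : na B a x ≤ N * M := by
  refine (Finset.sum_le_sum fun i _ => h i).trans ?_
  rw [Finset.sum_const, Finset.card_univ, Fintype.card_fin, nsmul_eq_mul]

theorem na_pos {x : D} (hx : x ≠ 0) : 0 < na B a x := by
  have h1 : ∃ i, B.repr x i ≠ 0 := by
    by_contra h
    push Not at h
    apply hx
    rw [← B.sum_repr x]
    exact Finset.sum_eq_zero fun i _ => by rw [h i, zero_smul]
  obtain ⟨i, hi⟩ := h1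
  exact (a.pos hi).trans_le (coord_le_na B a x i)

/-- linear maps are continuous -/
theorem na_linear (f : D →ₗ[k] D) : ∃ C : ℝ, 0 < C ∧ ∀ x, na B a (f x) ≤ C * na B a x := by
  refine ⟨∑ i, na B a (f (B i)) + 1, ?_, fun x => ?_⟩
  · have := Finset.sum_nonneg fun (i : Fin N) (_ : i ∈ Finset.univ) => na_nonneg B a (f (B i))
    linarith
  · have h1 : f x = ∑ i, B.repr x i • f (B i) := by
      conv_lhs => rw [← B.sum_repr x]
      rw [map_sum]
      exact Finset.sum_congr rfl fun i _ => map_smul _ _ _
    rw [h1]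
    refine (na_sum_le B a _ _).trans ?_
    have h2 : ∀ i ∈ (Finset.univ : Finset (Fin N)), na B a (B.repr x i • f (B i)) ≤
        (∑ i, na B a (f (B i)) + 1) * a (B.repr x i) := by
      intro i _
      rw [na_smul, mul_comm]
      refine mul_le_mul_of_nonneg_right ?_ (AbsoluteValue.nonneg _ _)
      have := Finset.single_le_sum (f := fun i => na B a (f (B i)))
        (fun _ _ => na_nonneg _ _ _) (Finset.mem_univ i)
      linarith
    refine (Finset.sum_le_sum h2).trans ?_
    rw [← Finset.mul_sum]
    rfl

/-- the multiplication is continuous -/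
theorem na_mul : ∃ C : ℝ, 1 ≤ C ∧ ∀ x y, na B a (x * y) ≤ C * na B a x * na B a y := by
  choose C hC hCm using fun i => na_linear B a (LinearMap.mulLeft k (B i))
  have hC0 := Finset.sum_nonneg fun (i : Fin N) (_ : i ∈ Finset.univ) => (hC i).le
  refine ⟨∑ i, C i + 1, by linarith, fun x y => ?_⟩
  · have h1 : x * y = ∑ i, B.repr x i • (B i * y) := by
      conv_lhs => rw [← B.sum_repr x]
      rw [Finset.sum_mul]
      exact Finset.sum_congr rfl fun i _ => smul_mul_assoc _ _ _
    rw [h1]
    refine (na_sum_le B a _ _).trans ?_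
    have h2 : ∀ i ∈ (Finset.univ : Finset (Fin N)), na B a (B.repr x i • (B i * y)) ≤
        (∑ i, C i + 1) * na B a y * a (B.repr x i) := by
      intro i _
      rw [na_smul, mul_comm]
      refine mul_le_mul_of_nonneg_right ?_ (AbsoluteValue.nonneg _ _)
      refine (hCm i y).trans ?_
      refine mul_le_mul_of_nonneg_right ?_ (na_nonneg _ _ _)
      have := Finset.single_le_sum (f := C) (fun i _ => (hC i).le) (Finset.mem_univ i)
      linarith
    refine (Finset.sum_le_sum h2).trans ?_
    rw [← Finset.mul_sum]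
    change _ * na B a x ≤ _
    exact le_of_eq (by ring)

variable [StarRing D]

/-- One constant for the multiplication and the involution. -/
theorem na_const (hst : ∀ (c : k) (x : D), star (c • x) = c • star x) :
    ∃ C : ℝ, 1 ≤ C ∧ (∀ x y, na B a (x * y) ≤ C * na B a x * na B a y) ∧
      ∀ x, na B a (star x) ≤ C * na B a x := by
  obtain ⟨C1, hC1, h1⟩ := na_mul B a
  let σ : D →ₗ[k] D := { toFun := star, map_add' := star_add, map_smul' := hst }
  obtain ⟨C2, hC2, h2⟩ := na_linear B a σ
  refine ⟨C1 + C2, by linarith, fun x y => ?_, fun x => ?_⟩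
  · refine (h1 x y).trans ?_
    refine mul_le_mul_of_nonneg_right ?_ (na_nonneg _ _ _)
    exact mul_le_mul_of_nonneg_right (by linarith) (na_nonneg _ _ _)
  · refine (h2 x).trans ?_
    exact mul_le_mul_of_nonneg_right (by linarith) (na_nonneg _ _ _)

end norms

section int

variable {k D : Type} [Field k] [DivisionRing D] [StarRing D] [Algebra k D] {N : ℕ}
  (B : Basis (Fin N) k D) (a : AbsoluteValue k ℝ)

/-- Integral elements. -/
def Ig (x : D) : Prop := ∀ i, a (B.repr x i) ≤ 1

/-- The basis spans an order stable under the involution. -/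
structure Gd : Prop where
  na : IsNonarchimedean a
  one : Ig B a 1
  mul : ∀ i j, Ig B a (B i * B j)
  str : ∀ i, Ig B a (star (B i))

variable {B a}

theorem ig_zero : Ig B a (0 : D) := fun i => by
  rw [map_zero, Finsupp.zero_apply, map_zero]
  exact zero_le_one

theorem Gd.add (h : IsNonarchimedean a) {x y : D} (hx : Ig B a x) (hy : Ig B a y) :
    Ig B a (x + y) := fun i => by
  rw [map_add, Finsupp.add_apply]
  exact (h _ _).trans (max_le (hx i) (hy i))

theorem Gd.neg {x : D} (hx : Ig B a x) : Ig B a (-x) := fun i => by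
  rw [map_neg, Finsupp.neg_apply, AbsoluteValue.map_neg]
  exact hx i

theorem Gd.sub (h : IsNonarchimedean a) {x y : D} (hx : Ig B a x) (hy : Ig B a y) :
    Ig B a (x - y) := by
  rw [sub_eq_add_neg]
  exact Gd.add h hx (Gd.neg hy)

theorem Gd.smul {c : k} (hc : a c ≤ 1) {x : D} (hx : Ig B a x) : Ig B a (c • x) := fun i => by
  rw [map_smul, Finsupp.smul_apply, smul_eq_mul, map_mul]
  exact mul_le_one₀ hc (AbsoluteValue.nonneg _ _) (hx i)

theorem Gd.sum (h : IsNonarchimedean a) {ι : Type} (s : Finset ι) {f : ι → D}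
    (hf : ∀ i ∈ s, Ig B a (f i)) : Ig B a (∑ i ∈ s, f i) := by
  classical
  induction s using Finset.induction_on with
  | empty => rw [Finset.sum_empty]; exact ig_zero
  | insert b s hb ih =>
    rw [Finset.sum_insert hb]
    exact Gd.add h (hf b (Finset.mem_insert_self _ _))
      (ih fun i hi => hf i (Finset.mem_insert_of_mem hi))

theorem Gd.mul' (h : Gd B a) {x y : D} (hx : Ig B a x) (hy : Ig B a y) : Ig B a (x * y) := by
  have e : x * y = ∑ i, ∑ j, (B.repr x i * B.repr y j) • (B i * B j) := by
    conv_lhs => rw [← B.sum_repr x, ← B.sum_repr y]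
    rw [Finset.sum_mul_sum]
    refine Finset.sum_congr rfl fun i _ => Finset.sum_congr rfl fun j _ => ?_
    rw [smul_mul_smul_comm]
  rw [e]
  refine Gd.sum h.na _ fun i _ => Gd.sum h.na _ fun j _ => Gd.smul ?_ (h.mul i j)
  rw [map_mul]
  exact mul_le_one₀ (hx i) (AbsoluteValue.nonneg _ _) (hy j)

theorem Gd.star (h : Gd B a) (hst : ∀ (c : k) (x : D), Star.star (c • x) = c • Star.star x) {x : D}
    (hx : Ig B a x) : Ig B a (Star.star x) := by
  have e : Star.star x = ∑ i, B.repr x i • Star.star (B i) := by
    conv_lhs => rw [← B.sum_repr x]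
    rw [star_sum]
    exact Finset.sum_congr rfl fun i _ => hst _ _
  rw [e]
  exact Gd.sum h.na _ fun i _ => Gd.smul (hx i) (h.str i)

theorem ig_of_na {x : D} (hx : na B a x ≤ 1) : Ig B a x := fun i => (coord_le_na B a x i).trans hx

/-- Elements close to one are integral. -/
theorem Gd.of_near (h : Gd B a) {x : D} (hx : H182.na B a (x - 1) ≤ 1) : Ig B a x := by
  have e : x = (x - 1) + 1 := by abel
  rw [e]
  exact Gd.add h.na (ig_of_na hx) h.one

end int

section good

variable {k D : Type} [Field k] [NumberField k] [DivisionRing D] [StarRing D] [Algebra k D]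
  {N : ℕ} (B : Basis (Fin N) k D)

theorem plAbv_le_one (v : HeightOneSpectrum (𝓞 k)) (x : k) :
    plAbv (Sum.inl v) x ≤ 1 ↔ v.valuation k x ≤ 1 := by
  have h1 := plAbv_lt v 1 x
  rw [map_one, map_one] at h1
  exact not_lt.symm.trans ((not_congr h1).trans not_lt)

theorem finite_big (x : k) : {v : HeightOneSpectrum (𝓞 k) | ¬ plAbv (Sum.inl v) x ≤ 1}.Finite := by
  by_cases hx : x = 0
  · convert Set.finite_empty
    ext v
    simp [hx]
  · refine (finite_ne_one (Units.mk0 x hx)).subset fun v hv => ?_
    simp only [Set.mem_setOf_eq] at hv ⊢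
    rw [plAbv_le_one] at hv
    intro h
    apply hv
    rw [Units.val_mk0] at h
    exact h.le

theorem isNonarch (v : HeightOneSpectrum (𝓞 k)) : IsNonarchimedean (plAbv (Sum.inl v)) := by
  intro x y
  have h1 : v.valuation k (x + y) ≤ max (v.valuation k x) (v.valuation k y) :=
    Valuation.map_add _ _ _
  have h2 := plAbv_lt (F := k) v
  rcases le_max_iff.mp h1 with h | h
  · exact le_max_of_le_left (not_lt.mp fun h3 => (not_lt.mpr h) ((h2 _ _).mp h3))
  · exact le_max_of_le_right (not_lt.mp fun h3 => (not_lt.mpr h) ((h2 _ _).mp h3))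

/-- Almost all places are good. -/
theorem finite_bad : {v : HeightOneSpectrum (𝓞 k) | ¬ Gd B (plAbv (Sum.inl v))}.Finite := by
  have hf : ∀ x : D, {v : HeightOneSpectrum (𝓞 k) | ¬ Ig B (plAbv (Sum.inl v)) x}.Finite := by
    intro x
    refine (Set.finite_iUnion fun i => finite_big (B.repr x i)).subset fun v hv => ?_
    simp only [Set.mem_setOf_eq, Ig, not_forall] at hv
    obtain ⟨i, hi⟩ := hv
    exact Set.mem_iUnion.mpr ⟨i, hi⟩
  refine (((hf 1).union (Set.finite_iUnion fun i => Set.finite_iUnion fun j =>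
    hf (B i * B j))).union (Set.finite_iUnion fun i => hf (star (B i)))).subset fun v hv => ?_
  simp only [Set.mem_union, Set.mem_iUnion, Set.mem_setOf_eq]
  by_contra hcon
  push Not at hcon
  exact hv ⟨isNonarch v, hcon.1.1, hcon.1.2, hcon.2⟩

end good

end Vale.Agent.P011.H182
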