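import Vale.Agent.P011.H182.Word

/-!
The distance from the centre, and the first exit measured with it.
-/

open Module NumberField IsDedekindDomain Filter Topology

set_option linter.unusedSectionVars false

namespace Vale.Agent.P011.H182

open Vale.Agent.P011.Arith Vale.Agent.P011.Even Vale.Agent.P011.Two Vale.Agent.P011.One

section nc

variable {k D : Type} [Field k] [DivisionRing D] [Algebra k D] {N : ℕ}
  (B : Basis (Fin N) k D) (a : AbsoluteValue k ℝ)

/-- The distance from the centre. -/
noncomputable def nc (y : D) : ℝ := ∑ j, na B a (y * B j - B j * y)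

theorem nc_nonneg (y : D) : 0 ≤ nc B a y := Finset.sum_nonneg fun _ _ => na_nonneg _ _ _

theorem le_nc (y : D) (j : Fin N) : na B a (y * B j - B j * y) ≤ nc B a y :=
  Finset.single_le_sum (f := fun j => na B a (y * B j - B j * y))
    (fun _ _ => na_nonneg _ _ _) (Finset.mem_univ j)

/-- The commutator with any element. -/
theorem na_comm_le (y z : D) : na B a (y * z - z * y) ≤ na B a z * nc B a y := by
  have e : y * z - z * y = ∑ j, B.repr z j • (y * B j - B j * y) := by
    conv_lhs => rw [← B.sum_repr z]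
    rw [Finset.mul_sum, Finset.sum_mul, ← Finset.sum_sub_distrib]
    exact Finset.sum_congr rfl fun j _ => by rw [mul_smul_comm, smul_mul_assoc, smul_sub]
  rw [e]
  refine (na_sum_le B a _ _).trans ?_
  rw [na, Finset.sum_mul]
  refine Finset.sum_le_sum fun j _ => ?_
  rw [na_smul]
  exact mul_le_mul_of_nonneg_left (le_nc B a y j) (AbsoluteValue.nonneg _ _)

theorem nc_sub_one (y : D) : nc B a (y - 1) = nc B a y := by
  unfold nc
  refine Finset.sum_congr rfl fun j _ => ?_
  congr 1
  noncomm_ring

/-- The distance from the centre is small for small elements. -/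
theorem nc_le : ∃ C : ℝ, 1 ≤ C ∧ ∀ y, nc B a y ≤ C * na B a y := by
  obtain ⟨C, hC, hm⟩ := na_mul B a
  have h0 := Finset.sum_nonneg fun (j : Fin N) (_ : j ∈ Finset.univ) => na_nonneg B a (B j)
  refine ⟨1 + ∑ j, 2 * C * na B a (B j), ?_, fun y => ?_⟩
  · rw [← Finset.mul_sum]
    have : 0 ≤ 2 * C * ∑ j, na B a (B j) := by positivity
    linarith
  · have hy := na_nonneg B a y
    have h1 : nc B a y ≤ (∑ j, 2 * C * na B a (B j)) * na B a y := by
      rw [nc, Finset.sum_mul]
      refine Finset.sum_le_sum fun j _ => ?_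
      refine (na_sub_le B a _ _).trans ?_
      have h2 := hm y (B j)
      have h3 := hm (B j) y
      nlinarith
    nlinarith

variable [StarRing D]

/-- The distance from the centre of a conjugate. -/
theorem nc_conj {C R : ℝ} (hC : 1 ≤ C) (hm : ∀ x y, na B a (x * y) ≤ C * na B a x * na B a y)
    (hs : ∀ x, na B a (star x) ≤ C * na B a x) (hR : 0 ≤ R) : ∃ K0 : ℝ, 1 ≤ K0 ∧
      ∀ c : D, c * star c = 1 → na B a c ≤ R → ∀ y, nc B a (c * y * c⁻¹) ≤ K0 * nc B a y := by
  have hC0 : 0 ≤ C := by linarith
  obtain ⟨E, hEd⟩ : ∃ E : ℝ, E = C * (C * R * 1) * (C * R) := ⟨_, rfl⟩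
  have hE0 : 0 ≤ E := by rw [hEd]; positivity
  refine ⟨1 + ∑ j, E * (E * na B a (B j)), ?_, fun c hc hcR y => ?_⟩
  · have : 0 ≤ ∑ j, E * (E * na B a (B j)) := Finset.sum_nonneg fun j _ =>
      mul_nonneg hE0 (mul_nonneg hE0 (na_nonneg _ _ _))
    linarith
  have hc0 : c ≠ 0 := left_ne_zero_of_mul_eq_one hc
  have hci : c⁻¹ = star c := inv_eq_of_mul_eq_one_right hc
  have hcs : na B a (star c) ≤ C * R := (hs c).trans (mul_le_mul_of_nonneg_left hcR hC0)
  have hn := nc_nonneg B a y
  -- conjugation of any element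
  have hconj : ∀ z : D, na B a (c * z * star c) ≤ E * na B a z := by
    intro z
    have hz := na_nonneg B a z
    calc na B a (c * z * star c) ≤ C * na B a (c * z) * na B a (star c) := hm _ _
      _ ≤ C * (C * na B a c * na B a z) * (C * R) :=
          mul_le_mul (mul_le_mul_of_nonneg_left (hm _ _) hC0) hcs (na_nonneg _ _ _)
            (mul_nonneg hC0 (mul_nonneg (mul_nonneg hC0 (na_nonneg _ _ _)) hz))
      _ ≤ C * (C * R * na B a z) * (C * R) := by
          refine mul_le_mul_of_nonneg_right (mul_le_mul_of_nonneg_left ?_ hC0) (by positivity)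
          exact mul_le_mul_of_nonneg_right (mul_le_mul_of_nonneg_left hcR hC0) hz
      _ = E * na B a z := by rw [hEd]; ring
  have hconj' : ∀ z : D, na B a (star c * z * c) ≤ E * na B a z := by
    intro z
    have hz := na_nonneg B a z
    calc na B a (star c * z * c) ≤ C * na B a (star c * z) * na B a c := hm _ _
      _ ≤ C * (C * na B a (star c) * na B a z) * R :=
          mul_le_mul (mul_le_mul_of_nonneg_left (hm _ _) hC0) hcR (na_nonneg _ _ _)
            (mul_nonneg hC0 (mul_nonneg (mul_nonneg hC0 (na_nonneg _ _ _)) hz))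
      _ ≤ C * (C * (C * R) * na B a z) * R := by
          refine mul_le_mul_of_nonneg_right (mul_le_mul_of_nonneg_left ?_ hC0) (by positivity)
          exact mul_le_mul_of_nonneg_right (mul_le_mul_of_nonneg_left hcs hC0) hz
      _ = E * na B a z := by rw [hEd]; ring
  have h1 : nc B a (c * y * c⁻¹) ≤ (∑ j, E * (E * na B a (B j))) * nc B a y := by
    rw [nc, Finset.sum_mul]
    refine Finset.sum_le_sum fun j _ => ?_
    have e : c * y * c⁻¹ * B j - B j * (c * y * c⁻¹) =
        c * (y * (star c * B j * c) - (star c * B j * c) * y) * star c := by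
      have h2 : star c * c = 1 := by rw [← hci, inv_mul_cancel₀ hc0]
      rw [hci, mul_sub, sub_mul]
      congr 1
      · calc c * y * star c * B j = c * y * star c * B j * (c * star c) := by rw [hc, mul_one]
          _ = _ := by simp only [mul_assoc]
      · calc B j * (c * y * star c) = (c * star c) * B j * (c * y * star c) := by
              rw [hc, one_mul]
          _ = _ := by simp only [mul_assoc]
    rw [e]
    refine (hconj _).trans ?_
    have h3 := (na_comm_le B a y (star c * B j * c)).trans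
      (mul_le_mul_of_nonneg_right (hconj' (B j)) hn)
    calc E * na B a (y * (star c * B j * c) - star c * B j * c * y)
        ≤ E * (E * na B a (B j) * nc B a y) := mul_le_mul_of_nonneg_left h3 hE0
      _ = _ := by ring
  nlinarith

end nc

section trace

variable {k K D : Type} [Field k] [Field K] [CharZero K] [DivisionRing D] [Algebra k K]
  [Algebra k D] [Algebra K D] [IsScalarTower k K D] [FiniteDimensional K D]
  [Algebra.IsCentral K D] {N : ℕ} (B : Basis (Fin N) k D)

/-- The normalised trace. -/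
noncomputable def qtr (k K : Type) {D : Type} [Field k] [Field K] [DivisionRing D] [Algebra k K]
    [Algebra k D] [Algebra K D] [IsScalarTower k K D] : D →ₗ[k] D where
  toFun y := ((finrank K D : K)⁻¹ * LinearMap.trace K D (LinearMap.mulLeft K y)) • (1 : D)
  map_add' y z := by
    have h : LinearMap.mulLeft K (y + z) = LinearMap.mulLeft K y + LinearMap.mulLeft K z := by
      ext x
      simp [add_mul]
    rw [h, map_add, mul_add, add_smul]
  map_smul' c y := by
    have h : LinearMap.mulLeft K (c • y) = algebraMap k K c • LinearMap.mulLeft K y := by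
      ext x
      rw [LinearMap.mulLeft_apply, LinearMap.smul_apply, LinearMap.mulLeft_apply, smul_mul_assoc,
        algebraMap_smul]
    rw [h, map_smul, RingHom.id_apply, smul_eq_mul, mul_left_comm, mul_smul, algebraMap_smul]

theorem qtr_conj {c : D} (hc : c ≠ 0) (y : D) : qtr k K (c * y * c⁻¹) = qtr k K y := by
  have h1 := tf_comm (K := K) (c * y) c⁻¹
  rw [tf_apply, tf_apply] at h1
  change ((finrank K D : K)⁻¹ * LinearMap.trace K D (LinearMap.mulLeft K (c * y * c⁻¹))) •
    (1 : D) = ((finrank K D : K)⁻¹ * LinearMap.trace K D (LinearMap.mulLeft K y)) • (1 : D)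
  rw [h1, ← mul_assoc, inv_mul_cancel₀ hc, one_mul]

theorem qtr_algebraMap (c : K) : qtr k K (algebraMap K D c) = algebraMap K D c := by
  have h7 : LinearMap.mulLeft K (algebraMap K D c) = c • (LinearMap.id : D →ₗ[K] D) := by
    ext x
    simp [Algebra.smul_def]
  have h8 : (finrank K D : K) ≠ 0 := by
    have h2 : 0 < finrank K D := Module.finrank_pos
    exact_mod_cast h2.ne'
  change ((finrank K D : K)⁻¹ * LinearMap.trace K D (LinearMap.mulLeft K (algebraMap K D c))) •
    (1 : D) = _
  rw [h7, map_smul, LinearMap.trace_id, smul_eq_mul, mul_left_comm, inv_mul_cancel₀ h8, mul_one,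
    Algebra.algebraMap_eq_smul_one]

theorem qtr_one : qtr k K (1 : D) = 1 := by
  have h := qtr_algebraMap (k := k) (K := K) (D := D) 1
  rwa [map_one] at h

include B in
/-- The size is bounded by the normalised trace and the distance from the centre. -/
theorem na_le_nc (a : AbsoluteValue k ℝ) :
    ∃ C : ℝ, 1 ≤ C ∧ ∀ y, na B a y ≤ C * (na B a (qtr k K y) + nc B a y) := by
  classical
  let Ψ : D →ₗ[k] D × (Fin N → D) := LinearMap.prod (qtr k K)
    (LinearMap.pi fun j => LinearMap.mulRight k (B j) - LinearMap.mulLeft k (B j))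
  have hΨ : ∀ y, Ψ y = (qtr k K y, fun j => y * B j - B j * y) := fun y => rfl
  have hinj : LinearMap.ker Ψ = ⊥ := by
    rw [LinearMap.ker_eq_bot']
    intro y hy
    rw [hΨ, Prod.mk_eq_zero] at hy
    obtain ⟨h1, h2⟩ := hy
    have h3 : ∀ z : D, z * y = y * z := by
      intro z
      have e : y * z - z * y = ∑ j, B.repr z j • (y * B j - B j * y) := by
        conv_lhs => rw [← B.sum_repr z]
        rw [Finset.mul_sum, Finset.sum_mul, ← Finset.sum_sub_distrib]
        exact Finset.sum_congr rfl fun j _ => by rw [mul_smul_comm, smul_mul_assoc, smul_sub]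
      have h4 : y * z - z * y = 0 := by
        rw [e]
        refine Finset.sum_eq_zero fun j _ => ?_
        have := congrFun h2 j
        beta_reduce at this
        rw [this, Pi.zero_apply, smul_zero]
      exact (sub_eq_zero.mp h4).symm
    have h5 : y ∈ Subalgebra.center K D := by
      rw [Subalgebra.mem_center_iff]
      exact h3
    obtain ⟨c, hc⟩ := Algebra.mem_bot.mp (Algebra.IsCentral.out h5)
    rw [← hc, qtr_algebraMap] at h1
    rw [← hc]
    exact h1
  obtain ⟨L, hL⟩ := Ψ.exists_leftInverse_of_injective hinj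
  obtain ⟨C1, hC1, h1⟩ := na_linear B a (L ∘ₗ LinearMap.inl k D (Fin N → D))
  choose C2 hC2 h2 using fun j : Fin N => na_linear B a
    (L ∘ₗ LinearMap.inr k D (Fin N → D) ∘ₗ LinearMap.single k (fun _ : Fin N => D) j)
  have hs : 0 ≤ ∑ j, C2 j := Finset.sum_nonneg fun j _ => (hC2 j).le
  refine ⟨1 + C1 + ∑ j, C2 j, by linarith, fun y => ?_⟩
  have e : y = L (Ψ y) := by
    have := congrArg (fun g => g y) hL
    exact this.symm
  have e2 : Ψ y = LinearMap.inl k D (Fin N → D) (qtr k K y) +
      ∑ j, LinearMap.inr k D (Fin N → D)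
        (LinearMap.single k (fun _ : Fin N => D) j (y * B j - B j * y)) := by
    rw [← map_sum, hΨ]
    have h3 : ∑ j, LinearMap.single k (fun _ : Fin N => D) j (y * B j - B j * y) =
        fun j => y * B j - B j * y := by
      funext i
      rw [Finset.sum_apply, Finset.sum_eq_single i]
      · simp
      · intro j _ hj
        simp [Pi.single_eq_of_ne (Ne.symm hj)]
      · intro h
        exact absurd (Finset.mem_univ i) h
    rw [h3]
    simp
  have h4 := na_nonneg B a (qtr k K y)
  have h5 := nc_nonneg B a y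
  have h6 : na B a y ≤ C1 * na B a (qtr k K y) + (∑ j, C2 j) * nc B a y := by
    conv_lhs => rw [e, e2, map_add, map_sum]
    refine (na_add_le B a _ _).trans (add_le_add (h1 _) ?_)
    refine (na_sum_le B a _ _).trans ?_
    rw [Finset.sum_mul]
    refine Finset.sum_le_sum fun j _ => (h2 j _).trans ?_
    exact mul_le_mul_of_nonneg_left (le_nc B a y j) (hC2 j).le
  nlinarith

end trace

variable {k K D : Type} [Field k] [NumberField k] [Field K] [StarRing K]
  [DivisionRing D] [StarRing D] [Algebra k K] [Algebra k D] [Algebra K D] [IsScalarTower k K D]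
  {d : kˣ} {s : K} {N : ℕ} {Ω : Type} [Field Ω] [Algebra K Ω] {n : ℕ}
  {f : D →ₐ[K] Matrix (Fin n) (Fin n) Ω} {B : Basis (Fin N) k D} {p : Pl k} {R : ℝ}

/-- **First exit with bounded ratio**, measured with the distance from the centre. -/
theorem exists_exit (hS : Setting k K D d s) (hR : na B (plAbv p) 1 < R)
    {g : ℕ → D} (hg : ∀ m, g m ∈ Wd f B p R) {z : D}
    (hz : ∀ M : ℝ, ∃ m, M < na B (plAbv p) (g m * z * (g m)⁻¹)) :
    ∃ C : ℝ, 1 ≤ C ∧ ∀ (x b : D), b * x ≠ x * b → ∀ δ : ℝ, 0 < δ →
      C * na B (plAbv p) (x - 1) < δ → ∃ a ∈ GU f, δ ≤ nc B (plAbv p) (a * x * a⁻¹) ∧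
        nc B (plAbv p) (a * x * a⁻¹) ≤ C * δ ∧ na B (plAbv p) (a * x * a⁻¹ - 1) ≤ C * δ := by
  have := hS.fin
  have := hS.cen
  have hcharK : CharZero K := charZero_of_injective_algebraMap (algebraMap k K).injective
  have hst : ∀ (c : k) (x : D), star (c • x) = c • star x := fun c x => (Setting.sig hS).map_smul c x
  obtain ⟨C, hC1, hCm, hCs⟩ := na_const B (plAbv p) hst
  have hC0 : 0 < C := by linarith
  have hR0 : 0 < R := (na_nonneg B (plAbv p) 1).trans_lt hR
  obtain ⟨C2, hC2, hnc⟩ := nc_le B (plAbv p)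
  obtain ⟨C3, hC3, hna⟩ := na_le_nc (K := K) B (plAbv p)
  obtain ⟨C4, hC4, hcj⟩ := nc_conj B (plAbv p) hC1 hCm hCs hR0.le
  obtain ⟨C5, hC5, hq⟩ := na_linear B (plAbv p) (qtr k K : D →ₗ[k] D)
  obtain ⟨E, hEd⟩ : ∃ E : ℝ, E = C2 + C4 + C3 * (C5 + C4) := ⟨_, rfl⟩
  have hE1 : 1 ≤ E := by
    rw [hEd]
    have : 0 ≤ C3 * (C5 + C4) := by positivity
    linarith
  refine ⟨E, hE1, fun x b hx δ hδ hxδ => ?_⟩
  have hx0 := na_nonneg B (plAbv p) (x - 1)
  have hxδ' : na B (plAbv p) (x - 1) < δ := by nlinarith
  -- unboundedness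
  obtain ⟨a, ha, haM⟩ := unbounded_conj hS hR hg hz hx (C3 * (na B (plAbv p) (qtr k K x) + δ))
  have hbig : δ < nc B (plAbv p) (a * x * a⁻¹) := by
    have h1 := hna (a * x * a⁻¹)
    rw [qtr_conj (gu_ne (wd_gu ha))] at h1
    have h2 := haM.trans_le h1
    have h3 : na B (plAbv p) (qtr k K x) + δ <
        na B (plAbv p) (qtr k K x) + nc B (plAbv p) (a * x * a⁻¹) :=
      lt_of_mul_lt_mul_left h2 (by linarith)
    linarith
  -- the size is controlled by the distance from the centre
  have hsize : ∀ a ∈ GU f, nc B (plAbv p) (a * x * a⁻¹) ≤ C4 * δ →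
      na B (plAbv p) (a * x * a⁻¹ - 1) ≤ E * δ := by
    intro a ha h
    have h1 := hna (a * x * a⁻¹ - 1)
    rw [map_sub, qtr_conj (gu_ne ha), ← map_sub, nc_sub_one] at h1
    have h2 := hq (x - 1)
    have h3 : na B (plAbv p) (qtr k K (x - 1)) ≤ C5 * δ :=
      h2.trans (mul_le_mul_of_nonneg_left hxδ'.le hC5.le)
    have h4 : na B (plAbv p) (qtr k K (x - 1)) + nc B (plAbv p) (a * x * a⁻¹) ≤
        (C5 + C4) * δ := by linarith
    have h5 := h1.trans (mul_le_mul_of_nonneg_left h4 (by linarith))
    have h6 : 0 ≤ (C2 + C4) * δ := by positivity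
    have h7 : E * δ = (C2 + C4) * δ + C3 * ((C5 + C4) * δ) := by rw [hEd]; ring
    linarith
  by_contra hcon
  push Not at hcon
  -- every word stays inside
  have key : ∀ a ∈ Wd f B p R, nc B (plAbv p) (a * x * a⁻¹) < δ := by
    intro a ha
    unfold Wd at ha
    induction ha using Submonoid.closure_induction_left with
    | one =>
      rw [one_mul, inv_one, mul_one, ← nc_sub_one]
      refine (hnc _).trans_lt ?_
      refine lt_of_le_of_lt (mul_le_mul_of_nonneg_right ?_ hx0) hxδ
      rw [hEd]
      have : 0 ≤ C3 * (C5 + C4) := by positivity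
      linarith
    | mul_left s hs a ha ih =>
      have ha' : a ∈ Wd f B p R := ha
      have hsa : s * a ∈ GU f := gu_mul hs.1 (wd_gu ha')
      by_contra hge
      rw [not_lt] at hge
      have e : s * a * x * (s * a)⁻¹ = s * (a * x * a⁻¹) * s⁻¹ := by
        rw [mul_inv_rev]
        simp only [mul_assoc]
      have h2 : nc B (plAbv p) (s * a * x * (s * a)⁻¹) ≤ C4 * δ := by
        rw [e]
        exact (hcj s hs.1.1 hs.2.1 _).trans (mul_le_mul_of_nonneg_left ih.le (by linarith))
      have h3 : C4 * δ ≤ E * δ := by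
        refine mul_le_mul_of_nonneg_right ?_ hδ.le
        rw [hEd]
        have : 0 ≤ C3 * (C5 + C4) := by positivity
        linarith
      exact absurd (hsize _ hsa h2) (not_le.mpr (hcon _ hsa hge (h2.trans h3)))
  exact absurd (key a ha) (not_lt.mpr hbig.le)

end Vale.Agent.P011.H182
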