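import Vale.Agent.P011.H182.Norm

/-!
Cocompactness of the special unitary group from cocompactness of the unitary group.
-/

open Module NumberField IsDedekindDomain Filter Topology

set_option linter.unusedSectionVars false

namespace Vale.Agent.P011.H182

open Vale.Agent.P011.Arith Vale.Agent.P011.Even Vale.Agent.P011.Two Vale.Agent.P011.One

variable {k K D : Type} [Field k] [NumberField k] [Field K] [StarRing K]
  [DivisionRing D] [StarRing D] [Algebra k K] [Algebra k D] [Algebra K D] [IsScalarTower k K D]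
  {d : kˣ} {s : K} {N : ℕ} {Ω : Type} [Field Ω] [Algebra K Ω] {n : ℕ}
  {f : D →ₐ[K] Matrix (Fin n) (Fin n) Ω} {B : Basis (Fin N) k D}

/-- The norms of elements bounded outside `v`, and bounded at `v` up to an element of reduced norm
one, form a finite set. -/
theorem finite_norms (hS : Setting k K D d s) (hn : 0 < n) (hdeg : finrank K D = n ^ 2)
    (f : D →ₐ[K] Matrix (Fin n) (Fin n) Ω) (B : Basis (Fin N) k D)
    (v : HeightOneSpectrum (𝓞 k)) {M : HeightOneSpectrum (𝓞 k) → ℝ} (hM : {w | M w ≠ 1}.Finite)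
    (R : ℝ) : {y : Ω | ∃ g ∈ Bnd B {v} M R, ∃ a ∈ GU f, na B (fa v) (g * a⁻¹) ≤ R ∧
      y = (f g).det}.Finite := by
  classical
  have := hS.fin
  have := hS.cen
  have hst : ∀ (c : k) (x : D), star (c • x) = c • star x := fun c x => (Setting.sig hS).map_smul c x
  have hfink : FiniteDimensional k K := Module.finite_of_finrank_pos (by rw [hS.rank]; norm_num)
  let bK : Basis (Fin 2) k K := Module.finBasisOfFinrankEq k K hS.rank
  let b : Basis (Fin (n ^ 2)) K D := Module.finBasisOfFinrankEq K D hdeg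
  -- bounds
  choose R1 hR1 using fun w : HeightOneSpectrum (𝓞 k) =>
    na_norm_le (D := D) B bK b (fa w) (N * |M w| + |R|)
  choose R2 hR2 using fun φ : k →+* ℂ => na_norm_le (D := D) B bK b (cAbv φ) (N * R)
  obtain ⟨E, hEd⟩ : ∃ E : Set (HeightOneSpectrum (𝓞 k)), E = {v} ∪ {w | M w ≠ 1} ∪ Bad bK ∪
      ⋃ i, ⋃ j, ⋃ l, {w | ¬ Ig bK (fa w) (entr (k := k) b i j (B l))} := ⟨_, rfl⟩
  have hfI : ∀ x : K, {w : HeightOneSpectrum (𝓞 k) | ¬ Ig bK (fa w) x}.Finite := by
    intro x
    refine (Set.finite_iUnion fun i => finite_big (bK.repr x i)).subset fun v hv => ?_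
    simp only [Set.mem_ofPred_eq, Ig, not_forall] at hv
    obtain ⟨i, hi⟩ := hv
    exact Set.mem_iUnion.mpr ⟨i, hi⟩
  have hE : E.Finite := by
    rw [hEd]
    refine ((((Set.finite_singleton v).union hM).union (finite_Bad bK)).union ?_)
    exact Set.finite_iUnion fun i => Set.finite_iUnion fun j => Set.finite_iUnion fun l => hfI _
  obtain ⟨M', hM'd⟩ : ∃ M' : HeightOneSpectrum (𝓞 k) → ℝ, M' = fun w =>
      if w ∈ E then R1 w else 1 := ⟨_, rfl⟩
  have hM' : {w | M' w ≠ 1}.Finite := by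
    refine hE.subset fun w hw => ?_
    by_contra h
    apply hw
    rw [hM'd]
    exact if_neg h
  obtain ⟨R', hR'⟩ : ∃ R' : ℝ, ∀ φ : k →+* ℂ, R2 φ ≤ R' := by
    refine ⟨∑ φ : k →+* ℂ, |R2 φ|, fun φ => (le_abs_self _).trans ?_⟩
    exact Finset.single_le_sum (f := fun φ : k →+* ℂ => |R2 φ|)
      (fun _ _ => abs_nonneg _) (Finset.mem_univ φ)
  have hFk := finite_bounded hM' R'
  have hFK : {y : K | ∀ i, bK.repr y i ∈ {x : k | (∀ w, fa w x ≤ M' w) ∧
      ∀ φ : k →+* ℂ, ‖φ x‖ ≤ R'}}.Finite := by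
    refine Set.Finite.of_finite_image (f := fun y : K => fun i => bK.repr y i)
      ((Set.Finite.pi fun _ => hFk).subset ?_) ?_
    · rintro _ ⟨y, hy, rfl⟩
      exact fun i _ => hy i
    · intro x _ y _ h
      apply bK.repr.injective
      ext i
      exact congrFun h i
  have hroot : ∀ c : Ω, {y : Ω | y ^ n = c}.Finite := by
    intro c
    have h1 : (Polynomial.X ^ n - Polynomial.C c : Polynomial Ω) ≠ 0 :=
      Polynomial.X_pow_sub_C_ne_zero hn c
    refine ((Polynomial.X ^ n - Polynomial.C c : Polynomial Ω).roots.toFinset.finite_toSet).subset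
      fun y hy => ?_
    rw [Finset.mem_coe, Multiset.mem_toFinset, Polynomial.mem_roots h1, Polynomial.IsRoot.def,
      Polynomial.eval_sub, Polynomial.eval_pow, Polynomial.eval_X, Polynomial.eval_C, sub_eq_zero]
    exact hy
  refine (hFK.biUnion fun ν _ => hroot (algebraMap K Ω ν)).subset ?_
  rintro _ ⟨g, ⟨hg1, hg2, hg3⟩, a, ha, hga, rfl⟩
  have hdet := Vale.Agent.P011S.SF.norm_eq_det_pow hn hdeg f g
  rw [Set.mem_iUnion₂]
  refine ⟨Algebra.norm K g, fun i => ⟨fun w => ?_, fun φ => ?_⟩, hdet.symm⟩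
  · -- finite places
    have hnorm : na B (fa w) g ≤ N * |M w| + |R| ∨ w = v := by
      by_cases hw : w = v
      · exact Or.inr hw
      · left
        have h1 := na_le_of_coord B (fa w) (hg2 w hw)
        have h2 : (N : ℝ) * M w ≤ N * |M w| :=
          mul_le_mul_of_nonneg_left (le_abs_self _) (Nat.cast_nonneg N)
        have := abs_nonneg R
        linarith
    by_cases hwE : w ∈ E
    · have e : M' w = R1 w := by rw [hM'd]; exact if_pos hwE
      rw [e]
      refine (coord_le_na bK (fa w) _ i).trans ?_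
      rcases hnorm with h1 | h1
      · exact hR1 w g h1
      · subst h1
        -- at `v`: the norm of `g` is the norm of `g * a⁻¹`
        have hna : Algebra.norm K g = Algebra.norm K (g * a⁻¹) := by
          have h2 := Vale.Agent.P011S.SF.norm_eq_det_pow hn hdeg f a⁻¹
          rw [(gu_inv ha).2, one_pow] at h2
          have h3 : Algebra.norm K a⁻¹ = 1 := by
            apply (algebraMap K Ω).injective
            rw [h2, map_one]
          rw [map_mul, h3, mul_one]
        rw [hna]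
        apply hR1 w
        refine hga.trans ?_
        have h4 := le_abs_self R
        have h5 : 0 ≤ (N : ℝ) * |M w| := by positivity
        linarith
    · have e : M' w = 1 := by rw [hM'd]; exact if_neg hwE
      rw [e]
      rw [hEd] at hwE
      simp only [Set.mem_union, not_or, Set.mem_iUnion, not_exists, Set.mem_ofPred_eq, not_not,
        Set.mem_singleton_iff] at hwE
      obtain ⟨⟨⟨hwv, hwM⟩, hwB⟩, hwe⟩ := hwE
      have hgd : Gd bK (fa w) := by
        by_contra hcon
        exact hwB hcon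
      have hgI : Ig B (fa w) g := fun i => by
        have := hg2 w hwv i
        rwa [hwM] at this
      exact ig_norm B bK b (fa w) hgd hwe hgI i
  · refine (coord_le_na bK (cAbv φ) _ i).trans ((hR2 φ g ?_).trans (hR' φ))
    exact na_le_of_coord B (cAbv φ) (hg3 φ)

/-- **Cocompactness of the special unitary group.** -/
theorem coc_su (hS : Setting k K D d s) (hn : 0 < n) (hdeg : finrank K D = n ^ 2)
    (f : D →ₐ[K] Matrix (Fin n) (Fin n) Ω) (B : Basis (Fin N) k D)
    (v : HeightOneSpectrum (𝓞 k)) (h : Coc B v {g | g * star g = 1} (GU f)) :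
    Coc B v (GU f) (GU f) := by
  classical
  have hst : ∀ (c : k) (x : D), star (c • x) = c • star x := fun c x => (Setting.sig hS).map_smul c x
  obtain ⟨M, hM, R, hR⟩ := h
  have hfin := finite_norms hS hn hdeg f B v hM R
  -- representatives
  let P : Ω → D → Prop := fun y g => g ∈ Bnd B {v} M R ∧ (f g).det = y
  let rep : Ω → D := fun y => if h : ∃ g, P y g then h.choose else 1
  have hrep : ∀ y, (∃ g, P y g) → P y (rep y) := by
    intro y hy
    have : rep y = hy.choose := dif_pos hy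
    rw [this]
    exact hy.choose_spec
  choose Cw hCw1 hCwm hCws using fun w : HeightOneSpectrum (𝓞 k) => na_const B (fa w) hst
  choose Cφ hCφ1 hCφm hCφs using fun φ : k →+* ℂ => na_const B (cAbv φ) hst
  obtain ⟨M', hM'd⟩ : ∃ M' : HeightOneSpectrum (𝓞 k) → ℝ, M' = fun w =>
      if w ∈ Bad B ∪ {w | M w ≠ 1} then Cw w * (Cw w * (N * |M w|)) * (N * |M w|) else 1 :=
    ⟨_, rfl⟩
  have hM' : {w | M' w ≠ 1}.Finite := by
    refine ((finite_Bad B).union hM).subset fun w hw => ?_
    by_contra h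
    apply hw
    rw [hM'd]
    exact if_neg h
  obtain ⟨Ra, hRa⟩ : ∃ Ra : ℝ, ∀ φ : k →+* ℂ, Cφ φ * (Cφ φ * (N * |R|)) * (N * |R|) ≤ Ra := by
    refine ⟨∑ φ : k →+* ℂ, Cφ φ * (Cφ φ * (N * |R|)) * (N * |R|), fun φ => ?_⟩
    refine Finset.single_le_sum (f := fun φ : k →+* ℂ => Cφ φ * (Cφ φ * (N * |R|)) * (N * |R|))
      (fun φ _ => ?_) (Finset.mem_univ φ)
    have := hCφ1 φ
    positivity
  obtain ⟨Rb, hRb⟩ : ∃ Rb : ℝ, ∀ y ∈ hfin.toFinset, na B (fa v) (rep y) ≤ Rb := by
    refine ⟨∑ y ∈ hfin.toFinset, na B (fa v) (rep y), fun y hy => ?_⟩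
    exact Finset.single_le_sum (f := fun y => na B (fa v) (rep y))
      (fun _ _ => na_nonneg _ _ _) hy
  obtain ⟨R', hR'd⟩ : ∃ R' : ℝ, R' = max Ra (Cw v * (Cw v * |Rb|) * |R|) := ⟨_, rfl⟩
  refine ⟨M', hM', R', fun a ha => ?_⟩
  obtain ⟨g, hgu, hgB, hga⟩ := hR a ha
  obtain ⟨y, hyd⟩ : ∃ y, y = (f g).det := ⟨_, rfl⟩
  have hy : y ∈ hfin.toFinset := hfin.mem_toFinset.mpr ⟨g, hgB, a, ha, hga, hyd⟩
  obtain ⟨hμB, hμd⟩ := hrep y ⟨g, hgB, hyd.symm⟩
  obtain ⟨μ, hμ⟩ : ∃ μ, μ = rep y := ⟨_, rfl⟩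
  rw [← hμ] at hμB hμd
  have hμu : μ * star μ = 1 := hμB.1
  have hμ0 : μ ≠ 0 := left_ne_zero_of_mul_eq_one hμu
  have hμi : μ⁻¹ = star μ := inv_eq_of_mul_eq_one_right hμu
  have hμs : star μ * μ = 1 := by rw [← hμi, inv_mul_cancel₀ hμ0]
  have hg' : star μ * g ∈ GU f := by
    refine ⟨?_, ?_⟩
    · rw [star_mul, star_star]
      calc star μ * g * (star g * μ) = star μ * (g * star g) * μ := by simp only [mul_assoc]
        _ = 1 := by rw [hgB.1, mul_one, hμs]
    · have h1 : (f μ).det * (f (star μ)).det = 1 := by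
        rw [← Matrix.det_mul, ← map_mul, hμu, map_one, Matrix.det_one]
      rw [map_mul, Matrix.det_mul, ← hyd, ← hμd, mul_comm]
      exact h1
  refine ⟨star μ * g, hg', ⟨hg'.1, fun w hw i => ?_, fun φ i => ?_⟩, ?_⟩
  · by_cases hwE : w ∈ Bad B ∪ {w | M w ≠ 1}
    · have e : M' w = Cw w * (Cw w * (N * |M w|)) * (N * |M w|) := by rw [hM'd]; exact if_pos hwE
      rw [e]
      refine (coord_le_na B (fa w) _ i).trans ((hCwm w _ _).trans ?_)
      have hC0 : 0 ≤ Cw w := zero_le_one.trans (hCw1 w)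
      have h1 : na B (fa w) μ ≤ N * |M w| := (na_le_of_coord B (fa w) (hμB.2.1 w hw)).trans
        (mul_le_mul_of_nonneg_left (le_abs_self _) (Nat.cast_nonneg N))
      have h2 : na B (fa w) g ≤ N * |M w| := (na_le_of_coord B (fa w) (hgB.2.1 w hw)).trans
        (mul_le_mul_of_nonneg_left (le_abs_self _) (Nat.cast_nonneg N))
      refine mul_le_mul (mul_le_mul_of_nonneg_left ((hCws w μ).trans
        (mul_le_mul_of_nonneg_left h1 hC0)) hC0) h2 (na_nonneg _ _ _) (by positivity)
    · have e : M' w = 1 := by rw [hM'd]; exact if_neg hwE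
      rw [e]
      simp only [Set.mem_union, not_or, Set.mem_ofPred_eq, not_not] at hwE
      have hgd : Gd B (fa w) := by
        by_contra hcon
        exact hwE.1 hcon
      have h1 : ∀ g ∈ Bnd B {v} M R, Ig B (fa w) g := by
        intro g hg i
        have := hg.2.1 w hw i
        rwa [hwE.2] at this
      exact hgd.mul' (hgd.star hst (h1 μ hμB)) (h1 g hgB) i
  · rw [← cAbv_apply]
    refine (coord_le_na B (cAbv φ) _ i).trans ((hCφm φ _ _).trans (le_trans ?_ ((hRa φ).trans
      (by rw [hR'd]; exact le_max_left _ _))))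
    have hC0 : 0 ≤ Cφ φ := zero_le_one.trans (hCφ1 φ)
    have h1 : na B (cAbv φ) μ ≤ N * |R| := (na_le_of_coord B (cAbv φ) (hμB.2.2 φ)).trans
      (mul_le_mul_of_nonneg_left (le_abs_self _) (Nat.cast_nonneg N))
    have h2 : na B (cAbv φ) g ≤ N * |R| := (na_le_of_coord B (cAbv φ) (hgB.2.2 φ)).trans
      (mul_le_mul_of_nonneg_left (le_abs_self _) (Nat.cast_nonneg N))
    refine mul_le_mul (mul_le_mul_of_nonneg_left ((hCφs φ μ).trans
      (mul_le_mul_of_nonneg_left h1 hC0)) hC0) h2 (na_nonneg _ _ _) (by positivity)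
  · rw [mul_assoc]
    refine (hCwm v _ _).trans (le_trans ?_ (show Cw v * (Cw v * |Rb|) * |R| ≤ R' by
      rw [hR'd]; exact le_max_right _ _))
    have hC0 : 0 ≤ Cw v := zero_le_one.trans (hCw1 v)
    have h1 : na B (fa v) μ ≤ |Rb| := by
      rw [hμ]
      exact (hRb y hy).trans (le_abs_self _)
    refine mul_le_mul (mul_le_mul_of_nonneg_left ((hCws v μ).trans
        (mul_le_mul_of_nonneg_left h1 hC0)) hC0) (hga.trans (le_abs_self _)) (na_nonneg _ _ _)
        (by positivity)

end Vale.Agent.P011.H182
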