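import Mathlib
import Vale.Agent.P011.H182.QWa

/-!
# A conic on a quadric which avoids finitely many points

`E/k` is a finite separable extension of an infinite field, `Q` a quadratic form on `E × k`,
`A (s, x) = α s ^ 2 + β x ^ 2`.  Through two points `ρ∞ = (s∞, 0)` and `ρ₁` of the quadric `Q = 0` there
is a plane section `t ↦ ρ₁ + t μ - c t ^ 2 ρ∞` on which `A` has no common zero with its conjugates.
-/

open Module Polynomial QuadraticMap

namespace Vale.Agent.P011.H182.Conic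

variable {k E : Type} [Field k] [Field E] [Algebra k E] [FiniteDimensional k E]
  [Algebra.IsSeparable k E]

/-- every linear functional on `E × k` is given by the trace form -/
theorem exists_functional (φ : E × k →ₗ[k] k) :
    ∃ e : E, ∀ w : E × k, φ w = Algebra.trace k E (e * w.1) + w.2 * φ (0, 1) := by
  have hB := traceForm_nondegenerate k E
  set e := ((Algebra.traceForm k E).toDual hB).symm (φ.comp (LinearMap.inl k E k))
  refine ⟨e, fun w => ?_⟩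
  have h1 : Algebra.traceForm k E e w.1 = φ (w.1, 0) := by
    have := LinearMap.BilinForm.apply_toDual_symm_apply (hB := hB)
      (f := φ.comp (LinearMap.inl k E k)) w.1
    rw [this]
    rfl
  rw [Algebra.traceForm_apply] at h1
  rw [h1]
  have h2 : w = (w.1, 0) + w.2 • ((0, 1) : E × k) := by
    ext <;> simp
  conv_lhs => rw [h2]
  rw [map_add, map_smul, smul_eq_mul]


/-- independence is preserved by the embeddings -/
theorem lin_zero {ι : Type} [Fintype ι] [DecidableEq ι] (v : ι → E × k)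
    (hv : LinearIndependent k v)
    (a : ι → AlgebraicClosure k)
    (h1 : ∀ σ : E →ₐ[k] AlgebraicClosure k, ∑ i, a i * σ (v i).1 = 0)
    (h2 : ∑ i, a i * algebraMap k (AlgebraicClosure k) (v i).2 = 0) : ∀ i, a i = 0 := by
  intro l
  have hinj : Function.Injective (Fintype.linearCombination k v) :=
    linearIndependent_iff_injective_fintypeLinearCombination.1 hv
  obtain ⟨g, hg⟩ := LinearMap.exists_leftInverse_of_injective (Fintype.linearCombination k v)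
    (LinearMap.ker_eq_bot.2 hinj)
  set φ : E × k →ₗ[k] k := (LinearMap.proj l).comp g with hφ
  have hφv : ∀ i, φ (v i) = if i = l then 1 else 0 := by
    intro i
    have h3 : v i = Fintype.linearCombination k v (Pi.single i 1) := by
      rw [Fintype.linearCombination_apply_single, one_smul]
    have h4 : g (Fintype.linearCombination k v (Pi.single i 1)) = Pi.single i 1 :=
      LinearMap.congr_fun hg _
    rw [hφ, LinearMap.comp_apply, h3, h4, LinearMap.proj_apply, Pi.single_apply]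
    simp only [eq_comm]
  obtain ⟨e, he⟩ := exists_functional φ
  have h5 : ∑ i, a i * algebraMap k (AlgebraicClosure k) (φ (v i)) = 0 := by
    have h6 : ∀ i, algebraMap k (AlgebraicClosure k) (φ (v i)) =
        ∑ σ : E →ₐ[k] AlgebraicClosure k, σ e * σ (v i).1 +
          algebraMap k (AlgebraicClosure k) (v i).2 *
            algebraMap k (AlgebraicClosure k) (φ (0, 1)) := by
      intro i
      rw [he (v i), map_add, trace_eq_sum_embeddings (AlgebraicClosure k), map_mul]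
      simp only [map_mul]
    simp only [h6, mul_add, Finset.sum_add_distrib]
    have h7 : ∑ i, a i * ∑ σ : E →ₐ[k] AlgebraicClosure k, σ e * σ (v i).1 =
        ∑ σ : E →ₐ[k] AlgebraicClosure k, σ e * ∑ i, a i * σ (v i).1 := by
      simp only [Finset.mul_sum]
      rw [Finset.sum_comm]
      refine Finset.sum_congr rfl fun σ _ => Finset.sum_congr rfl fun i _ => ?_
      ring
    have h8 : ∑ i, a i * (algebraMap k (AlgebraicClosure k) (v i).2 *
        algebraMap k (AlgebraicClosure k) (φ (0, 1))) =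
        (∑ i, a i * algebraMap k (AlgebraicClosure k) (v i).2) *
          algebraMap k (AlgebraicClosure k) (φ (0, 1)) := by
      rw [Finset.sum_mul]
      refine Finset.sum_congr rfl fun i _ => ?_
      ring
    rw [h7, h8, h2, zero_mul, add_zero]
    exact Finset.sum_eq_zero fun σ _ => by rw [h1 σ, mul_zero]
  rw [Finset.sum_eq_single l] at h5
  · rwa [hφv, if_pos rfl, map_one, mul_one] at h5
  · intro i _ hi
    rw [hφv, if_neg hi, map_zero, mul_zero]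
  · intro h
    exact absurd (Finset.mem_univ l) h

omit [FiniteDimensional k E] [Algebra.IsSeparable k E] in
/-- the points of the conic -/
theorem Q_pt (Q : QuadraticForm k (E × k)) {ρ₀ ρ₁ μ : E × k} (h0 : Q ρ₀ = 0) (h1 : Q ρ₁ = 0)
    (hm1 : polar Q ρ₁ μ = 0) (hm0 : polar Q ρ₀ μ = 0) {c : k} (hc : c * polar Q ρ₁ ρ₀ = Q μ)
    (t₀ t₁ : k) : Q (t₀ ^ 2 • ρ₁ + (t₀ * t₁) • μ + (-(c * t₁ ^ 2)) • ρ₀) = 0 := by
  rw [QuadraticMap.map_add (⇑Q), QuadraticMap.map_add (⇑Q), QuadraticMap.map_smul,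
    QuadraticMap.map_smul, QuadraticMap.map_smul, h0, h1, QuadraticMap.polar_add_left,
    QuadraticMap.polar_smul_left, QuadraticMap.polar_smul_left, QuadraticMap.polar_smul_right,
    QuadraticMap.polar_smul_right, QuadraticMap.polar_smul_left, QuadraticMap.polar_smul_right,
    hm1, QuadraticMap.polar_comm Q μ ρ₀, hm0, ← hc]
  simp only [smul_eq_mul]
  ring

/-- the projection to the orthogonal complement of a hyperbolic pair -/
def pj (Q : QuadraticForm k (E × k)) (ρ₀ ρ₁ y : E × k) : E × k :=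
  y - (polar Q y ρ₀ / polar Q ρ₁ ρ₀) • ρ₁ - (polar Q y ρ₁ / polar Q ρ₁ ρ₀) • ρ₀

omit [FiniteDimensional k E] [Algebra.IsSeparable k E] in
theorem polar_self_zero (Q : QuadraticForm k (E × k)) {ρ : E × k} (h : Q ρ = 0) :
    polar Q ρ ρ = 0 := by
  rw [QuadraticMap.polar_self, h, smul_zero]

omit [FiniteDimensional k E] [Algebra.IsSeparable k E] in
theorem polar_pj₁ (Q : QuadraticForm k (E × k)) {ρ₀ ρ₁ : E × k} (h1 : Q ρ₁ = 0)
    (hb : polar Q ρ₁ ρ₀ ≠ 0) (y : E × k) : polar Q ρ₁ (pj Q ρ₀ ρ₁ y) = 0 := by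
  rw [pj, QuadraticMap.polar_sub_right, QuadraticMap.polar_sub_right,
    QuadraticMap.polar_smul_right, QuadraticMap.polar_smul_right, polar_self_zero Q h1,
    QuadraticMap.polar_comm Q y ρ₁, smul_zero, sub_zero, smul_eq_mul, div_mul_cancel₀ _ hb,
    sub_self]

omit [FiniteDimensional k E] [Algebra.IsSeparable k E] in
theorem polar_pj₀ (Q : QuadraticForm k (E × k)) {ρ₀ ρ₁ : E × k} (h0 : Q ρ₀ = 0)
    (hb : polar Q ρ₁ ρ₀ ≠ 0) (y : E × k) : polar Q ρ₀ (pj Q ρ₀ ρ₁ y) = 0 := by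
  rw [pj, QuadraticMap.polar_sub_right, QuadraticMap.polar_sub_right,
    QuadraticMap.polar_smul_right, QuadraticMap.polar_smul_right, polar_self_zero Q h0,
    QuadraticMap.polar_comm Q y ρ₀, smul_zero, sub_zero, smul_eq_mul,
    QuadraticMap.polar_comm Q ρ₁ ρ₀, div_mul_cancel₀ _ (by rwa [QuadraticMap.polar_comm]),
    sub_self]

/-- Four independent vectors: a hyperbolic pair and two vectors orthogonal to it, one of them
anisotropic. -/
theorem exists_frame (Q : QuadraticForm k (E × k)) (hE : 3 ≤ finrank k E) {ρ₀ ρ₁ : E × k}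
    (h0 : Q ρ₀ = 0) (h1 : Q ρ₁ = 0) (hb : polar Q ρ₁ ρ₀ ≠ 0)
    (hy : ∃ y, polar Q ρ₀ y = 0 ∧ Q y ≠ 0) :
    ∃ μ₁ μ₂ : E × k, polar Q ρ₁ μ₁ = 0 ∧ polar Q ρ₀ μ₁ = 0 ∧ polar Q ρ₁ μ₂ = 0 ∧
      polar Q ρ₀ μ₂ = 0 ∧ Q μ₁ ≠ 0 ∧ LinearIndependent k ![ρ₁, ρ₀, μ₁, μ₂] := by
  obtain ⟨y, hy0, hy1⟩ := hy
  set μ₁ := pj Q ρ₀ ρ₁ y with hμ₁
  have e1 : polar Q ρ₁ μ₁ = 0 := polar_pj₁ Q h1 hb y
  have e2 : polar Q ρ₀ μ₁ = 0 := polar_pj₀ Q h0 hb y
  have e3 : Q μ₁ ≠ 0 := by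
    have h2 : μ₁ = y + (-(polar Q y ρ₁ / polar Q ρ₁ ρ₀)) • ρ₀ := by
      rw [hμ₁, pj, QuadraticMap.polar_comm Q y ρ₀, hy0, zero_div, zero_smul, sub_zero, neg_smul,
        sub_eq_add_neg]
    rw [h2, QuadraticMap.map_add (⇑Q), QuadraticMap.map_smul, h0, QuadraticMap.polar_smul_right,
      QuadraticMap.polar_comm Q y ρ₀, hy0, smul_zero, smul_zero, add_zero, add_zero]
    exact hy1
  have h3 : ∃ z : E × k, z ∉ Submodule.span k (Set.range ![ρ₁, ρ₀, μ₁]) := by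
    by_contra hcon
    push Not at hcon
    have h4 : Submodule.span k (Set.range ![ρ₁, ρ₀, μ₁]) = ⊤ :=
      Submodule.eq_top_iff'.2 hcon
    have h5 := finrank_range_le_card (R := k) (b := ![ρ₁, ρ₀, μ₁])
    rw [Set.finrank, h4, finrank_top, finrank_prod, finrank_self, Fintype.card_fin] at h5
    omega
  obtain ⟨z, hz⟩ := h3
  set μ₂ := pj Q ρ₀ ρ₁ z with hμ₂
  refine ⟨μ₁, μ₂, e1, e2, polar_pj₁ Q h1 hb z, polar_pj₀ Q h0 hb z, e3, ?_⟩
  have m1 : ρ₁ ∈ Submodule.span k (Set.range ![ρ₁, ρ₀, μ₁]) := Submodule.subset_span ⟨0, rfl⟩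
  have m2 : ρ₀ ∈ Submodule.span k (Set.range ![ρ₁, ρ₀, μ₁]) := Submodule.subset_span ⟨1, rfl⟩
  have m3 : μ₁ ∈ Submodule.span k (Set.range ![ρ₁, ρ₀, μ₁]) := Submodule.subset_span ⟨2, rfl⟩
  rw [Fintype.linearIndependent_iff]
  intro a ha
  rw [Fin.sum_univ_four] at ha
  simp only [Matrix.cons_val_zero, Matrix.cons_val_one, Matrix.cons_val] at ha
  have a3 : a 3 = 0 := by
    by_contra h3
    apply hz
    have h6 : μ₂ = -((a 3)⁻¹ • (a 0 • ρ₁ + a 1 • ρ₀ + a 2 • μ₁)) := by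
      rw [← smul_neg, ← eq_neg_of_add_eq_zero_right ha, smul_smul, inv_mul_cancel₀ h3, one_smul]
    have h7 : μ₂ ∈ Submodule.span k (Set.range ![ρ₁, ρ₀, μ₁]) := by
      rw [h6]
      exact neg_mem (Submodule.smul_mem _ _ (add_mem (add_mem (Submodule.smul_mem _ _ m1)
        (Submodule.smul_mem _ _ m2)) (Submodule.smul_mem _ _ m3)))
    have h8 : z = μ₂ + (polar Q z ρ₀ / polar Q ρ₁ ρ₀) • ρ₁ +
        (polar Q z ρ₁ / polar Q ρ₁ ρ₀) • ρ₀ := by
      rw [hμ₂, pj]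
      abel
    rw [h8]
    exact add_mem (add_mem h7 (Submodule.smul_mem _ _ m1)) (Submodule.smul_mem _ _ m2)
  rw [a3, zero_smul, add_zero] at ha
  have a0 : a 0 = 0 := by
    have h9 := congrArg (fun w => polar Q w ρ₀) ha
    simp only [QuadraticMap.polar_add_left, QuadraticMap.polar_smul_left,
      polar_self_zero Q h0, QuadraticMap.polar_comm Q μ₁ ρ₀, e2, mul_zero, add_zero,
      QuadraticMap.polar_zero_left, smul_eq_mul] at h9
    exact (mul_eq_zero.1 h9).resolve_right hb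
  rw [a0, zero_smul, zero_add] at ha
  have a1 : a 1 = 0 := by
    have h9 := congrArg (fun w => polar Q ρ₁ w) ha
    simp only [QuadraticMap.polar_add_right, QuadraticMap.polar_smul_right, e1, mul_zero,
      add_zero, QuadraticMap.polar_zero_right, smul_eq_mul] at h9
    exact (mul_eq_zero.1 h9).resolve_right hb
  rw [a1, zero_smul, zero_add] at ha
  have a2 : a 2 = 0 := by
    rcases smul_eq_zero.1 ha with h | h
    · exact h
    · exact absurd (by rw [h, QuadraticMap.map_zero]) e3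
  intro i
  fin_cases i
  · exact a0
  · exact a1
  · exact a2
  · exact a3

/-- first coordinate of the point `t` over the algebraic closure -/
noncomputable def Sv (σ : E →ₐ[k] AlgebraicClosure k) (ρ₁ μ ρ₀ : E × k) (c : k)
    (t : AlgebraicClosure k) : AlgebraicClosure k :=
  σ ρ₁.1 + t * σ μ.1 - algebraMap k _ c * t ^ 2 * σ ρ₀.1

/-- second coordinate of the point `t` over the algebraic closure -/
noncomputable def Xv (ρ₁ μ ρ₀ : E × k) (c : k) (t : AlgebraicClosure k) : AlgebraicClosure k :=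
  algebraMap k _ ρ₁.2 + t * algebraMap k _ μ.2 - algebraMap k _ c * t ^ 2 * algebraMap k _ ρ₀.2

theorem finite_sq {F : Type} [Field F] {a b : F} (ha : a ≠ 0) :
    {x : F | a * x ^ 2 + b = 0}.Finite := by
  by_cases h : ∃ x₀, a * x₀ ^ 2 + b = 0
  · obtain ⟨x₀, hx₀⟩ := h
    refine Set.Finite.subset (Set.toFinite {x₀, -x₀}) fun x hx => ?_
    have h1 : a * (x ^ 2 - x₀ ^ 2) = 0 := by
      have hx' : a * x ^ 2 + b = 0 := hx
      linear_combination hx' - hx₀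
    have h2 := (mul_eq_zero.1 h1).resolve_left ha
    rcases sq_eq_sq_iff_eq_or_eq_neg.1 (sub_eq_zero.1 h2) with h3 | h3
    · exact Or.inl h3
    · exact Or.inr h3
  · push Not at h
    have h1 : {x : F | a * x ^ 2 + b = 0} = ∅ := Set.eq_empty_iff_forall_notMem.2 h
    rw [h1]
    exact Set.finite_empty

/-- the combination which gives the point `t` -/
theorem comb {ρ₀ ρ₁ μ₁ μ₂ : E × k} (hv : LinearIndependent k ![ρ₁, ρ₀, μ₁, μ₂])
    {x0 x1 x2 x3 : AlgebraicClosure k}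
    (h1 : ∀ σ : E →ₐ[k] AlgebraicClosure k,
      x0 * σ ρ₁.1 + x1 * σ ρ₀.1 + x2 * σ μ₁.1 + x3 * σ μ₂.1 = 0)
    (h2 : x0 * algebraMap k _ ρ₁.2 + x1 * algebraMap k _ ρ₀.2 + x2 * algebraMap k _ μ₁.2 +
      x3 * algebraMap k (AlgebraicClosure k) μ₂.2 = 0) : x0 = 0 ∧ x1 = 0 ∧ x2 = 0 ∧ x3 = 0 := by
  have h := lin_zero ![ρ₁, ρ₀, μ₁, μ₂] hv ![x0, x1, x2, x3] (fun σ => by
    rw [Fin.sum_univ_four]
    exact h1 σ) (by
    rw [Fin.sum_univ_four]
    exact h2)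
  exact ⟨h 0, h 1, h 2, h 3⟩

/-- **The bad directions are finite in number.** -/
theorem finite_bad {ρ₀ ρ₁ μ₁ μ₂ : E × k}
    (hv : LinearIndependent k ![ρ₁, ρ₀, μ₁, μ₂]) {α β : E} (hα : α ≠ 0)
    (hA : α * ρ₁.1 ^ 2 + β * algebraMap k E ρ₁.2 ^ 2 ≠ 0) (c : k → k) :
    {m : k | ∃ t : AlgebraicClosure k, ∀ σ : E →ₐ[k] AlgebraicClosure k,
      σ α * Sv σ ρ₁ (μ₁ + m • μ₂) ρ₀ (c m) t ^ 2 +
        σ β * Xv ρ₁ (μ₁ + m • μ₂) ρ₀ (c m) t ^ 2 = 0}.Finite := by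
  set Z : Set ((E →ₐ[k] AlgebraicClosure k) → AlgebraicClosure k) :=
    Set.pi Set.univ fun σ => {x | σ α * x ^ 2 + σ β = 0} with hZ
  have hσα : ∀ σ : E →ₐ[k] AlgebraicClosure k, σ α ≠ 0 := fun σ => (map_ne_zero σ).2 hα
  have hZf : Z.Finite := Set.Finite.pi fun σ => finite_sq (hσα σ)
  have hsub : {m : k | ∃ t : AlgebraicClosure k, ∀ σ : E →ₐ[k] AlgebraicClosure k,
      σ α * Sv σ ρ₁ (μ₁ + m • μ₂) ρ₀ (c m) t ^ 2 +
        σ β * Xv ρ₁ (μ₁ + m • μ₂) ρ₀ (c m) t ^ 2 = 0} ⊆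
      ⋃ ψ ∈ Z, {m : k | ∃ t : AlgebraicClosure k, Xv ρ₁ (μ₁ + m • μ₂) ρ₀ (c m) t ≠ 0 ∧
        ∀ σ, Sv σ ρ₁ (μ₁ + m • μ₂) ρ₀ (c m) t =
          ψ σ * Xv ρ₁ (μ₁ + m • μ₂) ρ₀ (c m) t} := by
    rintro m ⟨t, ht⟩
    have hx : Xv ρ₁ (μ₁ + m • μ₂) ρ₀ (c m) t ≠ 0 := by
      intro h0
      have h1 : ∀ σ : E →ₐ[k] AlgebraicClosure k, Sv σ ρ₁ (μ₁ + m • μ₂) ρ₀ (c m) t = 0 := by
        intro σ
        have h2 := ht σ
        rw [h0, zero_pow two_ne_zero, mul_zero, add_zero] at h2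
        exact pow_eq_zero_iff two_ne_zero |>.1 ((mul_eq_zero.1 h2).resolve_left (hσα σ))
      have h3 := comb hv (x0 := 1) (x1 := -(algebraMap k _ (c m) * t ^ 2)) (x2 := t)
        (x3 := t * algebraMap k _ m) (fun σ => by
          have h4 := h1 σ
          rw [Sv, Prod.fst_add, Prod.smul_fst, map_add, map_smul, Algebra.smul_def] at h4
          linear_combination h4) (by
          rw [Xv, Prod.snd_add, Prod.smul_snd, smul_eq_mul, map_add, map_mul] at h0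
          linear_combination h0)
      exact one_ne_zero h3.1
    refine Set.mem_biUnion (x := fun σ => Sv σ ρ₁ (μ₁ + m • μ₂) ρ₀ (c m) t /
      Xv ρ₁ (μ₁ + m • μ₂) ρ₀ (c m) t) ?_ ⟨t, hx, fun σ => (div_mul_cancel₀ _ hx).symm⟩
    rw [hZ, Set.mem_univ_pi]
    intro σ
    have h5 := ht σ
    show σ α * (Sv σ ρ₁ (μ₁ + m • μ₂) ρ₀ (c m) t / Xv ρ₁ (μ₁ + m • μ₂) ρ₀ (c m) t) ^ 2 + σ β = 0
    rw [div_pow, mul_div_assoc', div_add' _ _ _ (pow_ne_zero 2 hx), h5, zero_div]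
  refine Set.Finite.subset (Set.Finite.biUnion hZf fun ψ hψ => Set.Subsingleton.finite ?_) hsub
  rintro m ⟨t, hx, ht⟩ m' ⟨t', hx', ht'⟩
  set X := Xv ρ₁ (μ₁ + m • μ₂) ρ₀ (c m) t with hX
  set X' := Xv ρ₁ (μ₁ + m' • μ₂) ρ₀ (c m') t' with hX'
  obtain ⟨h0, -, h2, h3⟩ := comb hv (x0 := X' - X)
    (x1 := X * (algebraMap k _ (c m') * t' ^ 2) - X' * (algebraMap k _ (c m) * t ^ 2))
    (x2 := X' * t - X * t') (x3 := X' * (t * algebraMap k _ m) - X * (t' * algebraMap k _ m'))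
    (fun σ => by
      have h4 := ht σ
      have h5 := ht' σ
      rw [Sv, Prod.fst_add, Prod.smul_fst, map_add, map_smul, Algebra.smul_def] at h4 h5
      linear_combination X' * h4 - X * h5) (by
      have h4 := hX
      have h5 := hX'
      rw [Xv, Prod.snd_add, Prod.smul_snd, smul_eq_mul, map_add, map_mul] at h4 h5
      linear_combination X * h5 - X' * h4)
  have e0 : X' = X := sub_eq_zero.1 h0
  rw [e0] at h2 h3
  have e2 : t = t' := mul_left_cancel₀ hx (sub_eq_zero.1 h2)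
  rw [← e2] at h3
  have e3 : t * algebraMap k (AlgebraicClosure k) m = t * algebraMap k _ m' :=
    mul_left_cancel₀ hx (sub_eq_zero.1 h3)
  by_cases ht0 : t = 0
  · exfalso
    obtain ⟨σ⟩ : Nonempty (E →ₐ[k] AlgebraicClosure k) := ⟨IsAlgClosed.lift⟩
    apply hA
    apply (σ : E →+* AlgebraicClosure k).injective
    have h4 := ht σ
    have h5 := hX
    rw [Sv, ht0] at h4
    rw [Xv, ht0] at h5
    have h6 : σ α * ψ σ ^ 2 + σ β = 0 := by
      have := Set.mem_univ_pi.1 hψ σ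
      exact this
    have h7 : σ ρ₁.1 = ψ σ * X := by linear_combination h4
    have h8 : X = algebraMap k _ ρ₁.2 := by linear_combination h5
    have h9 : (σ : E →+* AlgebraicClosure k) (algebraMap k E ρ₁.2) = X := by
      rw [h8]
      exact σ.commutes _
    rw [map_add, map_mul, map_mul, map_pow, map_pow, h9, map_zero]
    show σ α * (σ ρ₁.1) ^ 2 + σ β * X ^ 2 = 0
    rw [h7]
    linear_combination X ^ 2 * h6
  · exact (algebraMap k (AlgebraicClosure k)).injective (mul_left_cancel₀ ht0 e3)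

/-- the point `t` of the conic -/
def pt (ρ₁ μ ρ₀ : E × k) (c t : k) : E × k := ρ₁ + t • μ + (-(c * t ^ 2)) • ρ₀

/-- the polynomial `A` on the conic -/
noncomputable def apoly (α β : E) (ρ₁ μ ρ₀ : E × k) (c : k) : E[X] :=
  C α * (C ρ₁.1 + C μ.1 * X - C (algebraMap k E c * ρ₀.1) * X ^ 2) ^ 2 +
    C β * (C (algebraMap k E ρ₁.2) + C (algebraMap k E μ.2) * X -
      C (algebraMap k E (c * ρ₀.2)) * X ^ 2) ^ 2

omit [FiniteDimensional k E] [Algebra.IsSeparable k E] in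
theorem apoly_eq (α β : E) (ρ₁ μ ρ₀ : E × k) (c : k) : ∃ a₀ a₁ a₂ a₃ : E,
    apoly α β ρ₁ μ ρ₀ c = C a₀ + C a₁ * X + C a₂ * X ^ 2 + C a₃ * X ^ 3 +
      C (algebraMap k E c ^ 2 * (α * ρ₀.1 ^ 2 + β * algebraMap k E ρ₀.2 ^ 2)) * X ^ 4 := by
  refine ⟨α * ρ₁.1 ^ 2 + β * algebraMap k E ρ₁.2 ^ 2,
    2 * (α * ρ₁.1 * μ.1) + 2 * (β * algebraMap k E ρ₁.2 * algebraMap k E μ.2),
    α * (μ.1 ^ 2 - 2 * (ρ₁.1 * (algebraMap k E c * ρ₀.1))) +
      β * (algebraMap k E μ.2 ^ 2 - 2 * (algebraMap k E ρ₁.2 * algebraMap k E (c * ρ₀.2))),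
    -(2 * (α * μ.1 * (algebraMap k E c * ρ₀.1))) -
      2 * (β * algebraMap k E μ.2 * algebraMap k E (c * ρ₀.2)), ?_⟩
  rw [apoly]
  simp only [map_mul, map_add, map_sub, map_neg, map_pow, map_ofNat]
  ring

omit [FiniteDimensional k E] [Algebra.IsSeparable k E] in
theorem natDegree_apoly (α β : E) (ρ₁ μ ρ₀ : E × k) (c : k) :
    (apoly α β ρ₁ μ ρ₀ c).natDegree ≤ 4 := by
  obtain ⟨a₀, a₁, a₂, a₃, h⟩ := apoly_eq α β ρ₁ μ ρ₀ c
  rw [h]
  compute_degree

omit [FiniteDimensional k E] [Algebra.IsSeparable k E] in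
theorem coeff_apoly (α β : E) (ρ₁ μ ρ₀ : E × k) (c : k) :
    (apoly α β ρ₁ μ ρ₀ c).coeff 4 =
      algebraMap k E c ^ 2 * (α * ρ₀.1 ^ 2 + β * algebraMap k E ρ₀.2 ^ 2) := by
  obtain ⟨a₀, a₁, a₂, a₃, h⟩ := apoly_eq α β ρ₁ μ ρ₀ c
  rw [h]
  simp only [coeff_add, coeff_C_mul, coeff_X_pow, coeff_C, coeff_X]
  norm_num

omit [FiniteDimensional k E] [Algebra.IsSeparable k E] in
theorem eval_apoly (α β : E) (ρ₁ μ ρ₀ : E × k) (c t : k) :
    (apoly α β ρ₁ μ ρ₀ c).eval (algebraMap k E t) =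
      α * (pt ρ₁ μ ρ₀ c t).1 ^ 2 + β * algebraMap k E (pt ρ₁ μ ρ₀ c t).2 ^ 2 := by
  have e1 : (pt ρ₁ μ ρ₀ c t).1 = ρ₁.1 + algebraMap k E t * μ.1 -
      algebraMap k E c * ρ₀.1 * algebraMap k E t ^ 2 := by
    rw [pt, Prod.fst_add, Prod.fst_add, Prod.smul_fst, Prod.smul_fst, Algebra.smul_def,
      Algebra.smul_def, map_neg, map_mul, map_pow]
    ring
  have e2 : algebraMap k E (pt ρ₁ μ ρ₀ c t).2 = algebraMap k E ρ₁.2 +
      algebraMap k E μ.2 * algebraMap k E t -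
        algebraMap k E (c * ρ₀.2) * algebraMap k E t ^ 2 := by
    simp only [pt, Prod.snd_add, Prod.smul_snd, smul_eq_mul, map_add, map_neg, map_mul, map_pow]
    ring
  rw [e1, e2, apoly]
  simp only [eval_add, eval_mul, eval_pow, eval_sub, eval_C, eval_X]
  ring

/-- **The conic.**  A plane section of the quadric `Q = 0` through `ρ₀` and `ρ₁` on which the
conjugates of `A = α s ^ 2 + β x ^ 2` have no common zero. -/
theorem exists_conic [Infinite k] (Q : QuadraticForm k (E × k)) (hE : 3 ≤ finrank k E)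
    {ρ₀ ρ₁ : E × k} (h0 : Q ρ₀ = 0) (h1 : Q ρ₁ = 0) (hb : polar Q ρ₁ ρ₀ ≠ 0)
    (hy : ∃ y, polar Q ρ₀ y = 0 ∧ Q y ≠ 0) {α β : E} (hα : α ≠ 0)
    (hA : α * ρ₁.1 ^ 2 + β * algebraMap k E ρ₁.2 ^ 2 ≠ 0)
    (hA0 : α * ρ₀.1 ^ 2 + β * algebraMap k E ρ₀.2 ^ 2 ≠ 0) :
    ∃ (μ : E × k) (c : k), c ≠ 0 ∧ (∀ t, Q (pt ρ₁ μ ρ₀ c t) = 0) ∧
      (apoly α β ρ₁ μ ρ₀ c).natDegree ≤ 4 ∧ (apoly α β ρ₁ μ ρ₀ c).coeff 4 ≠ 0 ∧
      (∀ t : AlgebraicClosure k, ∃ σ : E →ₐ[k] AlgebraicClosure k,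
        ((apoly α β ρ₁ μ ρ₀ c).map (σ : E →+* AlgebraicClosure k)).eval t ≠ 0) ∧
      ∀ t : k, (apoly α β ρ₁ μ ρ₀ c).eval (algebraMap k E t) =
        α * (pt ρ₁ μ ρ₀ c t).1 ^ 2 + β * algebraMap k E (pt ρ₁ μ ρ₀ c t).2 ^ 2 := by
  obtain ⟨μ₁, μ₂, e1, e2, e3, e4, e5, hv⟩ := exists_frame Q hE h0 h1 hb hy
  set c : k → k := fun m => Q (μ₁ + m • μ₂) / polar Q ρ₁ ρ₀ with hc
  have hfin1 := finite_bad hv hα hA c
  have hfin2 : {m : k | Q (μ₁ + m • μ₂) = 0}.Finite := by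
    set p : k[X] := C (Q μ₁) + C (polar Q μ₁ μ₂) * X + C (Q μ₂) * X ^ 2 with hp
    have hp0 : p ≠ 0 := by
      intro h
      have h2 : p.coeff 0 = Q μ₁ := by
        rw [hp]
        simp
      rw [h, coeff_zero] at h2
      exact e5 h2.symm
    refine Set.Finite.subset (Polynomial.finite_setOfPred_isRoot hp0) fun m hm => ?_
    have hm' : Q (μ₁ + m • μ₂) = 0 := hm
    rw [QuadraticMap.map_add (⇑Q), QuadraticMap.map_smul, QuadraticMap.polar_smul_right,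
      smul_eq_mul, smul_eq_mul] at hm'
    show p.eval m = 0
    rw [hp]
    simp only [eval_add, eval_mul, eval_pow, eval_C, eval_X]
    linear_combination hm'
  obtain ⟨m, hm⟩ := (hfin1.union hfin2).exists_notMem
  have hm1 : ∀ t : AlgebraicClosure k, ∃ σ : E →ₐ[k] AlgebraicClosure k,
      σ α * Sv σ ρ₁ (μ₁ + m • μ₂) ρ₀ (c m) t ^ 2 +
        σ β * Xv ρ₁ (μ₁ + m • μ₂) ρ₀ (c m) t ^ 2 ≠ 0 := by
    intro t
    by_contra hcon
    push Not at hcon
    exact hm (Or.inl ⟨t, hcon⟩)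
  have hm2 : Q (μ₁ + m • μ₂) ≠ 0 := fun h => hm (Or.inr h)
  have hcm : c m ≠ 0 := div_ne_zero hm2 hb
  refine ⟨μ₁ + m • μ₂, c m, hcm, fun t => ?_, natDegree_apoly _ _ _ _ _ _, ?_, fun t => ?_,
    fun t => eval_apoly _ _ _ _ _ _ _⟩
  · have h5 := Q_pt Q h0 h1 (μ := μ₁ + m • μ₂) (by
      rw [QuadraticMap.polar_add_right, QuadraticMap.polar_smul_right, e1, e3, smul_zero,
        add_zero]) (by
      rw [QuadraticMap.polar_add_right, QuadraticMap.polar_smul_right, e2, e4, smul_zero,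
        add_zero]) (c := c m) (div_mul_cancel₀ _ hb) 1 t
    rw [one_pow, one_smul, one_mul] at h5
    exact h5
  · rw [coeff_apoly]
    exact mul_ne_zero (pow_ne_zero 2 ((_root_.map_ne_zero _).2 hcm)) hA0
  · obtain ⟨σ, hσ⟩ := hm1 t
    refine ⟨σ, ?_⟩
    have h6 : ((apoly α β ρ₁ (μ₁ + m • μ₂) ρ₀ (c m)).map
        (σ : E →+* AlgebraicClosure k)).eval t =
        σ α * Sv σ ρ₁ (μ₁ + m • μ₂) ρ₀ (c m) t ^ 2 +
          σ β * Xv ρ₁ (μ₁ + m • μ₂) ρ₀ (c m) t ^ 2 := by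
      have hal : ∀ a : k, (σ : E →+* AlgebraicClosure k) (algebraMap k E a) =
          algebraMap k (AlgebraicClosure k) a := fun a => σ.commutes a
      have hsg : ∀ a : E, (σ : E →+* AlgebraicClosure k) a = σ a := fun _ => rfl
      rw [apoly, Sv, Xv]
      simp only [Polynomial.map_add, Polynomial.map_mul, Polynomial.map_pow, Polynomial.map_sub,
        Polynomial.map_C, Polynomial.map_X, eval_add, eval_mul, eval_pow, eval_sub, eval_C,
        eval_X, map_mul, hal, hsg]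
      ring
    rw [h6]
    exact hσ

end Vale.Agent.P011.H182.Conic
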