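import Vale.Agent.P011.H182.Dens
import Vale.Agent.P011.MPQ.Appr

/-!
The removal of a place: a normal subgroup which contains all elements near one at finitely many
places contains all elements near one at the other ones, when there is a good local model.
-/

open Module NumberField IsDedekindDomain Filter Topology

set_option linter.unusedSectionVars false

namespace Vale.Agent.P011.H182

open Vale.Agent.P011.Arith Vale.Agent.P011.Even Vale.Agent.P011.Two Vale.Agent.P011.One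
  Vale.Agent.P011.MPQ

section est

variable {k D : Type} [Field k] [NumberField k] [DivisionRing D] [StarRing D] [Algebra k D] {N : ℕ}
  (B : Basis (Fin N) k D)

/-- Products of elements near one. -/
theorem near_mul (hst : ∀ (c : k) (x : D), star (c • x) = c • star x) (a : AbsoluteValue k ℝ)
    {ε : ℝ} (hε : 0 < ε) : ∃ ε' : ℝ, 0 < ε' ∧ ∀ x y : D, na B a (x - 1) < ε' →
      na B a (y - 1) < ε' → na B a (x * y - 1) < ε := by
  obtain ⟨C, hC1, hCm, -⟩ := na_const B a hst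
  have hC0 : 0 < C := by linarith
  have h1 := na_nonneg B a 1
  obtain ⟨W, hW⟩ : ∃ W : ℝ, W = C * (na B a 1 + 1) + 1 := ⟨_, rfl⟩
  have hW0 : 0 < W := by rw [hW]; positivity
  refine ⟨min 1 (ε / W), lt_min one_pos (by positivity), fun x y hx hy => ?_⟩
  have hx1 := hx.trans_le (min_le_left _ _)
  have hx2 := hx.trans_le (min_le_right _ _)
  have hy2 := hy.trans_le (min_le_right _ _)
  have e : x * y - 1 = x * (y - 1) + (x - 1) := by noncomm_ring
  have hxn : na B a x ≤ na B a 1 + 1 := by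
    have e1 : x = 1 + (x - 1) := by abel
    rw [e1]
    exact (na_add_le _ _ _ _).trans (by linarith)
  have hy0 := na_nonneg B a (y - 1)
  rw [lt_div_iff₀ hW0] at hx2 hy2
  have h2 : na B a (x * y - 1) ≤ C * (na B a 1 + 1) * na B a (y - 1) + na B a (x - 1) := by
    rw [e]
    refine (na_add_le _ _ _ _).trans (add_le_add ((hCm _ _).trans ?_) le_rfl)
    exact mul_le_mul_of_nonneg_right (mul_le_mul_of_nonneg_left hxn hC0.le) hy0
  -- the maximum of the two distances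
  rcases le_total (na B a (x - 1)) (na B a (y - 1)) with h3 | h3
  · refine (h2.trans ?_).trans_lt hy2
    rw [hW]
    nlinarith
  · refine (h2.trans ?_).trans_lt hx2
    rw [hW]
    have h4 : C * (na B a 1 + 1) * na B a (y - 1) ≤ C * (na B a 1 + 1) * na B a (x - 1) :=
      mul_le_mul_of_nonneg_left h3 (by positivity)
    nlinarith

/-- Stars of elements near one. -/
theorem near_star (hst : ∀ (c : k) (x : D), star (c • x) = c • star x) (a : AbsoluteValue k ℝ)
    {ε : ℝ} (hε : 0 < ε) : ∃ ε' : ℝ, 0 < ε' ∧ ∀ x : D, na B a (x - 1) < ε' →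
      na B a (star x - 1) < ε := by
  obtain ⟨C, hC1, -, hCs⟩ := na_const B a hst
  have hC0 : 0 < C := by linarith
  refine ⟨ε / C, by positivity, fun x hx => ?_⟩
  have e : star x - 1 = star (x - 1) := by rw [star_sub, star_one]
  rw [e]
  refine (hCs _).trans_lt ?_
  rwa [lt_div_iff₀ hC0, mul_comm] at hx

/-- Conjugates of elements near one. -/
theorem near_conj (hst : ∀ (c : k) (x : D), star (c • x) = c • star x) (a : AbsoluteValue k ℝ)
    {g : D} (hg : g ≠ 0) {ε : ℝ} (hε : 0 < ε) : ∃ ε' : ℝ, 0 < ε' ∧ ∀ x : D,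
      na B a (x - 1) < ε' → na B a (g * x * g⁻¹ - 1) < ε := by
  obtain ⟨C, hC1, hCm, -⟩ := na_const B a hst
  have hC0 : 0 < C := by linarith
  have h1 := na_pos B a hg
  have h2 := na_pos B a (inv_ne_zero hg)
  refine ⟨ε / (C * (C * na B a g) * na B a g⁻¹), by positivity, fun x hx => ?_⟩
  have e : g * x * g⁻¹ - 1 = g * (x - 1) * g⁻¹ := by
    rw [mul_sub, mul_one, sub_mul, mul_inv_cancel₀ hg]
  rw [lt_div_iff₀ (by positivity)] at hx
  rw [e]
  refine lt_of_le_of_lt ((hCm _ _).trans (mul_le_mul_of_nonneg_right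
    (mul_le_mul_of_nonneg_left (hCm _ _) hC0.le) h2.le)) ?_
  calc C * (C * na B a g * na B a (x - 1)) * na B a g⁻¹ =
      na B a (x - 1) * (C * (C * na B a g) * na B a g⁻¹) := by ring
    _ < ε := hx

/-- Cayley elements of small elements are near one. -/
theorem near_cay [CharZero D] (hst : ∀ (c : k) (x : D), star (c • x) = c • star x)
    (a : AbsoluteValue k ℝ)
    {ε : ℝ} (hε : 0 < ε) : ∃ ε' : ℝ, 0 < ε' ∧ ∀ β : D, na B a β < ε' →
      na B a ((Two.cay β : D) - 1) < ε := by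
  obtain ⟨C, hC1, hCm, -⟩ := na_const B a hst
  have hC0 : 0 < C := by linarith
  -- the antisymmetric part is a bounded linear map
  have h2 : (2 : D) ≠ 0 := two_ne_zero
  let lm : D →ₗ[k] D :=
    { toFun := fun β => asym β
      map_add' := fun x y => by
        unfold asym
        rw [star_add, add_sub_add_comm, mul_add]
      map_smul' := fun c x => by
        unfold asym
        rw [hst, RingHom.id_apply, ← smul_sub, mul_smul_comm] }
  obtain ⟨W, hW0, hW⟩ := na_linear B a lm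
  have hn1 := na_nonneg B a 1
  obtain ⟨δ, hδ⟩ : ∃ δ : ℝ, δ = min (1 / (2 * C)) (ε / (4 * C * (na B a 1 + 1))) := ⟨_, rfl⟩
  have hδ0 : 0 < δ := by rw [hδ]; exact lt_min (by positivity) (by positivity)
  refine ⟨δ / W, by positivity, fun β hβ => ?_⟩
  obtain ⟨x, hx⟩ : ∃ x, x = asym β := ⟨_, rfl⟩
  have hxs : na B a x < δ := by
    rw [hx]
    refine (hW β).trans_lt ?_
    rwa [lt_div_iff₀ hW0, mul_comm] at hβ
  have hx0 := na_nonneg B a x
  have hxC : C * na B a x ≤ 1 / 2 := by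
    have h3 : na B a x < 1 / (2 * C) := hxs.trans_le (by rw [hδ]; exact min_le_left _ _)
    rw [lt_div_iff₀ (by positivity)] at h3
    linarith
  have hne : 1 + x ≠ 0 := by rw [hx]; exact one_add_asym_ne β
  obtain ⟨u, hu⟩ : ∃ u, u = (1 + x)⁻¹ := ⟨_, rfl⟩
  have hu1 : (1 + x) * u = 1 := by rw [hu, mul_inv_cancel₀ hne]
  have hu0 := na_nonneg B a u
  have hub : na B a u ≤ 2 * na B a 1 := by
    have e : u = 1 - x * u := by
      have h3 := hu1
      rw [add_mul, one_mul] at h3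
      rw [← h3]
      abel
    have h3 : na B a u ≤ na B a 1 + C * na B a x * na B a u := by
      conv_lhs => rw [e]
      exact (na_sub_le _ _ _ _).trans (add_le_add le_rfl (hCm _ _))
    nlinarith
  have e : (Two.cay β : D) - 1 = -(x * u + x * u) := by
    rw [cay_val, ← hx, ← hu]
    have h3 : (1 : D) = (1 + x) * u := hu1.symm
    calc (1 - x) * u - 1 = (1 - x) * u - (1 + x) * u := by rw [← h3]
      _ = _ := by noncomm_ring
  rw [e, na_neg]
  have h4 : na B a (x * u + x * u) ≤ 2 * (C * na B a x * (2 * na B a 1)) := by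
    refine (na_add_le _ _ _ _).trans ?_
    have h5 := hCm x u
    have h6 : C * na B a x * na B a u ≤ C * na B a x * (2 * na B a 1) :=
      mul_le_mul_of_nonneg_left hub (by positivity)
    linarith
  have h7 : na B a x < ε / (4 * C * (na B a 1 + 1)) :=
    hxs.trans_le (by rw [hδ]; exact min_le_right _ _)
  rw [lt_div_iff₀ (by positivity)] at h7
  refine h4.trans_lt ?_
  nlinarith

end est

/-- A finite set of positive numbers has a positive lower bound. -/
theorem exists_lower {ι : Type} {P : Set ι} (hP : P.Finite) {u : ι → ℝ} (hu : ∀ i ∈ P, 0 < u i) :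
    ∃ ε : ℝ, 0 < ε ∧ ∀ i ∈ P, ε ≤ u i := by
  classical
  induction P, hP using Set.Finite.induction_on with
  | empty => exact ⟨1, one_pos, fun i hi => absurd hi (Set.notMem_empty _)⟩
  | insert _ _ ih =>
    rename_i i Q hi hQ
    obtain ⟨ε, hε, h⟩ := ih fun j hj => hu j (Set.mem_insert_of_mem _ hj)
    refine ⟨min ε (u i), lt_min hε (hu i (Set.mem_insert _ _)), ?_⟩
    rintro j (rfl | hj)
    · exact min_le_right _ _
    · exact (min_le_left _ _).trans (h j hj)

section model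

variable {k K D : Type} [Field k] [NumberField k] [Field K] [StarRing K]
  [DivisionRing D] [StarRing D] [Algebra k K] [Algebra k D] [Algebra K D] [IsScalarTower k K D]
  {d : kˣ} {s : K} {N : ℕ} {Ω : Type} [Field Ω] [Algebra K Ω] {n : ℕ}
  {f : D →ₐ[K] Matrix (Fin n) (Fin n) Ω} {B : Basis (Fin N) k D}

/-- Nearness to one at a set of places. -/
def NrI (B : Basis (Fin N) k D) (P : Set (PlI k)) (ε : ℝ) (g : D) : Prop :=
  ∀ p ∈ P, na B (pabv p) (g - 1) < ε

theorem NrI.mono {P : Set (PlI k)} {ε ε' : ℝ} (h : ε ≤ ε') {g : D} (hg : NrI B P ε g) :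
    NrI B P ε' g := fun p hp => (hg p hp).trans_le h

theorem NrI.mul (hst : ∀ (c : k) (x : D), star (c • x) = c • star x) {P : Set (PlI k)}
    (hP : P.Finite) {ε : ℝ} (hε : 0 < ε) : ∃ ε' : ℝ, 0 < ε' ∧ ∀ x y : D, NrI B P ε' x →
      NrI B P ε' y → NrI B P ε (x * y) := by
  choose u hu h using fun p : PlI k => near_mul B hst (pabv p) hε
  obtain ⟨ε', hε', h'⟩ := exists_lower hP (fun i _ => hu i)
  exact ⟨ε', hε', fun x y hx hy p hp => h p x y ((hx p hp).trans_le (h' p hp))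
    ((hy p hp).trans_le (h' p hp))⟩

theorem NrI.star (hst : ∀ (c : k) (x : D), Star.star (c • x) = c • Star.star x) {P : Set (PlI k)}
    (hP : P.Finite) {ε : ℝ} (hε : 0 < ε) : ∃ ε' : ℝ, 0 < ε' ∧ ∀ x : D, NrI B P ε' x →
      NrI B P ε (Star.star x) := by
  choose u hu h using fun p : PlI k => near_star B hst (pabv p) hε
  obtain ⟨ε', hε', h'⟩ := exists_lower hP (fun i _ => hu i)
  exact ⟨ε', hε', fun x hx p hp => h p x ((hx p hp).trans_le (h' p hp))⟩

theorem NrI.conj (hst : ∀ (c : k) (x : D), Star.star (c • x) = c • Star.star x) {P : Set (PlI k)}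
    (hP : P.Finite) {g : D} (hg : g ≠ 0) {ε : ℝ} (hε : 0 < ε) : ∃ ε' : ℝ, 0 < ε' ∧ ∀ x : D,
      NrI B P ε' x → NrI B P ε (g * x * g⁻¹) := by
  choose u hu h using fun p : PlI k => near_conj B hst (pabv p) hg hε
  obtain ⟨ε', hε', h'⟩ := exists_lower hP (fun i _ => hu i)
  exact ⟨ε', hε', fun x hx p hp => h p x ((hx p hp).trans_le (h' p hp))⟩

theorem NrI.cay [CharZero D] (hst : ∀ (c : k) (x : D), Star.star (c • x) = c • Star.star x)
    {P : Set (PlI k)} (hP : P.Finite) {ε : ℝ} (hε : 0 < ε) : ∃ ε' : ℝ, 0 < ε' ∧ ∀ β : D,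
      (∀ p ∈ P, na B (pabv p) β < ε') → NrI B P ε (Two.cay β : D) := by
  choose u hu h using fun p : PlI k => near_cay B hst (pabv p) hε
  obtain ⟨ε', hε', h'⟩ := exists_lower hP (fun i _ => hu i)
  exact ⟨ε', hε', fun x hx p hp => h p x ((hx p hp).trans_le (h' p hp))⟩

theorem NrI.comm_cay [CharZero D] (hst : ∀ (c : k) (x : D), Star.star (c • x) = c • Star.star x)
    {P : Set (PlI k)} (hP : P.Finite) {ε : ℝ} (hε : 0 < ε) : ∃ ε' : ℝ, 0 < ε' ∧ ∀ β γ : D,
      (∀ p ∈ P, na B (pabv p) β < ε') → (∀ p ∈ P, na B (pabv p) γ < ε') →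
      NrI B P ε ((Two.cay β * Two.cay γ * (Two.cay β)⁻¹ * (Two.cay γ)⁻¹ : unitary D) : D) := by
  obtain ⟨ε2, hε2, hm2⟩ := NrI.mul (B := B) hst hP hε
  obtain ⟨ε3, hε3, hm3⟩ := NrI.mul (B := B) hst hP hε2
  obtain ⟨ε4, hε4, hm4⟩ := NrI.star (B := B) hst hP hε3
  obtain ⟨ε5, hε5, hm5⟩ := NrI.cay (B := B) hst hP (lt_min hε3 hε4)
  refine ⟨ε5, hε5, fun β γ hβ hγ => ?_⟩
  have hin : ∀ x : unitary D, ((x⁻¹ : unitary D) : D) = Star.star (x : D) := fun x => rfl
  have hβ2 := hm5 β hβ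
  have hγ2 := hm5 γ hγ
  have e : ((Two.cay β * Two.cay γ * (Two.cay β)⁻¹ * (Two.cay γ)⁻¹ : unitary D) : D) =
      ((Two.cay β : D) * (Two.cay γ : D)) * (Star.star (Two.cay β : D) * Star.star (Two.cay γ : D)) := by
    rw [Submonoid.coe_mul, Submonoid.coe_mul, Submonoid.coe_mul, hin, hin]
    simp only [mul_assoc]
  rw [e]
  exact hm2 _ _ (hm3 _ _ (hβ2.mono (min_le_left _ _)) (hγ2.mono (min_le_left _ _)))
    (hm3 _ _ (hm4 _ (hβ2.mono (min_le_right _ _))) (hm4 _ (hγ2.mono (min_le_right _ _))))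

/-- Commutators of unitary elements have reduced norm one. -/
theorem comm_gu (x y : unitary D) : ((x * y * x⁻¹ * y⁻¹ : unitary D) : D) ∈ GU f := by
  have h4 : ∀ x : unitary D, ((x⁻¹ : unitary D) : D) = (x : D)⁻¹ := by
    intro x
    have h2 : ((x⁻¹ : unitary D) : D) * (x : D) = 1 := by
      rw [← Submonoid.coe_mul, inv_mul_cancel, Submonoid.coe_one]
    exact eq_inv_of_mul_eq_one_left h2
  have h5 := gu_comm (f := f) (y := (x : D)) (z := (y : D))
    (Unitary.mem_iff.mp x.2).2 (Unitary.mem_iff.mp y.2).2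
  rw [Submonoid.coe_mul, Submonoid.coe_mul, Submonoid.coe_mul, h4, h4]
  exact h5

/-- Continuity of the commutator. -/
theorem comm_nhds {G : Type} [Group G] [TopologicalSpace G] [IsTopologicalGroup G] {S T : G}
    {W : Set G} (hW : W ∈ 𝓝 (S * T * S⁻¹ * T⁻¹)) : ∃ O1 ∈ 𝓝 S, ∃ O2 ∈ 𝓝 T, ∀ x ∈ O1, ∀ y ∈ O2,
      x * y * x⁻¹ * y⁻¹ ∈ W := by
  have hc : Continuous fun x : G × G => x.1 * x.2 * x.1⁻¹ * x.2⁻¹ := by fun_prop
  have h2 : (fun x : G × G => x.1 * x.2 * x.1⁻¹ * x.2⁻¹) ⁻¹' W ∈ 𝓝 (S, T) :=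
    hc.continuousAt hW
  rw [nhds_prod_eq, mem_prod_iff] at h2
  obtain ⟨O1, hO1, O2, hO2, h3⟩ := h2
  exact ⟨O1, hO1, O2, hO2, fun x hx y hy => h3 (Set.mk_mem_prod hx hy)⟩

variable {F E : Type} [NormedField F] [ProperSpace F] [Algebra k F] [Ring E] [Algebra F E]
  {BE : Basis (Fin N) F E} {I : Two.Inv F E} {p0 : PlI k} {jm : D →+* E}

/-- Cayley elements near a given element at one place and small at other places. -/
theorem approx_cay [CharZero F] (h : Mdl BE I B (pabv p0) jm)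
    (hden : ∀ (y : F) (ε : ℝ), 0 < ε → ∃ x : k, ‖algebraMap k F x - y‖ < ε)
    {P : Set (PlI k)} (hP : P.Finite) (hp0 : p0 ∉ P) {T : UT BE I} (hT : IsUnit (1 + T.val))
    {O : Set (UT BE I)} (hO : O ∈ 𝓝 T) {ε : ℝ} (hε : 0 < ε) :
    ∃ β : D, h.gU (Two.cay β) ∈ O ∧ ∀ p ∈ P, na B (pabv p) β < ε := by
  classical
  have hcharD : CharZero D := charZero_of_injective_algebraMap (algebraMap k D).injective
  have hspan : ∀ Y : E, ∃ b : Fin N → F, ∑ j, b j • jm (B j) = Y := fun Y =>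
    ⟨fun j => BE.repr Y j, by
      conv_rhs => rw [← BE.sum_repr Y]
      exact Finset.sum_congr rfl fun i _ => by rw [h.basis]⟩
  obtain ⟨b, δ, hδ, hb⟩ := app_nhds BE jm I h.star B h.smul hspan T hT hO
  choose x hx using fun j => hden (b j) (δ / 2) (by positivity)
  have hwa := fun j => approxI (insert p0 P) (hP.insert p0)
    (fun p => if p = p0 then x j else 0)
    (fun p => if p = p0 then δ / 2 else ε / (N + 1)) (fun p => by
      by_cases hp : p = p0
      · rw [if_pos hp]; positivity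
      · rw [if_neg hp]; positivity)
  choose y hy using hwa
  refine ⟨∑ j, y j • B j, hb _ fun j => ?_, fun p hp => ?_⟩
  · rw [B.repr_sum_self]
    have h4 := hy j p0 (Set.mem_insert _ _)
    rw [if_pos rfl, if_pos rfl, ← h.norm, map_sub] at h4
    calc ‖algebraMap k F (y j) - b j‖ ≤ ‖algebraMap k F (y j) - algebraMap k F (x j)‖ +
          ‖algebraMap k F (x j) - b j‖ := norm_sub_le_norm_sub_add_norm_sub _ _ _
      _ < δ := by linarith [hx j]
  · have hpp : p ≠ p0 := fun h => hp0 (h ▸ hp)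
    have h4 : ∀ j, pabv p (B.repr (∑ j, y j • B j) j) ≤ ε / (N + 1) := by
      intro j
      rw [B.repr_sum_self]
      have h5 := hy j p (Set.mem_insert_of_mem _ hp)
      rw [if_neg hpp, if_neg hpp, sub_zero] at h5
      exact h5.le
    refine (na_le_of_coord B (pabv p) h4).trans_lt ?_
    rw [mul_div_assoc', div_lt_iff₀ (by positivity)]
    nlinarith

/-- **The removal of a place.** -/
theorem remove_place [CharZero F] (hst : ∀ (c : k) (x : D), star (c • x) = c • star x)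
    (h : Mdl BE I B (pabv p0) jm) (hG : h.Gm f)
    (hden : ∀ (y : F) (ε : ℝ), 0 < ε → ∃ x : k, ‖algebraMap k F x - y‖ < ε)
    {M : Set D} (hMG : M ⊆ GU f) (h1 : (1 : D) ∈ M)
    (hmul : ∀ a ∈ M, ∀ b ∈ M, a * b ∈ M) (hinv : ∀ a ∈ M, star a ∈ M)
    (hnm : ∀ g ∈ GU f, ∀ x ∈ M, g * x * g⁻¹ ∈ M) {P : Set (PlI k)} (hP : P.Finite) (hp0 : p0 ∉ P)
    {ε : ℝ} (hε : 0 < ε) (hM : ∀ g ∈ GU f, NrI B (insert p0 P) ε g → g ∈ M) :
    ∃ ε' : ℝ, 0 < ε' ∧ ∀ g ∈ GU f, NrI B P ε' g → g ∈ M := by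
  classical
  have hcharD : CharZero D := charZero_of_injective_algebraMap (algebraMap k D).injective
  let H : Subgroup (UT BE I) :=
    { carrier := {T | ∀ ε : ℝ, 0 < ε → ∀ O ∈ 𝓝 T, ∃ t : unitary D, (t : D) ∈ M ∧
        NrI B P ε (t : D) ∧ h.gU t ∈ O}
      mul_mem' := by
        intro S T hS hT ε hε O hO
        obtain ⟨ε', hε', hm⟩ := NrI.mul (B := B) hst hP hε
        have hc : Continuous fun x : UT BE I × UT BE I => x.1 * x.2 := continuous_mul
        have h2 : (fun x : UT BE I × UT BE I => x.1 * x.2) ⁻¹' O ∈ 𝓝 (S, T) :=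
          hc.continuousAt hO
        rw [nhds_prod_eq, mem_prod_iff] at h2
        obtain ⟨O1, hO1, O2, hO2, h3⟩ := h2
        obtain ⟨s1, hs1, hs2, hs3⟩ := hS ε' hε' O1 hO1
        obtain ⟨t1, ht1, ht2, ht3⟩ := hT ε' hε' O2 hO2
        refine ⟨s1 * t1, hmul _ hs1 _ ht1, hm _ _ hs2 ht2, ?_⟩
        rw [map_mul]
        exact h3 (Set.mk_mem_prod hs3 ht3)
      one_mem' := by
        intro ε hε O hO
        refine ⟨1, h1, fun p _ => ?_, ?_⟩
        · rw [Submonoid.coe_one, sub_self, na_zero]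
          exact hε
        · rw [map_one]
          exact mem_of_mem_nhds hO
      inv_mem' := by
        intro S hS ε hε O hO
        obtain ⟨ε', hε', hs⟩ := NrI.star (B := B) hst hP hε
        have h2 : (fun x : UT BE I => x⁻¹) ⁻¹' O ∈ 𝓝 S := continuous_inv.continuousAt hO
        obtain ⟨s1, hs1, hs2, hs3⟩ := hS ε' hε' _ h2
        refine ⟨s1⁻¹, hinv _ hs1, hs _ hs2, ?_⟩
        rw [map_inv]
        exact hs3 }
  have hmem : ∀ T, T ∈ H ↔ ∀ ε : ℝ, 0 < ε → ∀ O ∈ 𝓝 T, ∃ t : unitary D, (t : D) ∈ M ∧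
        NrI B P ε (t : D) ∧ h.gU t ∈ O := fun _ => Iff.rfl
  -- closedness
  have hclosed : IsClosed (H : Set (UT BE I)) := by
    rw [← closure_subset_iff_isClosed]
    intro T hT ε hε O hO
    rw [mem_closure_iff_nhds] at hT
    obtain ⟨O', hO'O, hO'o, hTO'⟩ := mem_nhds_iff.mp hO
    obtain ⟨S, hS1, hS2⟩ := hT O' (hO'o.mem_nhds hTO')
    obtain ⟨t, ht1, ht2, ht3⟩ := hS2 ε hε O' (hO'o.mem_nhds hS1)
    exact ⟨t, ht1, ht2, hO'O ht3⟩
  -- normality
  have hnorm1 : ∀ g : unitary D, g ∈ SUu f → ∀ x ∈ H, h.gU g * x * (h.gU g)⁻¹ ∈ H := by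
    intro g hg x hx ε hε O hO
    obtain ⟨ε', hε', hcj⟩ := NrI.conj (B := B) hst hP (gu_ne hg) hε
    have hc : Continuous fun x : UT BE I => h.gU g * x * (h.gU g)⁻¹ := by fun_prop
    obtain ⟨t, ht1, ht2, ht3⟩ := hx ε' hε' _ (hc.continuousAt hO)
    have e : ((g * t * g⁻¹ : unitary D) : D) = (g : D) * t * (g : D)⁻¹ := by
      rw [gu_inv_eq hg]
      rfl
    refine ⟨g * t * g⁻¹, ?_, ?_, ?_⟩
    · rw [e]
      exact hnm _ hg _ ht1
    · rw [e]
      exact hcj _ ht2
    · rw [map_mul, map_mul, map_inv]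
      exact ht3
  have hnorm : ∀ g ∈ h.cl f, ∀ x ∈ H, g * x * g⁻¹ ∈ H := by
    intro g hg x hx
    have hc : Continuous fun g : UT BE I => g * x * g⁻¹ := by fun_prop
    have h2 : g ∈ closure (((SUu f).map h.gU : Subgroup (UT BE I)) : Set (UT BE I)) := hg
    have h3 := map_mem_closure hc h2 (t := (H : Set (UT BE I))) (by
      rintro _ ⟨y, hy, rfl⟩
      exact hnorm1 y hy x hx)
    rwa [hclosed.closure_eq] at h3
  -- the neighbourhood of one
  let O0 : Set (UT BE I) := {T | H182.ne BE (T.val - 1) < ε}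
  have hO0 : IsOpen O0 := isOpen_lt (continuous_ne BE I LinearMap.id 1) continuous_const
  have h1O0 : (1 : UT BE I) ∈ O0 := by
    change H182.ne BE ((1 : E) - 1) < ε
    rw [sub_self]
    simpa [H182.ne] using hε
  have hO0g : ∀ t : unitary D, h.gU t ∈ O0 → na B (pabv p0) ((t : D) - 1) < ε := by
    intro t ht
    have h2 : H182.ne BE (jm (t : D) - 1) < ε := ht
    rwa [← map_one jm, ← map_sub, h.ne] at h2
  -- a noncentral element
  have hne : ∃ x ∈ H, ∃ y : E, x.val * y ≠ y * x.val := by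
    obtain ⟨S, T, hST, y, hy⟩ := hG.nz O0 (hO0.mem_nhds h1O0)
    refine ⟨_, ?_, y, hy⟩
    obtain ⟨Z, hZ, hZu⟩ := hG.shift S
    obtain ⟨X, hX, hXu⟩ := hG.shift T
    rw [← comm_central (S := S) (T := T) hX hZ] at hST ⊢
    obtain ⟨S1, hS1⟩ : ∃ S1, S1 = Z * S := ⟨_, rfl⟩
    obtain ⟨T1, hT1⟩ : ∃ T1, T1 = X * T := ⟨_, rfl⟩
    rw [← hS1, ← hT1] at hST ⊢
    rw [← hS1] at hZu
    rw [← hT1] at hXu
    rw [hmem]
    intro ε1 hε1 O hO
    obtain ⟨O1, hO1, O2, hO2, h3⟩ := comm_nhds (inter_mem hO (hO0.mem_nhds hST))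
    -- approximation
    obtain ⟨ε5, hε5, hm5⟩ := NrI.comm_cay (B := B) hst hP (lt_min hε hε1)
    obtain ⟨β, hβ1, hβ2⟩ := approx_cay h hden hP hp0 hZu hO1 hε5
    obtain ⟨γ, hγ1, hγ2⟩ := approx_cay h hden hP hp0 hXu hO2 hε5
    obtain ⟨t, ht⟩ : ∃ t : unitary D, t = Two.cay β * Two.cay γ * (Two.cay β)⁻¹ * (Two.cay γ)⁻¹ :=
      ⟨_, rfl⟩
    have htO : h.gU t ∈ O ∩ O0 := by
      rw [ht, map_mul, map_mul, map_mul, map_inv, map_inv]
      exact h3 _ hβ1 _ hγ1
    have htP : NrI B P (min ε ε1) (t : D) := by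
      rw [ht]
      exact hm5 _ _ hβ2 hγ2
    have htG : (t : D) ∈ GU f := by
      rw [ht]
      exact comm_gu _ _
    refine ⟨t, hM _ htG ?_, htP.mono (min_le_right _ _), htO.1⟩
    rintro p (rfl | hp)
    · exact hO0g t htO.2
    · exact (htP p hp).trans_le (min_le_left _ _)
  have hall := hG.loc H hclosed hnorm hne
  -- conclusion
  obtain ⟨ε2, hε2, hm2⟩ := NrI.mul (B := B) hst hP hε
  obtain ⟨ε3, hε3, hm3⟩ := NrI.star (B := B) hst hP hε2
  refine ⟨ε2, hε2, fun g hg hgP => ?_⟩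
  have hgu := gu_unitary hg
  have h2 := hall ⟨g, hgu⟩ hg
  have hc : Continuous fun x : UT BE I => h.gU ⟨g, hgu⟩ * x⁻¹ := by fun_prop
  have hO1 : (fun x : UT BE I => h.gU ⟨g, hgu⟩ * x⁻¹) ⁻¹' O0 ∈ 𝓝 (h.gU ⟨g, hgu⟩) := by
    refine hc.continuousAt (hO0.mem_nhds ?_)
    rw [mul_inv_cancel]
    exact h1O0
  obtain ⟨x, hxM, hxP, hxO⟩ := (hmem _).mp h2 ε3 hε3 _ hO1
  have hxG := hMG hxM
  have hxO' : h.gU ((⟨g, hgu⟩ : unitary D) * x⁻¹) ∈ O0 := by
    rw [map_mul, map_inv]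
    exact hxO
  have e1 : (((⟨g, hgu⟩ : unitary D) * x⁻¹ : unitary D) : D) = g * star (x : D) := rfl
  have h5 : g * star (x : D) ∈ M := by
    refine hM _ (gu_mul hg (gu_star hxG)) ?_
    rintro p (rfl | hp)
    · have h6 := hO0g _ hxO'
      rwa [e1] at h6
    · exact hm2 _ _ hgP (hm3 _ hxP) p hp
  have e2 : g = g * star (x : D) * x := by
    rw [mul_assoc, gu_star_mul hxG, mul_one]
  rw [e2]
  exact hmul _ h5 _ hxM

end model

end Vale.Agent.P011.H182
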