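import Vale.Agent.P011.One.Final
import Vale.Agent.P011.H182.Remove

/-!
# The cosets of a dense normal subgroup of finite index come close to one at any finite set of places

`Q ≤ H` are subgroups of `SU_1(D, *)`, `Q` is normal of finite index and dense in `H` for the
topology of `Tdiv` (the exceptional case of `H976/PlusOf`).  Then for every finite set `T` of
places (finite or real) every coset of `Q` in `H` contains elements which are close to one at all
the places of `T`.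
-/

open Module NumberField IsDedekindDomain Topology Filter

set_option linter.unusedSectionVars false

namespace Vale.Agent.P011.H182

open Vale.Agent.P011.Arith Vale.Agent.P011.Even Vale.Agent.P011.Two Vale.Agent.P011.One

variable {k K D : Type} [Field k] [NumberField k] [Field K] [NumberField K] [StarRing K]
  [DivisionRing D] [StarRing D] [Algebra k K] [Algebra k D] [Algebra K D] [IsScalarTower k K D]
  {d : kˣ} {s : K} {Ω : Type} [Field Ω] [Algebra K Ω] {n N : ℕ}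
  {f : D →ₐ[K] Matrix (Fin n) (Fin n) Ω}

theorem coe_inv' (x : SUD f) : (((x⁻¹ : SUD f) : Dˣ) : D) = ((x : Dˣ) : D)⁻¹ := by
  rw [InvMemClass.coe_inv, Units.val_inv_eq_inv_val]

theorem coe_mul' (x y : SUD f) :
    (((x * y : SUD f) : Dˣ) : D) = ((x : Dˣ) : D) * ((y : Dˣ) : D) := by
  rw [Subgroup.coe_mul, Units.val_mul]

variable (B : Basis (Fin N) k D) (T : Set (Pl k)) (Q : Subgroup (SUD f))

/-- the closure of a subgroup for the topology of a set of places -/
def clQ : Subgroup (SUD f) where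
  carrier := {x | ∃ y : ℕ → SUD f, (∀ j, y j ∈ Q) ∧
    ∀ p ∈ T, Tn B p atTop (fun j => (((y j : SUD f) : Dˣ) : D)) ((x : Dˣ) : D)}
  mul_mem' := by
    rintro a b ⟨y, hy, ha⟩ ⟨z, hz, hb⟩
    refine ⟨fun j => y j * z j, fun j => Q.mul_mem (hy j) (hz j), fun p hp => ?_⟩
    simp only [coe_mul']
    exact (ha p hp).mul (hb p hp)
  one_mem' := ⟨fun _ => 1, fun _ => Q.one_mem, fun _ _ => Tn.const _⟩
  inv_mem' := by
    rintro a ⟨y, hy, ha⟩
    refine ⟨fun j => (y j)⁻¹, fun j => Q.inv_mem (hy j), fun p hp => ?_⟩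
    simp only [coe_inv']
    exact (ha p hp).inv (Units.ne_zero _)

variable {B T Q}

theorem mem_clQ {x : SUD f} : x ∈ clQ B T Q ↔ ∃ y : ℕ → SUD f, (∀ j, y j ∈ Q) ∧
    ∀ p ∈ T, Tn B p atTop (fun j => (((y j : SUD f) : Dˣ) : D)) ((x : Dˣ) : D) := Iff.rfl

theorem le_clQ : Q ≤ clQ B T Q := fun x hx => ⟨fun _ => x, fun _ => hx, fun _ _ => Tn.const _⟩

theorem tendsto_one_div : Tendsto (fun j : ℕ => 1 / ((j : ℝ) + 1)) atTop (𝓝 0) :=
  tendsto_one_div_add_atTop_nhds_zero_nat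

/-- the closure is closed -/
theorem clQ_closed (hT : T.Finite) {x : SUD f} {z : ℕ → SUD f} (hz : ∀ j, z j ∈ clQ B T Q)
    (hx : ∀ p ∈ T, Tn B p atTop (fun j => (((z j : SUD f) : Dˣ) : D)) ((x : Dˣ) : D)) :
    x ∈ clQ B T Q := by
  have h1 : ∀ j : ℕ, ∃ y ∈ Q, ∀ p ∈ T,
      nm B p ((((y : SUD f) : Dˣ) : D) - (((z j : SUD f) : Dˣ) : D)) < 1 / ((j : ℝ) + 1) := by
    intro j
    obtain ⟨y, hy, h⟩ := hz j
    have h2 : ∀ᶠ i in atTop, ∀ p ∈ T,
        nm B p ((((y i : SUD f) : Dˣ) : D) - (((z j : SUD f) : Dˣ) : D)) < 1 / ((j : ℝ) + 1) := by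
      rw [Filter.eventually_all_finite hT]
      intro p hp
      exact (h p hp).ev_lt (by positivity)
    obtain ⟨i, hi⟩ := h2.exists
    exact ⟨y i, hy i, hi⟩
  choose y hy hyz using h1
  refine ⟨y, hy, fun p hp => ?_⟩
  have h3 : Tn B p atTop
      (fun j => (((y j : SUD f) : Dˣ) : D) - (((z j : SUD f) : Dˣ) : D)) 0 := by
    refine squeeze_zero (fun j => nm_nonneg B p _) (fun j => ?_) tendsto_one_div
    rw [sub_zero]
    exact (hyz j p hp).le
  have h4 := h3.add (hx p hp)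
  rw [zero_add] at h4
  simpa only [sub_add_cancel] using h4

/-- a closed subgroup of finite index is open -/
theorem clQ_pf (hT : T.Finite) (hi : Q.index ≠ 0) :
    PF B (GU f) (Im (clQ B T Q)) T := by
  have hfin : (clQ B T Q).FiniteIndex := by
    have : Q.FiniteIndex := ⟨hi⟩
    exact Subgroup.finiteIndex_of_le le_clQ
  have hq : Finite (SUD f ⧸ clQ B T Q) := inferInstance
  have h1 : ∀ c : SUD f ⧸ clQ B T Q, ∃ ε : ℝ, 0 < ε ∧ ∀ g : SUD f,
      (QuotientGroup.mk g : SUD f ⧸ clQ B T Q) = c →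
      (∀ p ∈ T, nm B p (((g : Dˣ) : D) - 1) < ε) → g ∈ clQ B T Q := by
    intro c
    obtain ⟨r, rfl⟩ := QuotientGroup.mk_surjective c
    by_contra hcon
    push Not at hcon
    have h2 : ∀ j : ℕ, ∃ g : SUD f, (QuotientGroup.mk g : SUD f ⧸ clQ B T Q) = QuotientGroup.mk r ∧
        (∀ p ∈ T, nm B p (((g : Dˣ) : D) - 1) < 1 / ((j : ℝ) + 1)) ∧ g ∉ clQ B T Q := fun j =>
      hcon _ (by positivity)
    choose g hg1 hg2 hg3 using h2
    have hr : r ∉ clQ B T Q := by
      intro hr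
      have h4 : (QuotientGroup.mk r : SUD f ⧸ clQ B T Q) = QuotientGroup.mk 1 := by
        rw [QuotientGroup.eq, mul_one]
        exact inv_mem hr
      have h5 := (hg1 0).trans h4
      rw [QuotientGroup.eq, mul_one] at h5
      exact hg3 0 (by simpa using inv_mem h5)
    apply hr
    have h6 : ∀ j, r⁻¹ * g j ∈ clQ B T Q := by
      intro j
      have := (hg1 j).symm
      rwa [QuotientGroup.eq] at this
    have h7 : r⁻¹ ∈ clQ B T Q := by
      refine clQ_closed hT h6 fun p hp => ?_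
      have h8 : Tn B p atTop (fun j => (((g j : SUD f) : Dˣ) : D)) 1 :=
        squeeze_zero (fun j => nm_nonneg B p _) (fun j => (hg2 j p hp).le) tendsto_one_div
      have h9 := (Tn.const (B := B) (p := p) (l := atTop) ((((r⁻¹ : SUD f) : Dˣ) : D))).mul h8
      rw [mul_one] at h9
      simpa only [coe_mul'] using h9
    simpa using inv_mem h7
  choose e he1 he2 using h1
  obtain ⟨ε, hε, hle⟩ := exists_lower (Set.finite_univ (α := SUD f ⧸ clQ B T Q))
    (u := e) fun c _ => he1 c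
  refine ⟨fun _ => ε, fun _ => hε, fun g hg hnear => ?_⟩
  obtain ⟨g', hg', rfl⟩ := exists_SUD hg
  exact ⟨⟨g', hg'⟩, he2 _ ⟨g', hg'⟩ rfl fun p hp =>
    (hnear p hp).trans_le (hle _ (Set.mem_univ _)), rfl⟩

/-- **Every coset of a dense normal subgroup of finite index comes close to one at any finite set
of places.** -/
theorem coset_near (hS : Setting k K D d s) (hn : 3 ≤ n) (hdeg : finrank K D = n ^ 2)
    (f : D →ₐ[K] Matrix (Fin n) (Fin n) Ω) (B : Basis (Fin N) k D) {Q H : Subgroup (SUD f)}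
    [hQ : Q.Normal] (hi : Q.index ≠ 0)
    (hd : ∀ V : Subgroup (SUD f), PF B (GU f) (Im V) (Tdiv k K D) → H ≤ Q ⊔ V)
    {T : Set (Pl k)} (hT : T.Finite) {x : SUD f} (hx : x ∈ H) {ε : ℝ} (hε : 0 < ε) :
    ∃ y ∈ Q, ∀ p ∈ T, nm B p ((((x * y : SUD f) : Dˣ) : D) - 1) < ε := by
  have h1 : PF B (GU f) (Im (clQ B T Q)) (Tdiv k K D) := by
    refine pf_tdiv hS hn hdeg f B im_sub one_im (fun _ ha _ hb => mul_im ha hb) hi
      (fun x hx => pow_im (fun g => ?_) hx) hT (clQ_pf hT hi)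
    exact le_clQ (Subgroup.pow_index_mem Q g)
  have h2 : H ≤ clQ B T Q := (hd _ h1).trans (sup_le le_clQ le_rfl)
  obtain ⟨y, hy, h3⟩ := h2 (inv_mem hx)
  have h4 : ∀ᶠ j in atTop, ∀ p ∈ T, nm B p ((((x * y j : SUD f) : Dˣ) : D) - 1) < ε := by
    rw [Filter.eventually_all_finite hT]
    intro p hp
    have h5 := (Tn.const (B := B) (p := p) (l := atTop) ((x : Dˣ) : D)).mul (h3 p hp)
    have h6 : ((x : Dˣ) : D) * (((x⁻¹ : SUD f) : Dˣ) : D) = 1 := by
      rw [← coe_mul', mul_inv_cancel]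
      rfl
    rw [h6] at h5
    simpa only [coe_mul'] using h5.ev_lt hε
  obtain ⟨j, hj⟩ := h4.exists
  exact ⟨y j, hy j, hj⟩

/-- **Moving an element inside its coset**: if `w ∈ H` then `x` is congruent modulo `Q` to an
element `x'` which is as close as we like to `w` at finitely many places. -/
theorem coset_near_target (hS : Setting k K D d s) (hn : 3 ≤ n) (hdeg : finrank K D = n ^ 2)
    (f : D →ₐ[K] Matrix (Fin n) (Fin n) Ω) (B : Basis (Fin N) k D) {Q H : Subgroup (SUD f)}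
    [hQ : Q.Normal] (hi : Q.index ≠ 0)
    (hd : ∀ V : Subgroup (SUD f), PF B (GU f) (Im V) (Tdiv k K D) → H ≤ Q ⊔ V)
    {T : Set (Pl k)} (hT : T.Finite) {x w : SUD f} (hx : x ∈ H) (hw : w ∈ H) {ε : ℝ}
    (hε : 0 < ε) : ∃ x' : SUD f, x⁻¹ * x' ∈ Q ∧
      ∀ p ∈ T, nm B p (((x' : Dˣ) : D) - ((w : Dˣ) : D)) < ε := by
  obtain ⟨δ, hδ, hle⟩ : ∃ δ : ℝ, 0 < δ ∧ ∀ p ∈ T, ∀ g : D, nm B p (g - 1) < δ →
      nm B p (g * ((w : Dˣ) : D) - ((w : Dˣ) : D)) < ε := by
    have h1 : ∀ p : Pl k, ∃ δ : ℝ, 0 < δ ∧ ∀ g : D, nm B p (g - 1) < δ →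
        nm B p (g * ((w : Dˣ) : D) - ((w : Dˣ) : D)) < ε := by
      intro p
      obtain ⟨C, hC, hCm⟩ := nm_mul B p
      refine ⟨ε / (C * nm B p ((w : Dˣ) : D)), div_pos hε (mul_pos hC
        (nm_pos' B p (Units.ne_zero _))), fun g hg => ?_⟩
      rw [show g * ((w : Dˣ) : D) - ((w : Dˣ) : D) = (g - 1) * ((w : Dˣ) : D) by noncomm_ring]
      refine (hCm _ _).trans_lt ?_
      rw [lt_div_iff₀ (mul_pos hC (nm_pos' B p (Units.ne_zero _)))] at hg
      linarith
    choose δ hδ h using h1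
    obtain ⟨ε', hε', hle⟩ := exists_lower hT (u := δ) fun p _ => hδ p
    exact ⟨ε', hε', fun p hp g hg => h p g (hg.trans_le (hle p hp))⟩
  obtain ⟨y, hy, h1⟩ := coset_near hS hn hdeg f B hi hd hT (H.mul_mem hx (inv_mem hw)) hδ
  refine ⟨x * w⁻¹ * y * w, ?_, fun p hp => ?_⟩
  · have h2 := hQ.conj_mem y hy w⁻¹
    rw [inv_inv] at h2
    have h3 : x⁻¹ * (x * w⁻¹ * y * w) = w⁻¹ * y * w := by group
    rw [h3]
    exact h2
  · have h4 := hle p hp _ (h1 p hp)
    rwa [← coe_mul'] at h4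

end Vale.Agent.P011.H182
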