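import Vale.Agent.P011.H182.Remove
import Vale.Agent.P011.H182.Strong

/-!
A normal subgroup which contains a level contains all elements near one at finitely many places,
without any condition at the complex places.
-/

open Module NumberField IsDedekindDomain Filter Topology TensorProduct

set_option linter.unusedSectionVars false

namespace Vale.Agent.P011.H182

open Vale.Agent.P011.Arith Vale.Agent.P011.Even Vale.Agent.P011.Two Vale.Agent.P011.One
  Vale.Agent.P011.MPQ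

section dense

variable {k : Type} [Field k] [NumberField k]

/-- A field with a complex embedding is dense. -/
theorem dense_complex (φ : k →+* ℂ) (hφ : ∃ α : k, (φ α).im ≠ 0) (y : ℂ) (ε : ℝ) (hε : 0 < ε) :
    ∃ x : k, ‖φ x - y‖ < ε := by
  obtain ⟨α, hα⟩ := hφ
  obtain ⟨b, hb⟩ : ∃ b : ℝ, b = y.im / (φ α).im := ⟨_, rfl⟩
  obtain ⟨a, ha⟩ : ∃ a : ℝ, a = y.re - b * (φ α).re := ⟨_, rfl⟩
  have hy : y = (a : ℂ) + (b : ℂ) * φ α := by
    apply Complex.ext
    · rw [Complex.add_re, Complex.ofReal_re, Complex.re_ofReal_mul, ha]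
      ring
    · rw [Complex.add_im, Complex.ofReal_im, Complex.im_ofReal_mul, hb, zero_add,
        div_mul_cancel₀ _ hα]
  obtain ⟨W, hW⟩ : ∃ W : ℝ, W = 2 * (‖φ α‖ + 1) := ⟨_, rfl⟩
  have hW0 : 0 < W := by rw [hW]; positivity
  obtain ⟨p, hp1, hp2⟩ := exists_rat_btwn (show a - ε / 2 < a + ε / 2 by linarith)
  obtain ⟨q, hq1, hq2⟩ := exists_rat_btwn (show b - ε / W < b + ε / W by
    have : 0 < ε / W := by positivity
    linarith)
  refine ⟨(p : k) + (q : k) * α, ?_⟩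
  rw [hy, map_add, map_mul, map_ratCast, map_ratCast]
  have e : (p : ℂ) + (q : ℂ) * φ α - ((a : ℂ) + (b : ℂ) * φ α) =
      (((p : ℝ) - a : ℝ) : ℂ) + (((q : ℝ) - b : ℝ) : ℂ) * φ α := by
    push_cast
    ring
  rw [e]
  have h1 : |(p : ℝ) - a| < ε / 2 := by rw [abs_lt]; constructor <;> linarith
  have h2 : |(q : ℝ) - b| < ε / W := by rw [abs_lt]; constructor <;> linarith
  have h3 := norm_nonneg (φ α)
  calc ‖(((p : ℝ) - a : ℝ) : ℂ) + (((q : ℝ) - b : ℝ) : ℂ) * φ α‖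
      ≤ |(p : ℝ) - a| + |(q : ℝ) - b| * ‖φ α‖ := by
        refine (norm_add_le _ _).trans ?_
        rw [norm_mul, Complex.norm_real, Complex.norm_real, Real.norm_eq_abs, Real.norm_eq_abs]
    _ < ε / 2 + ε / 2 := by
        refine add_lt_add_of_lt_of_le h1 ?_
        have h4 : |(q : ℝ) - b| * ‖φ α‖ ≤ ε / W * (‖φ α‖ + 1) :=
          mul_le_mul h2.le (by linarith) h3 (by positivity)
        refine h4.trans (le_of_eq ?_)
        rw [hW]
        field_simp
    _ = ε := by ring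

theorem im_ne {w : InfinitePlace k} (hw : w.IsComplex) : ∃ α : k, (w.embedding α).im ≠ 0 := by
  by_contra hcon
  push Not at hcon
  rw [InfinitePlace.isComplex_iff] at hw
  apply hw
  rw [ComplexEmbedding.isReal_iff]
  ext x
  rw [ComplexEmbedding.conjugate_coe_eq]
  exact Complex.conj_eq_iff_im.mpr (hcon x)

end dense

variable {k K D : Type} [Field k] [NumberField k] [Field K] [NumberField K] [StarRing K]
  [DivisionRing D] [StarRing D] [Algebra k K] [Algebra k D] [Algebra K D] [IsScalarTower k K D]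
  {d : kˣ} {s : K} {N : ℕ} {Ω : Type} [Field Ω] [Algebra K Ω] {n : ℕ}
  {f : D →ₐ[K] Matrix (Fin n) (Fin n) Ω} {B : Basis (Fin N) k D}

theorem finrank_one (Δ : Type) [DivisionRing Δ] [Algebra ℂ Δ] [FiniteDimensional ℂ Δ] :
    finrank ℂ Δ = 1 := by
  have h1 : Function.Bijective (algebraMap ℂ Δ) := IsAlgClosed.algebraMap_bijective_of_isIntegral
  have h2 : finrank ℂ ℂ = finrank ℂ Δ :=
    LinearEquiv.finrank_eq (LinearEquiv.ofBijective (Algebra.linearMap ℂ Δ) h1)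
  rw [← h2, Module.finrank_self]

/-- **The removal of one complex place.** -/
theorem remove_complex (hS : Setting k K D d s) (hn : 3 ≤ n) (hdeg : finrank K D = n ^ 2)
    {w : InfinitePlace k} (hw : w.IsComplex)
    {M : Set D} (hMG : M ⊆ GU f) (h1 : (1 : D) ∈ M)
    (hmul : ∀ a ∈ M, ∀ b ∈ M, a * b ∈ M) (hinv : ∀ a ∈ M, star a ∈ M)
    (hnm : ∀ g ∈ GU f, ∀ x ∈ M, g * x * g⁻¹ ∈ M) {P : Set (PlI k)} (hP : P.Finite)
    (hp0 : (Sum.inr w : PlI k) ∉ P)
    {ε : ℝ} (hε : 0 < ε) (hM : ∀ g ∈ GU f, NrI B (insert (Sum.inr w) P) ε g → g ∈ M) :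
    ∃ ε' : ℝ, 0 < ε' ∧ ∀ g ∈ GU f, NrI B P ε' g → g ∈ M := by
  have hsm : StarModule K D := ⟨hS.star_smul⟩
  have hfin := hS.fin
  have hcen := hS.cen
  have hst : ∀ (c : k) (x : D), star (c • x) = c • star x :=
    fun c x => (Setting.sig hS).map_smul c x
  let _ : Algebra k ℂ := w.embedding.toAlgebra
  have hal : ∀ c : k, algebraMap k ℂ c = w.embedding c := fun _ => rfl
  obtain ⟨θ, hθ⟩ := IsAlgClosed.exists_pow_nat_eq (algebraMap k ℂ (d : k)) two_pos
  obtain ⟨φ, -⟩ := exists_lift hS (F := ℂ) hθ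
  let _ : Algebra K ℂ := (φ : K →+* ℂ).toAlgebra
  have hφ : ∀ c : k, algebraMap K ℂ (algebraMap k K c) = algebraMap k ℂ c := fun c => φ.commutes c
  obtain ⟨r, hr0, Δ, _, _, _, _, ψ, hψ⟩ := P011S.exists_wed (E := ℂ) hdeg
  have hr : 2 ≤ r := by
    rw [finrank_one Δ, mul_one] at hψ
    have h3 : r = n := (Nat.pow_left_injective (n := 2) (by norm_num)) hψ
    omega
  have hden : ∀ (y : ℂ) (ε : ℝ), 0 < ε → ∃ x : k, ‖algebraMap k ℂ x - y‖ < ε :=
    fun y ε hε => dense_complex w.embedding (im_ne hw) y ε hε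
  obtain ⟨E', iE, iA, BE, I, jm, h, hG⟩ := exists_split hS hdeg B (pabv (Sum.inr w)) f hφ
    (fun x => (w.norm_embedding_eq x).trans rfl) hden
    ⟨2, by norm_num⟩ hr ψ
  exact remove_place hst h hG hden hMG h1 hmul hinv hnm hP hp0 hε hM

/-- **The removal of the complex places.** -/
theorem remove_all (hS : Setting k K D d s) (hn : 3 ≤ n) (hdeg : finrank K D = n ^ 2)
    {M : Set D} (hMG : M ⊆ GU f) (h1 : (1 : D) ∈ M)
    (hmul : ∀ a ∈ M, ∀ b ∈ M, a * b ∈ M) (hinv : ∀ a ∈ M, star a ∈ M)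
    (hnm : ∀ g ∈ GU f, ∀ x ∈ M, g * x * g⁻¹ ∈ M) {P : Set (PlI k)} (hP : P.Finite)
    (C : Finset (InfinitePlace k)) : (∀ w ∈ C, w.IsComplex ∧ (Sum.inr w : PlI k) ∉ P) →
    ∀ ε : ℝ, 0 < ε → (∀ g ∈ GU f, NrI B (P ∪ Sum.inr '' (C : Set (InfinitePlace k))) ε g → g ∈ M) →
    ∃ ε' : ℝ, 0 < ε' ∧ ∀ g ∈ GU f, NrI B P ε' g → g ∈ M := by
  classical
  induction C using Finset.induction_on with
  | empty =>
    intro _ ε hε h
    refine ⟨ε, hε, fun g hg hgP => h g hg ?_⟩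
    rw [Finset.coe_empty, Set.image_empty, Set.union_empty]
    exact hgP
  | insert w C hwC ih =>
    intro hC ε hε h
    have hC' : ∀ w ∈ C, w.IsComplex ∧ (Sum.inr w : PlI k) ∉ P := fun v hv =>
      hC v (Finset.mem_insert_of_mem hv)
    have hPC : (P ∪ Sum.inr '' (C : Set (InfinitePlace k)) : Set (PlI k)).Finite :=
      hP.union (C.finite_toSet.image _)
    have hwP : (Sum.inr w : PlI k) ∉ P ∪ Sum.inr '' (C : Set (InfinitePlace k)) := by
      rintro (h2 | ⟨v, hv, h2⟩)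
      · exact (hC w (Finset.mem_insert_self _ _)).2 h2
      · rw [Sum.inr_injective h2] at hv
        exact hwC hv
    have e : (P ∪ Sum.inr '' ((insert w C : Finset _) : Set (InfinitePlace k)) : Set (PlI k)) =
        insert (Sum.inr w) (P ∪ Sum.inr '' (C : Set (InfinitePlace k))) := by
      rw [Finset.coe_insert, Set.image_insert_eq, Set.union_insert]
    rw [e] at h
    obtain ⟨ε', hε', h'⟩ := remove_complex hS hn hdeg (hC w (Finset.mem_insert_self _ _)).1 hMG h1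
      hmul hinv hnm hPC hwP hε h
    exact ih hC' ε' hε' h'

/-- **A normal subgroup which contains a level contains all elements near one at finitely many
places: finite places and real places.** -/
theorem near_pl (hS : Setting k K D d s) (hn : 3 ≤ n) (hdeg : finrank K D = n ^ 2)
    {q : HeightOneSpectrum (𝓞 k)} (hq : (Sum.inl q : Pl k) ∉ Tdiv k K D)
    {M : Set D} (hMG : M ⊆ GU f) (h1 : (1 : D) ∈ M) (hmul : ∀ a ∈ M, ∀ b ∈ M, a * b ∈ M)
    (hinv : ∀ a ∈ M, star a ∈ M) (hnm : ∀ g ∈ GU f, ∀ x ∈ M, g * x * g⁻¹ ∈ M)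
    {T : Set (HeightOneSpectrum (𝓞 k))} (hT : T.Finite) (hb : Bad B ⊆ T) {ε : ℝ} (hε : 0 < ε)
    (hM : ∀ g ∈ GU f, g ∈ Lv B {q} T ε → g ∈ M) :
    ∃ S : Set (Pl k), S.Finite ∧ ∃ ε' : ℝ, 0 < ε' ∧ ∀ g ∈ GU f,
      (∀ p ∈ S, Even.nm B p (g - 1) < ε') → g ∈ M := by
  classical
  obtain ⟨T', hT', ε1, hε1, h⟩ := near_of_lv hS hn hdeg hq hMG h1 hmul hinv hnm hT hb hε hM
  -- the places
  let P : Set (PlI k) := Sum.inl '' T' ∪ Sum.inr '' {w : InfinitePlace k | w.IsReal}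
  have hP : P.Finite := (hT'.image _).union (Set.toFinite _)
  let C : Finset (InfinitePlace k) := Finset.univ.filter fun w => w.IsComplex
  have hC : ∀ w ∈ C, w.IsComplex ∧ (Sum.inr w : PlI k) ∉ P := by
    intro w hw
    have hw' : w.IsComplex := (Finset.mem_filter.mp hw).2
    refine ⟨hw', ?_⟩
    rintro (⟨v, -, hv⟩ | ⟨v, hv, h2⟩)
    · exact absurd hv (by simp)
    · rw [Sum.inr_injective h2] at hv
      exact InfinitePlace.not_isReal_iff_isComplex.mpr hw' hv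
  obtain ⟨ε2, hε2, h'⟩ := remove_all hS hn hdeg hMG h1 hmul hinv hnm hP C hC ε1 hε1 (by
    intro g hg hgP
    refine h g hg (fun w hw => hgP (Sum.inl w) (Or.inl (Or.inl ⟨w, hw, rfl⟩))) fun φ => ?_
    have h2 : ∀ x : k, cAbv φ x = pabv (Sum.inr (InfinitePlace.mk φ) : PlI k) x := fun x => rfl
    have h3 : na B (cAbv φ) (g - 1) = na B (pabv (Sum.inr (InfinitePlace.mk φ) : PlI k)) (g - 1) :=
      Finset.sum_congr rfl fun i _ => h2 _
    rw [h3]
    refine hgP _ ?_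
    by_cases hr : (InfinitePlace.mk φ).IsReal
    · exact Or.inl (Or.inr ⟨_, hr, rfl⟩)
    · exact Or.inr ⟨_, Finset.mem_coe.mpr (Finset.mem_filter.mpr
        ⟨Finset.mem_univ _, InfinitePlace.not_isReal_iff_isComplex.mp hr⟩), rfl⟩)
  refine ⟨Sum.inl '' T' ∪ Set.range Sum.inr, (hT'.image _).union (Set.finite_range _), ε2, hε2,
    fun g hg hgS => h' g hg ?_⟩
  rintro p (⟨v, hv, rfl⟩ | ⟨w, hw, rfl⟩)
  · exact hgS (Sum.inl v) (Or.inl ⟨v, hv, rfl⟩)
  · have h2 := hgS (Sum.inr (InfinitePlace.embedding_of_isReal hw)) (Or.inr ⟨_, rfl⟩)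
    have h3 : na B (pabv (Sum.inr w : PlI k)) (g - 1) =
        Even.nm B (Sum.inr (InfinitePlace.embedding_of_isReal hw)) (g - 1) := by
      refine Finset.sum_congr rfl fun i _ => ?_
      rw [plAbv_inr, ← Real.norm_eq_abs, InfinitePlace.norm_embedding_of_isReal hw]
      rfl
    rw [h3]
    exact h2

end Vale.Agent.P011.H182
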