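import Vale.Agent.P011.H182.Coset
import Vale.Agent.P011.H182.SaArch

/-!
# Strong approximation inside a coset of a dense normal subgroup of finite index

`Q ≤ H` are subgroups of `SU_1(D, *)`, `Q` is normal of finite index and dense in `H` for the
topology of `Tdiv`.  Every `x ∈ H` is congruent modulo `Q` to an element which is close to a given
element of `H` at finitely many finite places and at all archimedean places, and integral at all
other places with the exception of one place `q ∉ Tdiv`.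
-/

open Module NumberField IsDedekindDomain Topology Filter

set_option linter.unusedSectionVars false

namespace Vale.Agent.P011.H182

open Vale.Agent.P011.Arith Vale.Agent.P011.Even Vale.Agent.P011.Two Vale.Agent.P011.One
  Vale.Agent.P011.MPQ

variable {k K D : Type} [Field k] [NumberField k] [Field K] [NumberField K] [StarRing K]
  [DivisionRing D] [StarRing D] [Algebra k K] [Algebra k D] [Algebra K D] [IsScalarTower k K D]
  {d : kˣ} {s : K} {N : ℕ} {Ω : Type} [Field Ω] [Algebra K Ω] {n : ℕ}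
  {f : D →ₐ[K] Matrix (Fin n) (Fin n) Ω} {B : Basis (Fin N) k D}

theorem NrI.one {P : Set (PlI k)} {ε : ℝ} (hε : 0 < ε) : NrI B P ε (1 : D) := fun p _ => by
  rw [sub_self, na_zero]
  exact hε

/-- the closure for the topology of finitely many places, complex places included -/
def clI (B : Basis (Fin N) k D) (hst : ∀ (c : k) (x : D), star (c • x) = c • star x)
    {P : Set (PlI k)} (hP : P.Finite) (Q : Subgroup (SUD f)) [hQ : Q.Normal] :
    Subgroup (SUD f) where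
  carrier := {x | ∀ ε : ℝ, 0 < ε → ∃ y ∈ Q, NrI B P ε (((x * y : SUD f) : Dˣ) : D)}
  mul_mem' := by
    intro x x' hx hx' ε hε
    obtain ⟨ε', hε', hm⟩ := NrI.mul (B := B) hst hP hε
    obtain ⟨y, hy, h1⟩ := hx ε' hε'
    obtain ⟨y', hy', h2⟩ := hx' ε' hε'
    refine ⟨x'⁻¹ * y * x' * y', Q.mul_mem ?_ hy', ?_⟩
    · have := hQ.conj_mem y hy x'⁻¹
      rwa [inv_inv] at this
    · have e : x * x' * (x'⁻¹ * y * x' * y') = (x * y) * (x' * y') := by group
      rw [e, coe_mul']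
      exact hm _ _ h1 h2
  one_mem' := by
    intro ε hε
    refine ⟨1, Q.one_mem, ?_⟩
    rw [mul_one]
    exact NrI.one hε
  inv_mem' := by
    intro x hx ε hε
    obtain ⟨ε', hε', hs⟩ := NrI.star (B := B) hst hP hε
    obtain ⟨y, hy, h1⟩ := hx ε' hε'
    refine ⟨x * y⁻¹ * x⁻¹, hQ.conj_mem _ (Q.inv_mem hy) x, ?_⟩
    have e : x⁻¹ * (x * y⁻¹ * x⁻¹) = (x * y)⁻¹ := by group
    rw [e, coe_inv', gu_inv_eq (f := f) (x * y).2]
    exact hs _ h1

theorem mem_clI {hst : ∀ (c : k) (x : D), star (c • x) = c • star x}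
    {P : Set (PlI k)} {hP : P.Finite} {Q : Subgroup (SUD f)} [hQ : Q.Normal] {x : SUD f} :
    x ∈ clI B hst hP Q ↔ ∀ ε : ℝ, 0 < ε → ∃ y ∈ Q, NrI B P ε (((x * y : SUD f) : Dˣ) : D) :=
  Iff.rfl

theorem le_clI {hst : ∀ (c : k) (x : D), star (c • x) = c • star x}
    {P : Set (PlI k)} {hP : P.Finite} {Q : Subgroup (SUD f)} [Q.Normal] :
    Q ≤ clI B hst hP Q := by
  intro x hx ε hε
  refine ⟨x⁻¹, Q.inv_mem hx, ?_⟩
  rw [mul_inv_cancel]
  exact NrI.one hε

/-- a closed subgroup of finite index is open -/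
theorem clI_open (hst : ∀ (c : k) (x : D), star (c • x) = c • star x)
    {P : Set (PlI k)} (hP : P.Finite) (Q : Subgroup (SUD f)) [hQ : Q.Normal]
    (hi : Q.index ≠ 0) : ∃ δ : ℝ, 0 < δ ∧ ∀ g : SUD f, NrI B P δ (((g : SUD f) : Dˣ) : D) →
      g ∈ clI B hst hP Q := by
  have hfin : (clI B hst hP Q).FiniteIndex := by
    have : Q.FiniteIndex := ⟨hi⟩
    exact Subgroup.finiteIndex_of_le le_clI
  have hq : Finite (SUD f ⧸ clI B hst hP Q) := inferInstance
  have h1 : ∀ c : SUD f ⧸ clI B hst hP Q, ∃ δ : ℝ, 0 < δ ∧ ∀ g : SUD f,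
      (QuotientGroup.mk g : SUD f ⧸ clI B hst hP Q) = c →
      NrI B P δ (((g : SUD f) : Dˣ) : D) → g ∈ clI B hst hP Q := by
    intro c
    obtain ⟨r, rfl⟩ := QuotientGroup.mk_surjective c
    by_cases hr : r ∈ clI B hst hP Q
    · refine ⟨1, one_pos, fun g hg _ => ?_⟩
      have h2 := hg.symm
      rw [QuotientGroup.eq] at h2
      have h3 := mul_mem hr h2
      rwa [mul_inv_cancel_left] at h3
    · have hr' : ∃ ε : ℝ, 0 < ε ∧ ∀ y ∈ Q, ¬ NrI B P ε (((r * y : SUD f) : Dˣ) : D) := by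
        by_contra hcon
        push Not at hcon
        exact hr (mem_clI.mpr hcon)
      obtain ⟨ε, hε, hy⟩ := hr'
      obtain ⟨δ, hδ, hm⟩ := NrI.mul (B := B) hst hP hε
      refine ⟨δ, hδ, fun g hg hgn => ?_⟩
      exfalso
      have h2 := hg.symm
      rw [QuotientGroup.eq] at h2
      obtain ⟨y, hyQ, h3⟩ := inv_mem h2 δ hδ
      refine hy y hyQ ?_
      have e : r * y = g * ((r⁻¹ * g)⁻¹ * y) := by group
      rw [e, coe_mul']
      exact hm _ _ hgn h3
  choose e he1 he2 using h1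
  obtain ⟨ε, hε, hle⟩ := exists_lower (Set.finite_univ (α := SUD f ⧸ clI B hst hP Q))
    (u := e) fun c _ => he1 c
  exact ⟨ε, hε, fun g hg => he2 _ g rfl (hg.mono (hle _ (Set.mem_univ _)))⟩

/-- A normal subgroup which contains the elements close to one at finitely many places, complex
places included, contains the elements close to one at finitely many finite and real places. -/
theorem pf_of_near (hS : Setting k K D d s) (hn : 3 ≤ n) (hdeg : finrank K D = n ^ 2)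
    {M : Set D} (hMG : M ⊆ GU f) (h1 : (1 : D) ∈ M)
    (hmul : ∀ a ∈ M, ∀ b ∈ M, a * b ∈ M) (hinv : ∀ a ∈ M, star a ∈ M)
    (hnm : ∀ g ∈ GU f, ∀ x ∈ M, g * x * g⁻¹ ∈ M) {P : Set (PlI k)} (hP : P.Finite)
    {δ : ℝ} (hδ : 0 < δ) (hM : ∀ g ∈ GU f, NrI B P δ g → g ∈ M) :
    ∃ S : Set (Pl k), S.Finite ∧ PF B (GU f) M S := by
  classical
  have hT' : (Sum.inl ⁻¹' P : Set (HeightOneSpectrum (𝓞 k))).Finite :=
    hP.preimage Sum.inl_injective.injOn
  let P0 : Set (PlI k) := Sum.inl '' (Sum.inl ⁻¹' P : Set (HeightOneSpectrum (𝓞 k))) ∪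
    Sum.inr '' {w : InfinitePlace k | w.IsReal}
  have hP0 : P0.Finite := (hT'.image _).union (Set.toFinite _)
  let C : Finset (InfinitePlace k) := Finset.univ.filter fun w => w.IsComplex
  have hC : ∀ w ∈ C, w.IsComplex ∧ (Sum.inr w : PlI k) ∉ P0 := by
    intro w hw
    have hw' : w.IsComplex := (Finset.mem_filter.mp hw).2
    refine ⟨hw', ?_⟩
    rintro (⟨v, -, hv⟩ | ⟨v, hv, h2⟩)
    · exact absurd hv (by simp)
    · rw [Sum.inr_injective h2] at hv
      exact InfinitePlace.not_isReal_iff_isComplex.mpr hw' hv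
  obtain ⟨ε2, hε2, h'⟩ := remove_all hS hn hdeg hMG h1 hmul hinv hnm hP0 C hC δ hδ (by
    intro g hg hgP
    refine hM g hg fun p hp => hgP p ?_
    rcases p with v | w
    · exact Or.inl (Or.inl ⟨v, hp, rfl⟩)
    · by_cases hr : w.IsReal
      · exact Or.inl (Or.inr ⟨_, hr, rfl⟩)
      · exact Or.inr ⟨_, Finset.mem_coe.mpr (Finset.mem_filter.mpr
          ⟨Finset.mem_univ _, InfinitePlace.not_isReal_iff_isComplex.mp hr⟩), rfl⟩)
  refine ⟨Sum.inl '' (Sum.inl ⁻¹' P : Set (HeightOneSpectrum (𝓞 k))) ∪ Set.range Sum.inr,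
    (hT'.image _).union (Set.finite_range _), fun _ => ε2, fun _ => hε2,
    fun g hg hgS => h' g hg ?_⟩
  rintro p (⟨v, hv, rfl⟩ | ⟨w, hw, rfl⟩)
  · exact hgS (Sum.inl v) (Or.inl ⟨v, hv, rfl⟩)
  · have h2 := hgS (Sum.inr (InfinitePlace.embedding_of_isReal hw)) (Or.inr ⟨_, rfl⟩)
    have h3 : na B (pabv (Sum.inr w : PlI k)) (g - 1) =
        Even.nm B (Sum.inr (InfinitePlace.embedding_of_isReal hw)) (g - 1) := by
      refine Finset.sum_congr rfl fun i _ => ?_
      rw [plAbv_inr, ← Real.norm_eq_abs, InfinitePlace.norm_embedding_of_isReal hw]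
      rfl
    rw [h3]
    exact h2

theorem clI_normal (hst : ∀ (c : k) (x : D), star (c • x) = c • star x)
    {P : Set (PlI k)} (hP : P.Finite) (Q : Subgroup (SUD f)) [hQ : Q.Normal] :
    (clI B hst hP Q).Normal := by
  constructor
  intro x hx g ε hε
  have hg0 : ((g : Dˣ) : D) ≠ 0 := Units.ne_zero _
  obtain ⟨ε', hε', hc⟩ := NrI.conj (B := B) hst hP hg0 hε
  obtain ⟨y, hy, h1⟩ := hx ε' hε'
  refine ⟨g * y * g⁻¹, hQ.conj_mem y hy g, ?_⟩
  have e : g * x * g⁻¹ * (g * y * g⁻¹) = g * (x * y) * g⁻¹ := by group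
  rw [e, coe_mul', coe_mul', coe_inv']
  exact hc _ h1

theorem inv_im {M : Subgroup (SUD f)} : ∀ a ∈ Im M, star a ∈ Im M := by
  rintro _ ⟨g, hg, rfl⟩
  refine ⟨g⁻¹, inv_mem hg, ?_⟩
  rw [coe_inv', gu_inv_eq (f := f) g.2]

theorem conj_im {M : Subgroup (SUD f)} (hM : M.Normal) :
    ∀ g ∈ GU f, ∀ x ∈ Im M, g * x * g⁻¹ ∈ Im M := by
  rintro g hg _ ⟨x, hx, rfl⟩
  obtain ⟨g', hg', rfl⟩ := exists_SUD hg
  refine ⟨⟨g', hg'⟩ * x * ⟨g', hg'⟩⁻¹, hM.conj_mem x hx ⟨g', hg'⟩, ?_⟩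
  rw [coe_mul', coe_mul', coe_inv']

/-- **Every coset of a dense normal subgroup of finite index comes close to one at finitely many
places, complex places included.** -/
theorem coset_nearI (hS : Setting k K D d s) (hn : 3 ≤ n) (hdeg : finrank K D = n ^ 2)
    (f : D →ₐ[K] Matrix (Fin n) (Fin n) Ω) (B : Basis (Fin N) k D) {Q H : Subgroup (SUD f)}
    [hQ : Q.Normal] (hi : Q.index ≠ 0)
    (hd : ∀ V : Subgroup (SUD f), PF B (GU f) (Im V) (Tdiv k K D) → H ≤ Q ⊔ V)
    {P : Set (PlI k)} (hP : P.Finite) {x : SUD f} (hx : x ∈ H) {ε : ℝ} (hε : 0 < ε) :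
    ∃ y ∈ Q, NrI B P ε (((x * y : SUD f) : Dˣ) : D) := by
  have hst : ∀ (c : k) (x : D), star (c • x) = c • star x :=
    fun c x => (Setting.sig hS).map_smul c x
  obtain ⟨δ, hδ, hopen⟩ := clI_open (B := B) hst hP Q hi
  obtain ⟨S, hSf, hPF⟩ := pf_of_near hS hn hdeg (B := B) (M := Im (clI B hst hP Q)) im_sub one_im
    (fun _ ha _ hb => mul_im ha hb) inv_im (conj_im (clI_normal hst hP Q)) hP hδ (by
      intro g hg hgP
      obtain ⟨g', hg', rfl⟩ := exists_SUD hg
      exact ⟨⟨g', hg'⟩, hopen ⟨g', hg'⟩ hgP, rfl⟩)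
  have h1 : PF B (GU f) (Im (clI B hst hP Q)) (Tdiv k K D) := by
    refine pf_tdiv hS hn hdeg f B im_sub one_im (fun _ ha _ hb => mul_im ha hb) hi
      (fun x hx => pow_im (fun g => ?_) hx) hSf hPF
    exact le_clI (Subgroup.pow_index_mem Q g)
  have h2 : H ≤ clI B hst hP Q := (hd _ h1).trans (sup_le le_clI le_rfl)
  exact h2 hx ε hε

end Vale.Agent.P011.H182
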