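import Vale.Agent.P011.H182.LocAbs

/-!
Local models: unboundedness and density.
-/

open Module NumberField IsDedekindDomain Filter Topology

set_option linter.unusedSectionVars false

namespace Vale.Agent.P011.H182

open Vale.Agent.P011.Arith Vale.Agent.P011.Even Vale.Agent.P011.Two Vale.Agent.P011.One

section grp

/-- Commutators do not change under central factors. -/
theorem comm_central {G : Type} [Group G] {X Z S T : G} (hX : ∀ W, X * W = W * X)
    (hZ : ∀ W, Z * W = W * Z) :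
    (Z * S) * (X * T) * (Z * S)⁻¹ * (X * T)⁻¹ = S * T * S⁻¹ * T⁻¹ := by
  have hZ' : ∀ W, Z⁻¹ * W = W * Z⁻¹ := by
    intro W
    rw [inv_mul_eq_iff_eq_mul, ← mul_assoc, hZ, mul_assoc, mul_inv_cancel, mul_one]
  have hX' : ∀ W, X⁻¹ * W = W * X⁻¹ := by
    intro W
    rw [inv_mul_eq_iff_eq_mul, ← mul_assoc, hX, mul_assoc, mul_inv_cancel, mul_one]
  calc (Z * S) * (X * T) * (Z * S)⁻¹ * (X * T)⁻¹
      = Z * (S * X * T * S⁻¹) * Z⁻¹ * (T⁻¹ * X⁻¹) := by group
    _ = (S * X * T * S⁻¹) * (Z * Z⁻¹) * (T⁻¹ * X⁻¹) := by rw [hZ]; group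
    _ = S * (X * (T * S⁻¹ * T⁻¹)) * X⁻¹ := by group
    _ = S * ((T * S⁻¹ * T⁻¹) * X) * X⁻¹ := by rw [hX]
    _ = _ := by group

end grp

section model

variable {k K D : Type} [Field k] [NumberField k] [Field K] [StarRing K]
  [DivisionRing D] [StarRing D] [Algebra k K] [Algebra k D] [Algebra K D] [IsScalarTower k K D]
  {d : kˣ} {s : K} {N : ℕ} {Ω : Type} [Field Ω] [Algebra K Ω] {n : ℕ}
  {f : D →ₐ[K] Matrix (Fin n) (Fin n) Ω}
  {F E : Type} [NormedField F] [ProperSpace F] [Algebra k F] [Ring E] [Algebra F E]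
  {BE : Basis (Fin N) F E} {I : Inv F E} {B : Basis (Fin N) k D}
  {a : AbsoluteValue k ℝ} {v : HeightOneSpectrum (𝓞 k)} {jm : D →+* E}

/-- Elements of the closure are approximated. -/
theorem Mdl.approx (h : Mdl BE I B a jm) {T : UT BE I} (hT : T ∈ h.cl f) {O : Set (UT BE I)}
    (hO : O ∈ 𝓝 T) : ∃ t ∈ SUu f, h.gU t ∈ O := by
  have h1 : T ∈ closure (((SUu f).map h.gU : Subgroup (UT BE I)) : Set (UT BE I)) := hT
  rw [mem_closure_iff_nhds] at h1
  obtain ⟨_, hO1, t, ht, rfl⟩ := h1 O hO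
  exact ⟨t, ht, hO1⟩

theorem Mdl.cl_one (h : Mdl BE I B a jm) {t : unitary D} (ht : t ∈ SUu f) : h.gU t ∈ h.cl f :=
  subset_closure ⟨t, ht, rfl⟩

/-- The properties of a local model which are used below. -/
structure Mdl.Gm (h : Mdl BE I B a jm) (f : D →ₐ[K] Matrix (Fin n) (Fin n) Ω) : Prop where
  loc : h.Loc f
  shift : ∀ S : UT BE I, ∃ Z : UT BE I, (∀ W, Z * W = W * Z) ∧ IsUnit (1 + (Z * S).val)
  eig : ∃ τ ∈ h.cl f, ∃ y0 : E, y0 ≠ 0 ∧ ∃ t : F, 1 < ‖t‖ ∧ τ.val * y0 * (τ⁻¹).val = t • y0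
  nz : ∀ O ∈ 𝓝 (1 : UT BE I), ∃ S T : UT BE I, S * T * S⁻¹ * T⁻¹ ∈ O ∧
    ∃ y : E, (S * T * S⁻¹ * T⁻¹).val * y ≠ y * (S * T * S⁻¹ * T⁻¹).val

/-- **Unboundedness from an eigenvector.** -/
theorem unb_of_model (h : Mdl BE I B (fa v) jm) {τ : UT BE I}
    (hτ : τ ∈ h.cl f) {y0 : E} (hy0 : y0 ≠ 0) {t : F} (ht : 1 < ‖t‖)
    (hy : τ.val * y0 * (τ⁻¹).val = t • y0) : Unb f B v := by
  classical
  obtain ⟨C, hC0, hCm⟩ := ne_mul BE
  obtain ⟨C', hC'0, hCs⟩ := ne_linear BE I.τ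
  obtain ⟨R0, hR0⟩ : ∃ R0 : ℝ, R0 = H182.ne BE (1 : E) + 1 := ⟨_, rfl⟩
  have hn1 : 0 ≤ H182.ne BE (1 : E) := ne_nonneg' BE _
  have hR0p : 0 < R0 := by linarith
  let O : Set (UT BE I) := {T | H182.ne BE T.val < R0}
  have hOopen : IsOpen O := by
    have h1 := continuous_ne BE I LinearMap.id 0
    have h2 : Continuous fun T : UT BE I => H182.ne BE T.val := by
      refine h1.congr fun T => ?_
      rw [LinearMap.id_apply, sub_zero]
    exact isOpen_lt h2 continuous_const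
  have h1O : (1 : UT BE I) ∈ O := by
    change H182.ne BE (1 : E) < R0
    linarith
  have hex : ∀ m : ℕ, ∃ g : unitary D, g ∈ SUu f ∧ (τ ^ m)⁻¹ * h.gU g ∈ O := by
    intro m
    have h1 : τ ^ m ∈ h.cl f := pow_mem hτ m
    have h2 : (fun T : UT BE I => (τ ^ m)⁻¹ * T) ⁻¹' O ∈ 𝓝 (τ ^ m) := by
      have hc : Continuous fun T : UT BE I => (τ ^ m)⁻¹ * T := by fun_prop
      refine hc.continuousAt (hOopen.mem_nhds ?_)
      rw [inv_mul_cancel]
      exact h1O
    exact h.approx h1 h2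
  choose g hg1 hg2 using hex
  -- start at one
  let G : ℕ → unitary D := fun m => if m = 0 then 1 else g m
  have hG1 : ∀ m, G m ∈ SUu f := by
    intro m
    by_cases hm : m = 0
    · simp only [G, if_pos hm]
      exact one_mem _
    · simp only [G, if_neg hm]
      exact hg1 m
  have hG2 : ∀ m, (τ ^ m)⁻¹ * h.gU (G m) ∈ O := by
    intro m
    by_cases hm : m = 0
    · simp only [G, if_pos hm]
      rw [hm, pow_zero, inv_one, one_mul, map_one]
      exact h1O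
    · simp only [G, if_neg hm]
      exact hg2 m
  obtain ⟨u, hu⟩ : ∃ u : ℕ → UT BE I, ∀ m, u m = (τ ^ m)⁻¹ * h.gU (G m) := ⟨_, fun _ => rfl⟩
  have huO : ∀ m, H182.ne BE (u m).val < R0 := fun m => by
    rw [hu]
    exact hG2 m
  have huO' : ∀ m, H182.ne BE (u m)⁻¹.val ≤ C' * R0 := fun m => by
    rw [UT.val_inv]
    exact (hCs _).trans (mul_le_mul_of_nonneg_left (huO m).le hC'0.le)
  have hGu : ∀ m, h.gU (G m) = τ ^ m * u m := fun m => by
    rw [hu, mul_inv_cancel_left]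
  -- the steps
  obtain ⟨R1, hR1⟩ : ∃ R1 : ℝ, R1 = C * (C * (C' * R0) * H182.ne BE τ.val) * R0 := ⟨_, rfl⟩
  obtain ⟨R2, hR2⟩ : ∃ R2 : ℝ, R2 = C * (C * (C' * R0) * H182.ne BE (τ⁻¹).val) * R0 := ⟨_, rfl⟩
  have hbd : ∀ (x y z : UT BE I), H182.ne BE x.val ≤ C' * R0 → H182.ne BE z.val ≤ R0 →
      H182.ne BE (x * y * z).val ≤ C * (C * (C' * R0) * H182.ne BE y.val) * R0 := by
    intro x y z hx hz
    have hx0 := ne_nonneg' BE x.val
    have hy0 := ne_nonneg' BE y.val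
    have hz0 := ne_nonneg' BE z.val
    rw [UT.val_mul, UT.val_mul]
    refine (hCm _ _).trans ?_
    refine mul_le_mul ?_ hz hz0 (by positivity)
    refine mul_le_mul_of_nonneg_left ?_ hC0.le
    refine (hCm _ _).trans ?_
    exact mul_le_mul_of_nonneg_right (mul_le_mul_of_nonneg_left hx hC0.le) hy0
  have hst1 : ∀ m, H182.ne BE (h.gU ((G m)⁻¹ * G (m + 1))).val ≤ R1 := by
    intro m
    have e : h.gU ((G m)⁻¹ * G (m + 1)) = (u m)⁻¹ * τ * u (m + 1) := by
      rw [map_mul, map_inv, hGu, hGu, mul_inv_rev, pow_succ]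
      group
    rw [e, hR1]
    exact hbd _ _ _ (huO' m) (huO (m + 1)).le
  have hst2 : ∀ m, H182.ne BE (h.gU ((G m)⁻¹ * G (m + 1))⁻¹).val ≤ R2 := by
    intro m
    have e : h.gU ((G m)⁻¹ * G (m + 1))⁻¹ = (u (m + 1))⁻¹ * τ⁻¹ * u m := by
      rw [map_inv, map_mul, map_inv, hGu, hGu, mul_inv_rev, mul_inv_rev, pow_succ]
      group
    rw [e, hR2]
    exact hbd _ _ _ (huO' (m + 1)) (huO m).le
  obtain ⟨R, hR⟩ : ∃ R : ℝ, R = max (max R1 R2) (na B (fa v) 1 + 1) := ⟨_, rfl⟩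
  have hval : ∀ x : unitary D, (h.gU x).val = jm x := fun x => rfl
  have hmem : ∀ m, ((G m : unitary D) : D) ∈ Wd f B (Sum.inl v) R := by
    intro m
    induction m with
    | zero =>
      have e : ((G 0 : unitary D) : D) = 1 := by simp [G]
      rw [e]
      exact Submonoid.one_mem _
    | succ m ih =>
      have e : ((G (m + 1) : unitary D) : D) = (G m : D) * (((G m)⁻¹ * G (m + 1) : unitary D) : D) := by
        rw [← Submonoid.coe_mul, mul_inv_cancel_left]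
      rw [e]
      refine Submonoid.mul_mem _ ih (Submonoid.subset_closure ?_)
      have hS : ((G m)⁻¹ * G (m + 1)) ∈ SUu f := mul_mem (inv_mem (hG1 m)) (hG1 (m + 1))
      refine ⟨hS, ?_, ?_⟩
      · have h1 := hst1 m
        rw [hval, h.ne] at h1
        rw [hR]
        exact h1.trans ((le_max_left _ _).trans (le_max_left _ _))
      · have h1 := hst2 m
        rw [hval, h.ne] at h1
        rw [gu_inv_eq hS, hR]
        exact h1.trans ((le_max_right _ _).trans (le_max_left _ _))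
  refine ⟨R, ?_, fun m => (G m : D), hmem, ?_⟩
  · rw [hR]
    exact lt_of_lt_of_le (lt_add_one _) (le_max_right _ _)
  by_contra hcon
  push Not at hcon
  choose M hM using hcon
  -- the eigenvector
  have hpow : ∀ m : ℕ, (τ ^ m).val * y0 * ((τ ^ m)⁻¹).val = t ^ m • y0 := by
    intro m
    induction m with
    | zero => simp
    | succ m ih =>
      have e1 : (τ ^ (m + 1)).val = τ.val * (τ ^ m).val := by rw [← UT.val_mul, ← pow_succ']
      have e2 : ((τ ^ (m + 1))⁻¹).val = ((τ ^ m)⁻¹).val * (τ⁻¹).val := by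
        rw [← UT.val_mul, ← mul_inv_rev, ← pow_succ']
      rw [e1, e2]
      calc τ.val * (τ ^ m).val * y0 * (((τ ^ m)⁻¹).val * (τ⁻¹).val)
          = τ.val * ((τ ^ m).val * y0 * ((τ ^ m)⁻¹).val) * (τ⁻¹).val := by simp only [mul_assoc]
        _ = t ^ m • (τ.val * y0 * (τ⁻¹).val) := by
          rw [ih, mul_smul_comm, smul_mul_assoc]
        _ = _ := by rw [hy, smul_smul, pow_succ]
  have hne0 : 0 < H182.ne BE y0 := by
    rcases (ne_nonneg' BE y0).lt_or_eq with h1 | h1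
    · exact h1
    · exfalso
      apply hy0
      apply BE.repr.injective
      rw [map_zero]
      ext i
      have h2 := coord_le_ne BE y0 i
      rw [← h1] at h2
      exact norm_le_zero_iff.mp h2
  obtain ⟨W, hW⟩ : ∃ W : ℝ, W = C * (C * (C' * R0) * H182.ne BE y0) * R0 := ⟨_, rfl⟩
  have hbound : ∀ m : ℕ, ‖t‖ ^ m * H182.ne BE y0 ≤ ∑ i, W * M (B i) := by
    intro m
    obtain ⟨w, hw⟩ : ∃ w, w = (u m)⁻¹.val * y0 * (u m).val := ⟨_, rfl⟩
    have hwb : H182.ne BE w ≤ W := by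
      rw [hw, hW]
      have hy0' := ne_nonneg' BE y0
      refine (hCm _ _).trans ?_
      refine mul_le_mul ?_ (huO m).le (ne_nonneg' BE _) (by positivity)
      refine mul_le_mul_of_nonneg_left ?_ hC0.le
      refine (hCm _ _).trans ?_
      exact mul_le_mul_of_nonneg_right (mul_le_mul_of_nonneg_left (huO' m) hC0.le) hy0'
    have hinv : (h.gU (G m)).val = (τ ^ m).val * (u m).val := by rw [hGu]; rfl
    have hinv' : (h.gU (G m)⁻¹).val = (u m)⁻¹.val * ((τ ^ m)⁻¹).val := by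
      rw [map_inv, hGu, mul_inv_rev]; rfl
    have hu1 : (u m).val * (u m)⁻¹.val = 1 := by
      rw [← UT.val_mul, mul_inv_cancel]; rfl
    have h1 : jm (G m) * w * jm (((G m)⁻¹ : unitary D) : D) = t ^ m • y0 := by
      have e1 : jm (G m) = (τ ^ m).val * (u m).val := hinv
      have e2 : jm (((G m)⁻¹ : unitary D) : D) = (u m)⁻¹.val * ((τ ^ m)⁻¹).val := hinv'
      rw [e1, e2, hw, ← hpow]
      calc (τ ^ m).val * (u m).val * ((u m)⁻¹.val * y0 * (u m).val) * ((u m)⁻¹.val * ((τ ^ m)⁻¹).val)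
          = (τ ^ m).val * ((u m).val * (u m)⁻¹.val) * y0 * ((u m).val * (u m)⁻¹.val) *
            ((τ ^ m)⁻¹).val := by simp only [mul_assoc]
        _ = _ := by rw [hu1, mul_one, mul_one]
    have h2 : H182.ne BE (t ^ m • y0) = ‖t‖ ^ m * H182.ne BE y0 := by rw [ne_smul, norm_pow]
    rw [← h2, ← h1]
    have h3 : jm (G m) * w * jm (((G m)⁻¹ : unitary D) : D) =
        ∑ i, BE.repr w i • jm ((G m : D) * B i * (G m : D)⁻¹) := by
      conv_lhs => rw [← BE.sum_repr w]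
      rw [Finset.mul_sum, Finset.sum_mul]
      refine Finset.sum_congr rfl fun i _ => ?_
      rw [mul_smul_comm, smul_mul_assoc, h.basis, gu_inv_eq (hG1 m), map_mul, map_mul]
      rfl
    rw [h3]
    refine (ne_sum_le BE _ _).trans (Finset.sum_le_sum fun i _ => ?_)
    rw [ne_smul]
    have h4 : ‖BE.repr w i‖ ≤ W := (coord_le_ne BE w i).trans hwb
    have h5 : H182.ne BE (jm ((G m : D) * B i * (G m : D)⁻¹)) ≤ M (B i) := by
      rw [h.ne]
      exact hM (B i) m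
    have h6 := ne_nonneg' BE (jm ((G m : D) * B i * (G m : D)⁻¹))
    exact mul_le_mul h4 h5 h6 ((norm_nonneg _).trans h4)
  obtain ⟨m, hm⟩ := pow_unbounded_of_one_lt ((∑ i, W * M (B i)) / H182.ne BE y0) ht
  rw [div_lt_iff₀ hne0] at hm
  exact absurd (hbound m) (not_le.mpr hm)

/-- **Density of the commutators.** -/
theorem comm_mem_cl [CharZero F] (h : Mdl BE I B a jm)
    (hdense : ∀ (y : F) (ε : ℝ), 0 < ε → ∃ x : k, ‖algebraMap k F x - y‖ < ε)
    (hshift : ∀ S : UT BE I, ∃ Z : UT BE I, (∀ W, Z * W = W * Z) ∧ IsUnit (1 + (Z * S).val))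
    (S T : UT BE I) : S * T * S⁻¹ * T⁻¹ ∈ h.cl f := by
  classical
  have : CharZero D := charZero_of_injective_algebraMap (algebraMap k D).injective
  have hspan : ∀ Y : E, ∃ b : Fin N → F, ∑ j, b j • jm (B j) = Y := fun Y =>
    ⟨fun j => BE.repr Y j, by
      conv_rhs => rw [← BE.sum_repr Y]
      exact Finset.sum_congr rfl fun i _ => by rw [h.basis]⟩
  have hR : ∀ T : UT BE I, IsUnit (1 + T.val) → T ∈ closure (Set.range fun β => h.gU (Two.cay β)) := by
    intro T hT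
    rw [mem_closure_iff_nhds]
    intro O hO
    obtain ⟨b, δ, hδ, hb⟩ := app_nhds BE jm I h.star B h.smul hspan T hT hO
    choose x hx using fun j => hdense (b j) δ hδ
    refine ⟨h.gU (cay (∑ j, x j • B j)), hb _ fun j => ?_, ⟨_, rfl⟩⟩
    rw [B.repr_sum_self]
    exact hx j
  have hcl : ∀ T : UT BE I, T ∈ h.cl f ↔
      T ∈ closure (((SUu f).map h.gU : Subgroup (UT BE I)) : Set (UT BE I)) := fun _ => Iff.rfl
  have hC1 : ∀ S T : UT BE I, IsUnit (1 + S.val) → IsUnit (1 + T.val) →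
      S * T * S⁻¹ * T⁻¹ ∈ h.cl f := by
    intro S T hS hT
    rw [hcl]
    have hcont : Continuous (Function.uncurry fun S T : UT BE I => S * T * S⁻¹ * T⁻¹) := by
      change Continuous fun x : UT BE I × UT BE I => x.1 * x.2 * x.1⁻¹ * x.2⁻¹
      fun_prop
    refine map_mem_closure₂ (f := fun S T : UT BE I => S * T * S⁻¹ * T⁻¹) hcont (hR S hS)
      (hR T hT) ?_
    rintro _ ⟨β, rfl⟩ _ ⟨γ, rfl⟩
    refine ⟨Two.cay β * Two.cay γ * (Two.cay β)⁻¹ * (Two.cay γ)⁻¹, ?_, ?_⟩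
    · have h1 : ∀ x : unitary D, ((x⁻¹ : unitary D) : D) = (x : D)⁻¹ := by
        intro x
        have h2 : ((x⁻¹ : unitary D) : D) * (x : D) = 1 := by
          rw [← Submonoid.coe_mul, inv_mul_cancel, Submonoid.coe_one]
        exact eq_inv_of_mul_eq_one_left h2
      have h3 := gu_comm (f := f) (y := (Two.cay β : D)) (z := (Two.cay γ : D))
        (Unitary.mem_iff.mp (Two.cay β).2).2 (Unitary.mem_iff.mp (Two.cay γ).2).2
      change ((Two.cay β * Two.cay γ * (Two.cay β)⁻¹ * (Two.cay γ)⁻¹ : unitary D) : D) ∈ GU f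
      rw [Submonoid.coe_mul, Submonoid.coe_mul, Submonoid.coe_mul, h1, h1]
      exact h3
    · rw [map_mul, map_mul, map_mul, map_inv, map_inv]
  obtain ⟨Z, hZ, hZu⟩ := hshift S
  obtain ⟨X, hX, hXu⟩ := hshift T
  have h1 := hC1 (Z * S) (X * T) hZu hXu
  rwa [comm_central hX hZ] at h1

end model

end Vale.Agent.P011.H182
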