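import Mathlib

/-!
# Implicit function theorem over a complete field, existence form

`𝕜` is a complete nontrivially normed field (archimedean or not).  If `f : P × X → Y` is strictly
differentiable at `(p₀, x₀)` with `f (p₀, x₀) = 0` and surjective partial derivative in `X`, then for
`p` near `p₀` the equation `f (p, x) = 0` has a solution `x` near `x₀`.
-/

namespace Vale.Agent.P011.H182.Impl

open Topology Filter

variable {𝕜 : Type*} [NontriviallyNormedField 𝕜]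
  {P : Type*} [NormedAddCommGroup P] [NormedSpace 𝕜 P] [CompleteSpace P]
  {X : Type*} [NormedAddCommGroup X] [NormedSpace 𝕜 X] [CompleteSpace X]
  {Y : Type*} [NormedAddCommGroup Y] [NormedSpace 𝕜 Y] [CompleteSpace Y]

/-- existence part of the implicit function theorem; parameters move along any filter -/
theorem exists_zero {f : P × X → Y} {f' : P × X →L[𝕜] Y} {p₀ : P} {x₀ : X}
    (hf : HasStrictFDerivAt f f' (p₀, x₀)) (h0 : f (p₀, x₀) = 0)
    (hs : ∀ y, ∃ x, f' (0, x) = y) {U : Set X} (hU : U ∈ 𝓝 x₀) :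
    ∀ᶠ p in 𝓝 p₀, ∃ x ∈ U, f (p, x) = 0 := by
  have hF : HasStrictFDerivAt (fun t : P × X => (t.1, f t))
      ((ContinuousLinearMap.fst 𝕜 P X).prod f') (p₀, x₀) :=
    hasStrictFDerivAt_fst.prodMk hf
  have hsurj : (((ContinuousLinearMap.fst 𝕜 P X).prod f' : P × X →L[𝕜] P × Y) :
      P × X →ₗ[𝕜] P × Y).range = ⊤ := by
    rw [LinearMap.range_eq_top]
    rintro ⟨a, b⟩
    obtain ⟨x, hx⟩ := hs (b - f' (a, 0))
    refine ⟨(a, x), ?_⟩
    have h1 : f' (a, x) = f' (a, 0) + f' (0, x) := by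
      rw [← map_add]
      simp
    refine Prod.ext rfl ?_
    show f' (a, x) = b
    rw [h1, hx]
    abel
  have hm := hF.map_nhds_eq_of_surj hsurj
  have hT : (Set.univ : Set P) ×ˢ U ∈ 𝓝 (p₀, x₀) := prod_mem_nhds univ_mem hU
  have h2 : (fun t : P × X => (t.1, f t)) '' ((Set.univ : Set P) ×ˢ U) ∈
      𝓝 ((p₀, f (p₀, x₀)) : P × Y) := by
    rw [← hm]
    exact image_mem_map hT
  rw [h0] at h2
  have h3 : Tendsto (fun p : P => (p, (0 : Y))) (𝓝 p₀) (𝓝 (p₀, 0)) :=
    (continuous_id.prodMk continuous_const).tendsto p₀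
  filter_upwards [h3 h2] with p hp
  obtain ⟨⟨a, x⟩, ⟨-, hx⟩, hax⟩ := hp
  have e1 : a = p := (Prod.ext_iff.1 hax).1
  have e2 : f (a, x) = 0 := (Prod.ext_iff.1 hax).2
  subst e1
  exact ⟨x, hx, e2⟩

/-- the same with parameters `g l`, `l` along a filter -/
theorem exists_zero_tendsto {f : P × X → Y} {f' : P × X →L[𝕜] Y} {p₀ : P} {x₀ : X}
    (hf : HasStrictFDerivAt f f' (p₀, x₀)) (h0 : f (p₀, x₀) = 0)
    (hs : ∀ y, ∃ x, f' (0, x) = y) {U : Set X} (hU : U ∈ 𝓝 x₀) {Λ : Type*} {l : Filter Λ}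
    {g : Λ → P} (hg : Tendsto g l (𝓝 p₀)) : ∀ᶠ t in l, ∃ x ∈ U, f (g t, x) = 0 :=
  hg.eventually (exists_zero hf h0 hs hU)

end Vale.Agent.P011.H182.Impl
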