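import Vale.Agent.P011.H182.CocSU
import Vale.Agent.P011.H544.CocD

/-!
Noncentral elements in all levels, by the pigeonhole principle.
-/

open Module NumberField IsDedekindDomain Filter Topology

set_option linter.unusedSectionVars false

namespace Vale.Agent.P011.H182

open Vale.Agent.P011.Arith Vale.Agent.P011.Even Vale.Agent.P011.Two Vale.Agent.P011.One

/-- Finite colourings of bounded sets with small cells. -/
theorem exists_color {k E : Type} [Field k] [SeminormedAddCommGroup E] [ProperSpace E]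
    (a : AbsoluteValue k ℝ) (j : k → E) (hj : ∀ x y, ‖j x - j y‖ = a (x - y)) (R : ℝ) {ε : ℝ}
    (hε : 0 < ε) : ∃ (m : ℕ) (c : k → Fin m), ∀ x y, a x ≤ R → a y ≤ R → c x = c y →
      a (x - y) < ε := by
  classical
  have h1 : TotallyBounded (Metric.closedBall (j 0) R) := (isCompact_closedBall _ _).totallyBounded
  rw [Metric.totallyBounded_iff] at h1
  obtain ⟨t, htf, ht⟩ := h1 (ε / 2) (by positivity)
  have hft : Fintype t := htf.fintype
  let e : t ≃ Fin (Fintype.card t) := Fintype.equivFin t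
  let c : k → Option (Fin (Fintype.card t)) := fun x =>
    if h : ∃ y : t, dist (j x) y < ε / 2 then some (e h.choose) else none
  let e' : Option (Fin (Fintype.card t)) ≃ Fin (Fintype.card t + 1) :=
    (Fintype.equivFin (Option (Fin (Fintype.card t)))).trans (finCongr (by simp))
  refine ⟨_, fun x => e' (c x), fun x y hx hy hxy => ?_⟩
  have hxy' : c x = c y := e'.injective hxy
  have hex : ∀ x, a x ≤ R → ∃ y : t, dist (j x) y < ε / 2 := by
    intro x hx
    have h2 : j x ∈ Metric.closedBall (j 0) R := by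
      rw [Metric.mem_closedBall, dist_eq_norm, hj, sub_zero]
      exact hx
    obtain ⟨y, hy, hy'⟩ := Set.mem_iUnion₂.mp (ht h2)
    exact ⟨⟨y, hy⟩, hy'⟩
  have h3 : ∀ x (h : a x ≤ R), c x = some (e (hex x h).choose) := fun x h => dif_pos (hex x h)
  rw [h3 x hx, h3 y hy, Option.some_inj] at hxy'
  have h4 := e.injective hxy'
  have h5 := (hex x hx).choose_spec
  have h6 := (hex y hy).choose_spec
  rw [h4] at h5
  rw [← hj, ← dist_eq_norm]
  calc dist (j x) (j y) ≤ dist (j x) ((hex y hy).choose : E) + dist (j y) ((hex y hy).choose : E) :=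
        dist_triangle_right _ _ _
    _ < ε / 2 + ε / 2 := add_lt_add h5 h6
    _ = ε := by ring

section

variable {k : Type} [Field k] [NumberField k]

theorem color_fin (w : HeightOneSpectrum (𝓞 k)) (R : ℝ) {ε : ℝ} (hε : 0 < ε) :
    ∃ (m : ℕ) (c : k → Fin m), ∀ x y, fa w x ≤ R → fa w y ≤ R → c x = c y →
      fa w (x - y) < ε :=
  exists_color (fa w) (algebraMap k (w.adicCompletion k)) (fun x y => by
    rw [← map_sub, norm_algebraMap_eq]) R hε

theorem color_inf (φ : k →+* ℂ) (R : ℝ) {ε : ℝ} (hε : 0 < ε) :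
    ∃ (m : ℕ) (c : k → Fin m), ∀ x y, cAbv φ x ≤ R → cAbv φ y ≤ R → c x = c y →
      cAbv φ (x - y) < ε :=
  exists_color (cAbv φ) φ (fun x y => by rw [← map_sub]; rfl) R hε

end

variable {k K D : Type} [Field k] [NumberField k] [Field K] [StarRing K]
  [DivisionRing D] [StarRing D] [Algebra k K] [Algebra k D] [Algebra K D] [IsScalarTower k K D]
  {d : kˣ} {s : K} {N : ℕ} {Ω : Type} [Field Ω] [Algebra K Ω] {n : ℕ}
  {f : D →ₐ[K] Matrix (Fin n) (Fin n) Ω} {B : Basis (Fin N) k D}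

/-- A finite colouring of the bounded elements whose cells are small at finitely many places. -/
theorem color_D (B : Basis (Fin N) k D) {T : Set (HeightOneSpectrum (𝓞 k))} (hT : T.Finite)
    (M : HeightOneSpectrum (𝓞 k) → ℝ) (R : ℝ) {ε : ℝ} (hε : 0 < ε) :
    ∃ (Y : Type) (_ : Finite Y) (c : D → Y), ∀ x y : D, c x = c y →
      (∀ w ∈ T, (∀ i, fa w (B.repr x i) ≤ M w) → (∀ i, fa w (B.repr y i) ≤ M w) →
        na B (fa w) (x - y) ≤ N * ε) ∧
      ∀ φ : k →+* ℂ, (∀ i, ‖φ (B.repr x i)‖ ≤ R) → (∀ i, ‖φ (B.repr y i)‖ ≤ R) →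
        na B (cAbv φ) (x - y) ≤ N * ε := by
  classical
  choose m1 c1 h1 using fun w : HeightOneSpectrum (𝓞 k) => color_fin w (M w) hε
  choose m2 c2 h2 using fun φ : k →+* ℂ => color_inf φ R hε
  have hft : Finite T := hT
  refine ⟨(∀ w : T, Fin N → Fin (m1 w)) × (∀ φ : k →+* ℂ, Fin N → Fin (m2 φ)), inferInstance,
    fun x => (fun w i => c1 w (B.repr x i), fun φ i => c2 φ (B.repr x i)), fun x y hxy => ⟨?_, ?_⟩⟩
  · intro w hw hx hy
    have e := congrFun (congrArg Prod.fst hxy) ⟨w, hw⟩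
    refine na_le_of_coord B (fa w) fun i => ?_
    rw [map_sub, Finsupp.sub_apply]
    exact (h1 w _ _ (hx i) (hy i) (congrFun e i)).le
  · intro φ hx hy
    have e := congrFun (congrArg Prod.snd hxy) φ
    refine na_le_of_coord B (cAbv φ) fun i => ?_
    rw [map_sub, Finsupp.sub_apply]
    exact (h2 φ _ _ (hx i) (hy i) (congrFun e i)).le

/-- **Noncentral quotients of elements of the same colour in all levels.** -/
theorem inf_color (hS : Setting k K D d s) {q : HeightOneSpectrum (𝓞 k)} (hU : Unb f B q)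
    (hcoc : Coc B q (GU f) (GU f)) {X : Type} [Finite X] (κ : D → X)
    {T : Set (HeightOneSpectrum (𝓞 k))} (hT : T.Finite) (hb : Bad B ⊆ T) {ε : ℝ} (hε : 0 < ε) :
    ∃ x y : D, x ∈ GU f ∧ y ∈ GU f ∧ κ x = κ y ∧ x * y⁻¹ ∈ Lv B {q} T ε ∧
      ∃ b : D, b * (x * y⁻¹) ≠ (x * y⁻¹) * b := by
  classical
  have hst : ∀ (c : k) (x : D), star (c • x) = c • star x := fun c x => (Setting.sig hS).map_smul c x
  obtain ⟨R0, hR0, g, hg, z, hz⟩ := hU
  obtain ⟨M, hM, R, hR⟩ := hcoc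
  choose lam hlG hlB hla using fun m => hR (g m) (wd_gu (hg m))
  -- the enlarged set of places
  obtain ⟨T', hT'd⟩ : ∃ T', T' = T ∪ {w | M w ≠ 1} := ⟨_, rfl⟩
  have hT' : T'.Finite := by rw [hT'd]; exact hT.union hM
  have hTT' : T ⊆ T' := by rw [hT'd]; exact Set.subset_union_left
  obtain ⟨C, hC1, hCw, hCφ⟩ := exists_const (B := B) hst hT'
  have hC0 : 0 < C := by linarith
  obtain ⟨M', hM'0, hM'w, hM'φ⟩ : ∃ M' : ℝ, 0 < M' ∧ (∀ w ∈ T', N * M w ≤ M') ∧ N * R ≤ M' := by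
    refine ⟨∑ w ∈ hT'.toFinset, |N * M w| + |N * R| + 1, ?_, fun w hw => ?_, ?_⟩
    · have := Finset.sum_nonneg fun (w : HeightOneSpectrum (𝓞 k)) (_ : w ∈ hT'.toFinset) =>
        abs_nonneg ((N : ℝ) * M w)
      have := abs_nonneg ((N : ℝ) * R)
      linarith
    · have h1 := Finset.single_le_sum (f := fun w => |(N : ℝ) * M w|) (fun w _ => abs_nonneg _)
        (hT'.mem_toFinset.mpr hw)
      have := abs_nonneg ((N : ℝ) * R)
      have := le_abs_self ((N : ℝ) * M w)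
      linarith
    · have := Finset.sum_nonneg fun (w : HeightOneSpectrum (𝓞 k)) (_ : w ∈ hT'.toFinset) =>
        abs_nonneg ((N : ℝ) * M w)
      have := le_abs_self ((N : ℝ) * R)
      linarith
  obtain ⟨ε1, hε1d⟩ : ∃ ε1 : ℝ, ε1 = min ε 1 := ⟨_, rfl⟩
  have hε1 : 0 < ε1 := by rw [hε1d]; exact lt_min hε one_pos
  obtain ⟨ε2, hε2d⟩ : ∃ ε2 : ℝ, ε2 = ε1 / (2 * (C * C * M' * (N + 1))) := ⟨_, rfl⟩
  have hε2 : 0 < ε2 := by rw [hε2d]; positivity
  have hsmall : C * (N * ε2) * (C * M') < ε1 := by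
    have h1 : C * C * M' * (N + 1) * ε2 = ε1 / 2 := by
      rw [hε2d]
      field_simp
    have h2 : 0 < C * C * M' * ε2 := by positivity
    nlinarith
  obtain ⟨Y, hY, col, hcol⟩ := color_D B hT' M R hε2
  -- unboundedness of the conjugates by the `lam m`
  have hunb : ∀ L : ℝ, ∃ m, L < na B (fa q) (lam m * z * (lam m)⁻¹) := by
    intro L
    by_contra hcon
    push Not at hcon
    obtain ⟨C3, hC31, hC3m, hC3s⟩ := na_const B (fa q) hst
    have hC30 : 0 ≤ C3 := by linarith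
    obtain ⟨m, hm⟩ := hz (C3 * (C3 * (C3 * |R|) * |L|) * |R|)
    have hg0 := gu_ne (wd_gu (hg m))
    have hl0 := gu_ne (hlG m)
    have e : g m * z * (g m)⁻¹ =
        star (lam m * (g m)⁻¹) * (lam m * z * (lam m)⁻¹) * (lam m * (g m)⁻¹) := by
      have e1 : star (lam m * (g m)⁻¹) = g m * (lam m)⁻¹ := by
        rw [star_mul, ← gu_inv_eq (gu_inv (wd_gu (hg m))), inv_inv, ← gu_inv_eq (hlG m)]
      rw [e1]
      calc g m * z * (g m)⁻¹ = g m * ((lam m)⁻¹ * lam m) * z * ((lam m)⁻¹ * lam m) * (g m)⁻¹ := by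
            rw [inv_mul_cancel₀ hl0, mul_one, mul_one]
        _ = _ := by simp only [mul_assoc]
    have h1 := (hla m).trans (le_abs_self R)
    have h2 := (hcon m).trans (le_abs_self L)
    have h3 := (hC3s (lam m * (g m)⁻¹)).trans (mul_le_mul_of_nonneg_left h1 hC30)
    have h4 := na_nonneg B (fa q) (lam m * z * (lam m)⁻¹)
    have h5 : na B (fa q) (g m * z * (g m)⁻¹) ≤ C3 * (C3 * (C3 * |R|) * |L|) * |R| := by
      rw [e]
      refine (hC3m _ _).trans (mul_le_mul (mul_le_mul_of_nonneg_left ((hC3m _ _).trans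
        (mul_le_mul (mul_le_mul_of_nonneg_left h3 hC30) h2 h4 (by positivity))) hC30) h1
        (na_nonneg _ _ _) (by positivity))
    linarith
  -- a colour class with unbounded conjugates
  obtain ⟨y0, hy0⟩ : ∃ y0 : X × Y, ∀ L : ℝ, ∃ m, (κ (lam m), col (lam m)) = y0 ∧
      L < na B (fa q) (lam m * z * (lam m)⁻¹) := by
    by_contra hcon
    push Not at hcon
    choose L hL using hcon
    have := Fintype.ofFinite (X × Y)
    obtain ⟨m, hm⟩ := hunb (∑ y, |L y|)
    have h1 := hL _ m rfl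
    have h2 := Finset.single_le_sum (f := fun y : X × Y => |L y|) (fun y _ => abs_nonneg _)
      (Finset.mem_univ (κ (lam m), col (lam m)))
    have h3 := le_abs_self (L (κ (lam m), col (lam m)))
    beta_reduce at h2
    linarith
  obtain ⟨m1, hm1, -⟩ := hy0 0
  obtain ⟨m2, hm2, hm2'⟩ := hy0 (na B (fa q) (lam m1 * z * (lam m1)⁻¹))
  obtain ⟨x, hx⟩ : ∃ x, x = lam m2 := ⟨_, rfl⟩
  obtain ⟨y, hy⟩ : ∃ y, y = lam m1 := ⟨_, rfl⟩
  have hxG : x ∈ GU f := hx ▸ hlG m2
  have hyG : y ∈ GU f := hy ▸ hlG m1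
  have hxB : x ∈ Bnd B {q} M R := hx ▸ hlB m2
  have hyB : y ∈ Bnd B {q} M R := hy ▸ hlB m1
  have hκ : κ x = κ y := by rw [hx, hy]; exact congrArg Prod.fst (hm2.trans hm1.symm)
  have hcl : col x = col y := by rw [hx, hy]; exact congrArg Prod.snd (hm2.trans hm1.symm)
  have hx0 := gu_ne hxG
  have hy0' := gu_ne hyG
  obtain ⟨hc1, hc2⟩ := hcol x y hcl
  refine ⟨x, y, hxG, hyG, hκ, ?_, y * z * y⁻¹, ?_⟩
  · have e : x * y⁻¹ - 1 = (x - y) * star y := by
      rw [sub_mul, hyG.1, gu_inv_eq hyG]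
    have hstep : ∀ a : AbsoluteValue k ℝ, (∀ x y, na B a (x * y) ≤ C * na B a x * na B a y) →
        (∀ x, na B a (star x) ≤ C * na B a x) → na B a y ≤ M' → na B a (x - y) ≤ N * ε2 →
        na B a (x * y⁻¹ - 1) < ε1 := by
      intro a ha1 ha2 h3 h4
      rw [e]
      refine ((ha1 _ _).trans ?_).trans_lt hsmall
      exact mul_le_mul (mul_le_mul_of_nonneg_left h4 hC0.le) ((ha2 y).trans
        (mul_le_mul_of_nonneg_left h3 hC0.le)) (na_nonneg _ _ _) (by positivity)
    have hfin : ∀ w ∈ T', w ∉ ({q} : Set (HeightOneSpectrum (𝓞 k))) →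
        na B (fa w) (x * y⁻¹ - 1) < ε1 := fun w hw hwq =>
      hstep (fa w) (hCw w hw).1 (hCw w hw).2.1
        ((na_le_of_coord B (fa w) (hyB.2.1 w hwq)).trans (hM'w w hw))
        (hc1 w hw (hxB.2.1 w hwq) (hyB.2.1 w hwq))
    have hlv : x * y⁻¹ ∈ Lv B {q} T' ε1 := by
      refine ⟨hfin, fun w hw hwq => ?_, fun φ => ?_⟩
      · have hgd : Gd B (fa w) := by
          by_contra hcon
          exact hw (hTT' (hb hcon))
        have hMw : M w = 1 := by
          by_contra hcon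
          apply hw
          rw [hT'd]
          exact Or.inr hcon
        have hI : ∀ g ∈ Bnd B {q} M R, Ig B (fa w) g := by
          intro g hg i
          have := hg.2.1 w hwq i
          rwa [hMw] at this
        rw [gu_inv_eq hyG]
        exact hgd.mul' (hI x hxB) (hgd.star hst (hI y hyB))
      · exact hstep (cAbv φ) (hCφ φ).1 (hCφ φ).2.1
          ((na_le_of_coord B (cAbv φ) (hyB.2.2 φ)).trans hM'φ)
          (hc2 φ (hxB.2.2 φ) (hyB.2.2 φ))
    exact lv_mono hTT' hb (by rw [hε1d]; exact min_le_left _ _) (by rw [hε1d]; exact min_le_right _ _)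
      hlv
  · intro hcomm
    have h1 : (x * y⁻¹) * (y * z * y⁻¹) * (x * y⁻¹)⁻¹ = y * z * y⁻¹ := by
      rw [← hcomm, mul_assoc, mul_inv_cancel₀ (mul_ne_zero hx0 (inv_ne_zero hy0')), mul_one]
    have h2 : (x * y⁻¹) * (y * z * y⁻¹) * (x * y⁻¹)⁻¹ = x * z * x⁻¹ := by
      rw [mul_inv_rev, inv_inv]
      calc x * y⁻¹ * (y * z * y⁻¹) * (y * x⁻¹) = x * (y⁻¹ * y) * z * (y⁻¹ * y) * x⁻¹ := by
            simp only [mul_assoc]
        _ = _ := by rw [inv_mul_cancel₀ hy0', mul_one, mul_one]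
    rw [h2] at h1
    rw [← hx, ← hy, h1] at hm2'
    exact lt_irrefl _ hm2'

/-- Cocompactness over number fields. -/
theorem coc_all (hS : Setting k K D d s) (hn : 0 < n) (hdeg : finrank K D = n ^ 2)
    (f : D →ₐ[K] Matrix (Fin n) (Fin n) Ω) (B : Basis (Fin N) k D)
    (v : HeightOneSpectrum (𝓞 k)) : Coc B v (GU f) (GU f) := by
  refine coc_su hS hn hdeg f B v ?_
  obtain ⟨M, hM, -, R, h⟩ := H544.coc_D B hS v
  refine ⟨M, hM, R, fun a ha => ?_⟩
  obtain ⟨g, h1, h2, h3, h4⟩ := h a ha.1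
  exact ⟨g, h1, ⟨h1, fun w hw => h2 w hw, h3⟩, h4⟩

end Vale.Agent.P011.H182
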