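import Vale.Agent.P011.H182.Word

/-!
Levels: elements close to one at finitely many places and at infinity, integral elsewhere, without
condition at some places.
-/

open Module NumberField IsDedekindDomain Filter Topology

set_option linter.unusedSectionVars false

namespace Vale.Agent.P011.H182

open Vale.Agent.P011.Arith Vale.Agent.P011.Even Vale.Agent.P011.Two Vale.Agent.P011.One

/-- The absolute value attached to a complex embedding. -/
noncomputable def cAbv {k : Type} [Field k] (φ : k →+* ℂ) : AbsoluteValue k ℝ where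
  toFun x := ‖φ x‖
  map_mul' x y := by rw [map_mul, norm_mul]
  nonneg' x := norm_nonneg _
  eq_zero' x := by
    change ‖φ x‖ = 0 ↔ x = 0
    rw [norm_eq_zero, map_eq_zero]
  add_le' x y := by
    change ‖φ (x + y)‖ ≤ ‖φ x‖ + ‖φ y‖
    rw [map_add]
    exact norm_add_le _ _

theorem cAbv_apply {k : Type} [Field k] (φ : k →+* ℂ) (x : k) : cAbv φ x = ‖φ x‖ := rfl

variable {k D : Type} [Field k] [NumberField k] [DivisionRing D] [StarRing D] [Algebra k D]
  {N : ℕ} (B : Basis (Fin N) k D)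

/-- The absolute value of a finite place. -/
noncomputable abbrev fa (w : HeightOneSpectrum (𝓞 k)) : AbsoluteValue k ℝ := plAbv (Sum.inl w)

/-- The level given by `T` and `ε`, without conditions at the places in `S`. -/
def Lv (S T : Set (HeightOneSpectrum (𝓞 k))) (ε : ℝ) : Set D :=
  {g | (∀ w ∈ T, w ∉ S → na B (fa w) (g - 1) < ε) ∧ (∀ w ∉ T, w ∉ S → Ig B (fa w) g) ∧
    ∀ φ : k →+* ℂ, na B (cAbv φ) (g - 1) < ε}

/-- The bad places. -/
def Bad : Set (HeightOneSpectrum (𝓞 k)) := {v | ¬ Gd B (fa v)}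

theorem finite_Bad : (Bad B).Finite := finite_bad B

/-- Bounded unitary elements, without condition at `v`. -/
def Bnd (S : Set (HeightOneSpectrum (𝓞 k))) (M : HeightOneSpectrum (𝓞 k) → ℝ) (R : ℝ) : Set D :=
  {g | g * star g = 1 ∧ (∀ w ∉ S, ∀ i, fa w (B.repr g i) ≤ M w) ∧
    ∀ φ : k →+* ℂ, ∀ i, ‖φ (B.repr g i)‖ ≤ R}

variable {B}

theorem lv_mono_S {S S' T : Set (HeightOneSpectrum (𝓞 k))} {ε : ℝ} (h : S ⊆ S') :
    Lv B S T ε ⊆ Lv B S' T ε := fun _ hg =>
  ⟨fun w hw hw' => hg.1 w hw fun h' => hw' (h h'), fun w hw hw' => hg.2.1 w hw fun h' => hw' (h h'),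
    hg.2.2⟩

theorem lv_mono {S T T' : Set (HeightOneSpectrum (𝓞 k))} {ε ε' : ℝ} (hT : T ⊆ T')
    (hb : Bad B ⊆ T) (hε : ε' ≤ ε) (hε1 : ε' ≤ 1) : Lv B S T' ε' ⊆ Lv B S T ε := by
  rintro g ⟨h1, h2, h3⟩
  refine ⟨fun w hw hw' => (h1 w (hT hw) hw').trans_le hε, fun w hw hw' => ?_,
    fun φ => (h3 φ).trans_le hε⟩
  by_cases hw2 : w ∈ T'
  · have hgd : Gd B (fa w) := by
      by_contra hcon
      exact hw (hb hcon)
    exact hgd.of_near (((h1 w hw2 hw').le).trans hε1)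
  · exact h2 w hw2 hw'

theorem lv_one {S T : Set (HeightOneSpectrum (𝓞 k))} {ε : ℝ} (hε : 0 < ε)
    (hb : Bad B ⊆ T) : (1 : D) ∈ Lv B S T ε := by
  refine ⟨fun w _ _ => ?_, fun w hw _ => ?_, fun φ => ?_⟩
  · rw [sub_self, na_zero]; exact hε
  · have hgd : Gd B (fa w) := by
      by_contra hcon
      exact hw (hb hcon)
    exact hgd.one
  · rw [sub_self, na_zero]; exact hε

/-- A common constant for finitely many places and the places at infinity. -/
theorem exists_const (hst : ∀ (c : k) (x : D), star (c • x) = c • star x)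
    {T : Set (HeightOneSpectrum (𝓞 k))} (hT : T.Finite) : ∃ C : ℝ, 1 ≤ C ∧
      (∀ w ∈ T, (∀ x y, na B (fa w) (x * y) ≤ C * na B (fa w) x * na B (fa w) y) ∧
        (∀ x, na B (fa w) (star x) ≤ C * na B (fa w) x) ∧ na B (fa w) 1 ≤ C) ∧
      ∀ φ : k →+* ℂ, (∀ x y, na B (cAbv φ) (x * y) ≤ C * na B (cAbv φ) x * na B (cAbv φ) y) ∧
        (∀ x, na B (cAbv φ) (star x) ≤ C * na B (cAbv φ) x) ∧ na B (cAbv φ) 1 ≤ C := by
  classical
  choose C1 h1 h2 h3 using fun w : HeightOneSpectrum (𝓞 k) => na_const B (fa w) hst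
  choose C2 g1 g2 g3 using fun φ : k →+* ℂ => na_const B (cAbv φ) hst
  obtain ⟨C, hCd⟩ : ∃ C : ℝ, C = ∑ w ∈ hT.toFinset, (C1 w + na B (fa w) 1) +
      ∑ φ : k →+* ℂ, (C2 φ + na B (cAbv φ) 1) + 1 := ⟨_, rfl⟩
  have p1 : ∀ w, 0 ≤ C1 w + na B (fa w) 1 := fun w =>
    add_nonneg (zero_le_one.trans (h1 w)) (na_nonneg _ _ _)
  have p2 : ∀ φ, 0 ≤ C2 φ + na B (cAbv φ) 1 := fun φ =>
    add_nonneg (zero_le_one.trans (g1 φ)) (na_nonneg _ _ _)
  have s1 : 0 ≤ ∑ w ∈ hT.toFinset, (C1 w + na B (fa w) 1) := Finset.sum_nonneg fun w _ => p1 w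
  have s2 : 0 ≤ ∑ φ : k →+* ℂ, (C2 φ + na B (cAbv φ) 1) := Finset.sum_nonneg fun φ _ => p2 φ
  have hC1 : 1 ≤ C := by rw [hCd]; linarith
  have q1 : ∀ w ∈ T, C1 w + na B (fa w) 1 ≤ C := by
    intro w hw
    have := Finset.single_le_sum (f := fun w => C1 w + na B (fa w) 1) (fun w _ => p1 w)
      (hT.mem_toFinset.mpr hw)
    rw [hCd]
    linarith
  have q2 : ∀ φ, C2 φ + na B (cAbv φ) 1 ≤ C := by
    intro φ
    have := Finset.single_le_sum (f := fun φ => C2 φ + na B (cAbv φ) 1) (fun φ _ => p2 φ)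
      (Finset.mem_univ φ)
    rw [hCd]
    linarith
  refine ⟨C, hC1, fun w hw => ⟨fun x y => ?_, fun x => ?_, ?_⟩,
    fun φ => ⟨fun x y => ?_, fun x => ?_, ?_⟩⟩
  · refine (h2 w x y).trans ?_
    have := q1 w hw
    have := na_nonneg B (fa w) 1
    exact mul_le_mul_of_nonneg_right (mul_le_mul_of_nonneg_right (by linarith) (na_nonneg _ _ _))
      (na_nonneg _ _ _)
  · refine (h3 w x).trans ?_
    have := q1 w hw
    have := na_nonneg B (fa w) 1
    exact mul_le_mul_of_nonneg_right (by linarith) (na_nonneg _ _ _)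
  · have := q1 w hw
    have := h1 w
    linarith
  · refine (g2 φ x y).trans ?_
    have := q2 φ
    have := na_nonneg B (cAbv φ) 1
    exact mul_le_mul_of_nonneg_right (mul_le_mul_of_nonneg_right (by linarith) (na_nonneg _ _ _))
      (na_nonneg _ _ _)
  · refine (g3 φ x).trans ?_
    have := q2 φ
    have := na_nonneg B (cAbv φ) 1
    exact mul_le_mul_of_nonneg_right (by linarith) (na_nonneg _ _ _)
  · have := q2 φ
    have := g1 φ
    linarith

theorem na_conj_le {a : AbsoluteValue k ℝ} {C M r : ℝ} (hC : 1 ≤ C)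
    (hm : ∀ x y, na B a (x * y) ≤ C * na B a x * na B a y)
    (hs : ∀ x, na B a (star x) ≤ C * na B a x) {g x : D} (hg : g * star g = 1)
    (hgM : na B a g ≤ M) (hx : na B a (x - 1) ≤ r) :
    na B a (g * x * g⁻¹ - 1) ≤ C * C * C * M * M * r := by
  have hC0 : 0 ≤ C := by linarith
  have hg0 : g ≠ 0 := left_ne_zero_of_mul_eq_one hg
  have hgi : g⁻¹ = star g := inv_eq_of_mul_eq_one_right hg
  have e : g * x * g⁻¹ - 1 = g * (x - 1) * star g := by
    rw [mul_sub, sub_mul, mul_one, ← hgi, mul_inv_cancel₀ hg0]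
  have h1 := na_nonneg B a g
  have h2 := na_nonneg B a (x - 1)
  have hM : 0 ≤ M := h1.trans hgM
  have hr : 0 ≤ r := h2.trans hx
  rw [e]
  calc na B a (g * (x - 1) * star g) ≤ C * na B a (g * (x - 1)) * na B a (star g) := hm _ _
    _ ≤ C * (C * na B a g * na B a (x - 1)) * (C * na B a g) :=
        mul_le_mul (mul_le_mul_of_nonneg_left (hm _ _) hC0) (hs _) (na_nonneg _ _ _)
          (mul_nonneg hC0 (mul_nonneg (mul_nonneg hC0 h1) h2))
    _ ≤ C * (C * M * r) * (C * M) := by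
        refine mul_le_mul ?_ (mul_le_mul_of_nonneg_left hgM hC0) (mul_nonneg hC0 h1)
          (mul_nonneg hC0 (mul_nonneg (mul_nonneg hC0 hM) hr))
        refine mul_le_mul_of_nonneg_left ?_ hC0
        exact mul_le_mul (mul_le_mul_of_nonneg_left hgM hC0) hx h2 (mul_nonneg hC0 hM)
    _ = _ := by ring

/-- **Uniform conjugation of levels by bounded elements.** -/
theorem conj_level (hst : ∀ (c : k) (x : D), star (c • x) = c • star x)
    {S : Set (HeightOneSpectrum (𝓞 k))} {M : HeightOneSpectrum (𝓞 k) → ℝ}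
    (hM : {w | M w ≠ 1}.Finite) (R : ℝ)
    {T : Set (HeightOneSpectrum (𝓞 k))} (hT : T.Finite) (hb : Bad B ⊆ T) {ε : ℝ} (hε : 0 < ε) :
    ∃ T' : Set (HeightOneSpectrum (𝓞 k)), T'.Finite ∧ T ⊆ T' ∧ ∃ ε' : ℝ, 0 < ε' ∧ ε' ≤ ε ∧ ε' ≤ 1 ∧
      ∀ g ∈ Bnd B S M R, ∀ x ∈ Lv B S T' ε', g * x * g⁻¹ ∈ Lv B S T ε := by
  classical
  obtain ⟨T', hT'd⟩ : ∃ T', T' = T ∪ {w | M w ≠ 1} := ⟨_, rfl⟩
  have hT' : T'.Finite := by rw [hT'd]; exact hT.union hM
  obtain ⟨C, hC1, hCw, hCφ⟩ := exists_const (B := B) hst hT'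
  have hC0 : 0 < C := by linarith
  -- a bound for all sizes
  obtain ⟨M', hM'0, hM'w, hM'φ⟩ : ∃ M' : ℝ, 0 < M' ∧ (∀ w ∈ T', N * M w ≤ M') ∧ N * R ≤ M' := by
    refine ⟨∑ w ∈ hT'.toFinset, |N * M w| + |N * R| + 1, ?_, fun w hw => ?_, ?_⟩
    · have := Finset.sum_nonneg fun (w : HeightOneSpectrum (𝓞 k)) (_ : w ∈ hT'.toFinset) =>
        abs_nonneg ((N : ℝ) * M w)
      have := abs_nonneg ((N : ℝ) * R)
      linarith
    · have h1 := Finset.single_le_sum (f := fun w => |(N : ℝ) * M w|) (fun w _ => abs_nonneg _)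
        (hT'.mem_toFinset.mpr hw)
      have := abs_nonneg ((N : ℝ) * R)
      have := le_abs_self ((N : ℝ) * M w)
      linarith
    · have := Finset.sum_nonneg fun (w : HeightOneSpectrum (𝓞 k)) (_ : w ∈ hT'.toFinset) =>
        abs_nonneg ((N : ℝ) * M w)
      have := le_abs_self ((N : ℝ) * R)
      linarith
  obtain ⟨K0, hK0d⟩ : ∃ K0 : ℝ, K0 = C * C * C * M' * M' := ⟨_, rfl⟩
  have hK0 : 0 < K0 := by rw [hK0d]; positivity
  obtain ⟨ε1, hε1d⟩ : ∃ ε1 : ℝ, ε1 = min ε 1 := ⟨_, rfl⟩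
  have hε1 : 0 < ε1 := by rw [hε1d]; exact lt_min hε one_pos
  refine ⟨T', hT', by rw [hT'd]; exact Set.subset_union_left, min ε1 (ε1 / (2 * K0)), ?_, ?_, ?_,
    ?_⟩
  · exact lt_min hε1 (by positivity)
  · exact (min_le_left _ _).trans (by rw [hε1d]; exact min_le_left _ _)
  · exact (min_le_left _ _).trans (by rw [hε1d]; exact min_le_right _ _)
  rintro g ⟨hg1, hgM, hgR⟩ x ⟨hx1, hx2, hx3⟩
  have hsm : K0 * (min ε1 (ε1 / (2 * K0))) < ε1 := by
    have h1 : K0 * (min ε1 (ε1 / (2 * K0))) ≤ K0 * (ε1 / (2 * K0)) :=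
      mul_le_mul_of_nonneg_left (min_le_right _ _) hK0.le
    have h2 : K0 * (ε1 / (2 * K0)) = ε1 / 2 := by field_simp
    linarith
  have hT'1 : ∀ w ∈ T', w ∉ S → na B (fa w) (g * x * g⁻¹ - 1) < ε1 := by
    intro w hw hwS
    have h1 : na B (fa w) g ≤ M' := (na_le_of_coord B (fa w) (hgM w hwS)).trans (hM'w w hw)
    have h2 := na_conj_le hC1 (hCw w hw).1 (hCw w hw).2.1 hg1 h1 (hx1 w hw hwS).le
    refine h2.trans_lt ?_
    rw [← hK0d]
    exact hsm
  refine ⟨fun w hw hwS => ?_, fun w hw hwS => ?_, fun φ => ?_⟩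
  · exact (hT'1 w (by rw [hT'd]; exact Or.inl hw) hwS).trans_le (by rw [hε1d]; exact min_le_left _ _)
  · have hgd : Gd B (fa w) := by
      by_contra hcon
      exact hw (hb hcon)
    by_cases hw' : w ∈ T'
    · exact hgd.of_near (((hT'1 w hw' hwS).le).trans (by rw [hε1d]; exact min_le_right _ _))
    · have hMw : M w = 1 := by
        by_contra hcon
        apply hw'
        rw [hT'd]
        exact Or.inr hcon
      have hgI : Ig B (fa w) g := fun i => by
        have := hgM w hwS i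
        rwa [hMw] at this
      have hgi : g⁻¹ = star g := inv_eq_of_mul_eq_one_right hg1
      rw [hgi]
      exact hgd.mul' (hgd.mul' hgI (hx2 w hw' hwS)) (hgd.star hst hgI)
  · have h1 : na B (cAbv φ) g ≤ M' := (na_le_of_coord B (cAbv φ) (hgR φ)).trans hM'φ
    have h2 := na_conj_le hC1 (hCφ φ).1 (hCφ φ).2.1 hg1 h1 (hx3 φ).le
    refine (h2.trans_lt ?_).trans_le (show ε1 ≤ ε by rw [hε1d]; exact min_le_left _ _)
    rw [← hK0d]
    exact hsm

/-- A single unitary element is bounded. -/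
theorem exists_bnd (S : Set (HeightOneSpectrum (𝓞 k))) {g : D} (hg : g * star g = 1) :
    ∃ M : HeightOneSpectrum (𝓞 k) → ℝ, {w | M w ≠ 1}.Finite ∧ ∃ R : ℝ, g ∈ Bnd B S M R := by
  classical
  obtain ⟨M, hMd⟩ : ∃ M : HeightOneSpectrum (𝓞 k) → ℝ, M = fun w =>
      if Ig B (fa w) g then 1 else na B (fa w) g := ⟨_, rfl⟩
  refine ⟨M, ?_, ∑ φ : k →+* ℂ, na B (cAbv φ) g, hg, fun w _ i => ?_, fun φ i => ?_⟩
  · refine (Set.finite_iUnion fun i => finite_big (B.repr g i)).subset fun w hw => ?_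
    have h1 : ¬ Ig B (fa w) g := by
      intro h
      apply hw
      change M w = 1
      rw [hMd]
      exact if_pos h
    simp only [Ig, not_forall] at h1
    obtain ⟨i, hi⟩ := h1
    exact Set.mem_iUnion.mpr ⟨i, hi⟩
  · rw [hMd]
    beta_reduce
    split_ifs with h
    · exact h i
    · exact coord_le_na B (fa w) g i
  · refine (coord_le_na B (cAbv φ) g i).trans ?_
    exact Finset.single_le_sum (f := fun φ : k →+* ℂ => na B (cAbv φ) g)
      (fun φ _ => na_nonneg _ _ _) (Finset.mem_univ φ)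

/-- Products of elements of a level. -/
theorem mul_level (hst : ∀ (c : k) (x : D), star (c • x) = c • star x)
    {S T : Set (HeightOneSpectrum (𝓞 k))} (hT : T.Finite) (hb : Bad B ⊆ T) {ε : ℝ} (hε : 0 < ε) :
    ∃ ε' : ℝ, 0 < ε' ∧ ε' ≤ ε ∧ ε' ≤ 1 ∧
      (∀ x ∈ Lv B S T ε', ∀ y ∈ Lv B S T ε', x * y ∈ Lv B S T ε) ∧
      ∀ x ∈ Lv B S T ε', star x ∈ Lv B S T ε := by
  classical
  obtain ⟨C, hC1, hCw, hCφ⟩ := exists_const (B := B) hst hT
  have hC0 : 0 < C := by linarith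
  obtain ⟨ε1, hε1d⟩ : ∃ ε1 : ℝ, ε1 = min ε 1 := ⟨_, rfl⟩
  have hε1 : 0 < ε1 := by rw [hε1d]; exact lt_min hε one_pos
  have hε1' : ε1 ≤ ε := by rw [hε1d]; exact min_le_left _ _
  have hε1'' : ε1 ≤ 1 := by rw [hε1d]; exact min_le_right _ _
  obtain ⟨ε', hε'd⟩ : ∃ ε' : ℝ, ε' = ε1 / (4 * C) := ⟨_, rfl⟩
  have hε' : 0 < ε' := by rw [hε'd]; positivity
  have hCε : C * ε' = ε1 / 4 := by rw [hε'd]; field_simp
  have hε'1 : ε' ≤ ε1 / 4 := by nlinarith
  have key : ∀ a : AbsoluteValue k ℝ, (∀ x y, na B a (x * y) ≤ C * na B a x * na B a y) →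
      ∀ x y : D, na B a (x - 1) < ε' → na B a (y - 1) < ε' → na B a (x * y - 1) < ε := by
    intro a ha x y hx hy
    have e : x * y - 1 = (x - 1) * (y - 1) + (x - 1) + (y - 1) := by noncomm_ring
    rw [e]
    have h1 := na_add_le B a ((x - 1) * (y - 1) + (x - 1)) (y - 1)
    have h2 := na_add_le B a ((x - 1) * (y - 1)) (x - 1)
    have h3 := ha (x - 1) (y - 1)
    have h4 := na_nonneg B a (x - 1)
    have h5 := na_nonneg B a (y - 1)
    have h6 : C * na B a (x - 1) * na B a (y - 1) ≤ C * ε' * 1 := by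
      refine mul_le_mul (mul_le_mul_of_nonneg_left hx.le hC0.le) ?_ h5 (by positivity)
      linarith
    linarith
  refine ⟨ε', hε', by linarith, by linarith, ?_, ?_⟩
  · rintro x ⟨hx1, hx2, hx3⟩ y ⟨hy1, hy2, hy3⟩
    refine ⟨fun w hw hwS => key _ (hCw w hw).1 x y (hx1 w hw hwS) (hy1 w hw hwS),
      fun w hw hwS => ?_, fun φ => key _ (hCφ φ).1 x y (hx3 φ) (hy3 φ)⟩
    have hgd : Gd B (fa w) := by
      by_contra hcon
      exact hw (hb hcon)
    exact hgd.mul' (hx2 w hw hwS) (hy2 w hw hwS)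
  · rintro x ⟨hx1, hx2, hx3⟩
    have key2 : ∀ a : AbsoluteValue k ℝ, (∀ x, na B a (star x) ≤ C * na B a x) →
        na B a (x - 1) < ε' → na B a (star x - 1) < ε := by
      intro a ha hx
      have e : star x - 1 = star (x - 1) := by rw [star_sub, star_one]
      rw [e]
      refine (ha _).trans_lt ?_
      have := mul_lt_mul_of_pos_left hx hC0
      linarith
    refine ⟨fun w hw hwS => key2 _ (hCw w hw).2.1 (hx1 w hw hwS), fun w hw hwS => ?_,
      fun φ => key2 _ (hCφ φ).2.1 (hx3 φ)⟩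
    have hgd : Gd B (fa w) := by
      by_contra hcon
      exact hw (hb hcon)
    exact hgd.star hst (hx2 w hw hwS)

end Vale.Agent.P011.H182
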