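import Vale.Agent.P011.H182.Dens
import Vale.Agent.P011.One.LTns2
import Vale.Agent.P011.H487.HermMat
import Vale.Agent.P011.H182.Infin

/-!
Approximation and unboundedness at the nonsplit finite places.
-/

open Module NumberField IsDedekindDomain Filter Topology Matrix TensorProduct
open Vale.Agent.P011.T2 (QuadL HF)

set_option linter.unusedSectionVars false

namespace Vale.Agent.P011.H182

open Vale.Agent.P011.Arith Vale.Agent.P011.Even Vale.Agent.P011.Two Vale.Agent.P011.One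
  Vale.Agent.P011.One.Ns

section eig

variable {L : Type} [Field L] [StarRing L] [CharZero L] {n : ℕ} {H : Matrix (Fin n) (Fin n) L}

/-- A unitary element with an eigenvector for the conjugation. -/
theorem exists_eig (hH : Hᴴ = H) {z z' : Fin n → L} (h00 : bh H z z = 0)
    (h11 : bh H z' z' = 0) (h01 : bh H z z' = 1) {t : L} (ht0 : t ≠ 0) (ht : star t = t) :
    ∃ T ∈ UU H, (T : Matrix (Fin n) (Fin n) L).det = 1 ∧ ∃ y0 : Matrix (Fin n) (Fin n) L,
      y0 ≠ 0 ∧ (T : Matrix (Fin n) (Fin n) L) * y0 *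
        ((T⁻¹ : (Matrix (Fin n) (Fin n) L)ˣ) : Matrix (Fin n) (Fin n) L) = t ^ 2 • y0 := by
  have h10 : bh H z' z = 1 := by rw [← star_bh hH, h01, star_one]
  let R : Matrix (Fin 2) (Fin n) L := Matrix.of ![z, z']
  let C : Matrix (Fin n) (Fin 2) L := (Matrix.of ![H *ᵥ star z', H *ᵥ star z])ᵀ
  have hR0 : ∀ j, R 0 j = z j := fun j => rfl
  have hR1 : ∀ j, R 1 j = z' j := fun j => rfl
  have hC0 : ∀ i, C i 0 = (H *ᵥ star z') i := fun i => rfl
  have hC1 : ∀ i, C i 1 = (H *ᵥ star z) i := fun i => rfl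
  have hRC : R * C = 1 := by
    ext i j
    rw [Matrix.mul_apply]
    fin_cases i <;> fin_cases j
    · exact h01
    · exact h00
    · exact h11
    · exact h10
  have hJs : (JJ L)ᴴ = JJ L := by
    ext i j
    fin_cases i <;> fin_cases j <;> simp [JJ, Matrix.conjTranspose_apply]
  have hJ : C * JJ L = H * Rᴴ := by
    ext i j
    have e1 : (H * Rᴴ) i 0 = (H *ᵥ star z) i := by
      rw [Matrix.mul_apply]
      rfl
    have e2 : (H * Rᴴ) i 1 = (H *ᵥ star z') i := by
      rw [Matrix.mul_apply]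
      rfl
    fin_cases j
    · change (C * JJ L) i 0 = (H * Rᴴ) i 0
      rw [e1, Matrix.mul_apply, Fin.sum_univ_two, hC0, hC1]
      simp [JJ]
    · change (C * JJ L) i 1 = (H * Rᴴ) i 1
      rw [e2, Matrix.mul_apply, Fin.sum_univ_two, hC0, hC1]
      simp [JJ]
  let em := emb C R hRC
  let M : (Matrix (Fin 2) (Fin 2) L)ˣ := D2 t ht0
  have hM : (M : Matrix (Fin 2) (Fin 2) L) * JJ L * (M : Matrix (Fin 2) (Fin 2) L)ᴴ = JJ L :=
    D2_mem ht0 ht
  let T : (Matrix (Fin n) (Fin n) L)ˣ := Units.map em M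
  have hT : (T : Matrix (Fin n) (Fin n) L) = 1 + C * ((M : Matrix (Fin 2) (Fin 2) L) - 1) * R := rfl
  have hT' : ((T⁻¹ : (Matrix (Fin n) (Fin n) L)ˣ) : Matrix (Fin n) (Fin n) L) =
      1 + C * (((M⁻¹ : (Matrix (Fin 2) (Fin 2) L)ˣ) : Matrix (Fin 2) (Fin 2) L) - 1) * R := rfl
  refine ⟨T, ?_, ?_, C * (!![0, 1; 0, 0] : Matrix (Fin 2) (Fin 2) L) * R, ?_, ?_⟩
  · exact emb_unitary hH hRC hJ hJs hM
  · rw [hT, Matrix.mul_assoc, Matrix.det_one_add_mul_comm, Matrix.mul_assoc, hRC, Matrix.mul_one,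
      add_sub_cancel]
    change (!![t, 0; 0, t⁻¹] : Matrix (Fin 2) (Fin 2) L).det = 1
    rw [Matrix.det_fin_two_of, mul_inv_cancel₀ ht0]
    ring
  · intro h0
    have h1 : R * (C * (!![0, 1; 0, 0] : Matrix (Fin 2) (Fin 2) L) * R) * C =
        (!![0, 1; 0, 0] : Matrix (Fin 2) (Fin 2) L) := by
      calc R * (C * (!![0, 1; 0, 0] : Matrix (Fin 2) (Fin 2) L) * R) * C =
          (R * C) * (!![0, 1; 0, 0] : Matrix (Fin 2) (Fin 2) L) * (R * C) := by
            simp only [Matrix.mul_assoc]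
        _ = _ := by rw [hRC, Matrix.one_mul, Matrix.mul_one]
    rw [h0, Matrix.mul_zero, Matrix.zero_mul] at h1
    have h2 := congrFun (congrFun h1 0) 1
    simp at h2
  · have key : ∀ X Y Z : Matrix (Fin 2) (Fin 2) L, (1 + C * (X - 1) * R) * (C * Y * R) *
        (1 + C * (Z - 1) * R) = C * (X * Y * Z) * R := by
      intro X Y Z
      have e1 : (1 + C * (X - 1) * R) * (C * Y * R) = C * (X * Y) * R := by
        have : C * (X - 1) * R * (C * Y * R) = C * ((X - 1) * Y) * R := by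
          calc C * (X - 1) * R * (C * Y * R) = C * (X - 1) * (R * C) * Y * R := by
                simp only [Matrix.mul_assoc]
            _ = _ := by rw [hRC, Matrix.mul_one]; simp only [Matrix.mul_assoc]
        rw [Matrix.add_mul, Matrix.one_mul, this, Matrix.sub_mul, Matrix.one_mul, Matrix.mul_sub,
          Matrix.sub_mul]
        abel
      have e2 : C * (X * Y) * R * (1 + C * (Z - 1) * R) = C * (X * Y * Z) * R := by
        have : C * (X * Y) * R * (C * (Z - 1) * R) = C * (X * Y * (Z - 1)) * R := by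
          calc C * (X * Y) * R * (C * (Z - 1) * R) = C * (X * Y) * (R * C) * (Z - 1) * R := by
                simp only [Matrix.mul_assoc]
            _ = _ := by rw [hRC, Matrix.mul_one]; simp only [Matrix.mul_assoc]
        rw [Matrix.mul_add, Matrix.mul_one, this, Matrix.mul_sub (X * Y), Matrix.mul_one,
          Matrix.mul_sub, Matrix.sub_mul]
        abel
      rw [e1, e2]
    rw [hT, hT', key]
    have h3 : (M : Matrix (Fin 2) (Fin 2) L) * !![0, 1; 0, 0] *
        ((M⁻¹ : (Matrix (Fin 2) (Fin 2) L)ˣ) : Matrix (Fin 2) (Fin 2) L) =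
        t ^ 2 • (!![0, 1; 0, 0] : Matrix (Fin 2) (Fin 2) L) := by
      change (!![t, 0; 0, t⁻¹] : Matrix (Fin 2) (Fin 2) L) * !![0, 1; 0, 0] * !![t⁻¹, 0; 0, t] = _
      ext i j
      fin_cases i <;> fin_cases j <;> simp [Matrix.mul_apply, Fin.sum_univ_two, sq]
    rw [h3, Matrix.mul_smul, Matrix.smul_mul]

end eig

section final

variable {k K D : Type} [Field k] [NumberField k] [Field K] [StarRing K]
    [DivisionRing D] [StarRing D] [Algebra k K] [Algebra k D] [Algebra K D] [IsScalarTower k K D]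
    {d : kˣ} {s : K} {n : ℕ} {N : ℕ}

/-- **The nonsplit finite places.** -/
theorem exists_NS [Algebra.IsCentral K D] (hS : Setting k K D d s) (hn : 3 ≤ n)
    (hdeg : finrank K D = n ^ 2)
    (B : Basis (Fin N) k D) (v : HeightOneSpectrum (𝓞 k)) (hv : d ∉ LS (v.valuation k))
    {Ω : Type} [Field Ω] [Algebra K Ω] (fΩ : D →ₐ[K] Matrix (Fin n) (Fin n) Ω) :
    ∃ (F E : Type) (_ : NormedField F) (_ : ProperSpace F) (_ : Algebra k F) (_ : Ring E)
      (_ : Algebra F E) (BE : Basis (Fin N) F E) (I : Inv F E) (jm : D →+* E)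
      (h : Mdl BE I B (fa v) jm), h.Loc fΩ ∧ Unb fΩ B v := by
  classical
  have := hS.fin
  have := hS.cen
  have : CharZero K := charZero_of_injective_algebraMap (algebraMap k K).injective
  let _ := nnf v
  obtain ⟨L, _, _, _, ρ, G, hfix, hL2, hGu, hGs, hG⟩ := exists_local_model hS hdeg v hv
  obtain ⟨dL, hQ⟩ := exists_quadL hfix hL2
  have : CharZero L :=
    charZero_of_injective_algebraMap (algebraMap (v.adicCompletion k) L).injective
  have : FiniteDimensional (v.adicCompletion k) L :=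
    Module.finite_of_finrank_pos (by rw [hL2]; exact two_pos)
  have hσ : ∀ x, hS.sig x = star x := fun x => rfl
  have hG' : ∀ T, G * ρ (sg hS v T) = (ρ T)ᴴ * G := hG
  obtain ⟨θ, -, -, hθs, hθd⟩ := model_theta (by omega) hGu hG'
  have hU := univ2 hv hfix hθs hθd
  have hGd : IsUnit G.det := (Matrix.isUnit_iff_isUnit_det G).mp hGu
  have hGG : G * G⁻¹ = 1 := Matrix.mul_nonsing_inv _ hGd
  have hGG' : G⁻¹ * G = 1 := Matrix.nonsing_inv_mul _ hGd
  have hGis : (G⁻¹)ᴴ = G⁻¹ := by rw [Matrix.conjTranspose_nonsing_inv, hGs]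
  have hGid : (G⁻¹).det ≠ 0 := by
    have h1 : IsUnit G⁻¹ := ⟨⟨G⁻¹, G, hGG', hGG⟩, rfl⟩
    exact ((Matrix.isUnit_iff_isUnit_det _).mp h1).ne_zero
  let f : D →+* Matrix (Fin n) (Fin n) L :=
    (ρ.toAlgHom : v.adicCompletion k ⊗[k] D →+* Matrix (Fin n) (Fin n) L).comp
      (Algebra.TensorProduct.includeRight : D →ₐ[k] v.adicCompletion k ⊗[k] D).toRingHom
  have hf : ∀ x, f x = ρ (1 ⊗ₜ x) := fun x => rfl
  have hspan : ∀ Y, ∃ b : Fin N → v.adicCompletion k, ∑ j, b j • f (B j) = Y := by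
    intro Y
    let BA := Algebra.TensorProduct.basis (v.adicCompletion k) B
    refine ⟨fun j => BA.repr (ρ.symm Y) j, ?_⟩
    have h1 : ∑ j, BA.repr (ρ.symm Y) j • BA j = ρ.symm Y := BA.sum_repr _
    have h2 := congrArg ρ h1
    rw [map_sum, AlgEquiv.apply_symm_apply] at h2
    refine Eq.trans (Finset.sum_congr rfl fun j _ => ?_) h2
    rw [map_smul, hf, Algebra.TensorProduct.basis_apply]
  obtain ⟨φ, hφ⟩ := exists_center (K := K) (by omega) B f hspan
  obtain ⟨z, z', hp⟩ := Fr.exists_hp hQ hU (rowHF G⁻¹ hGis) (rowHF_nondeg G⁻¹ hGis hGid)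
    (by rw [Module.finrank_fin_fun]; exact hn)
  have h00 := hp.zz
  have h11 := hp.zz'
  have h01 := hp.one
  rw [bh_eq] at h00 h11 h01
  -- the model
  have hcard : finrank (v.adicCompletion k) (Matrix (Fin n) (Fin n) L) = N :=
    card_basis hS hdeg B hL2
  let BA : Basis (Fin N) (v.adicCompletion k) (Matrix (Fin n) (Fin n) L) :=
    basisOfTopLeSpanOfCardEqFinrank (fun j => f (B j)) (by
      intro Y _
      obtain ⟨b, hb⟩ := hspan Y
      rw [← hb]
      exact Submodule.sum_mem _ fun j _ => Submodule.smul_mem _ _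
        (Submodule.subset_span ⟨j, rfl⟩)) (by rw [Fintype.card_fin, hcard])
  have hBA : ∀ j, BA j = f (B j) := fun j => by
    rw [coe_basisOfTopLeSpanOfCardEqFinrank]
  let I := invM hQ G⁻¹ G hGis hGG hGG'
  have hf1 : ∀ (a : k) x, f (a • x) = algebraMap k (v.adicCompletion k) a • f x := by
    intro a x
    rw [hf, hf, TensorProduct.tmul_smul, ← map_smul,
      ← algebraMap_smul (v.adicCompletion k) a ((1 : v.adicCompletion k) ⊗ₜ[k] x)]
  have hf2 : ∀ x, f (star x) * G⁻¹ = G⁻¹ * (f x)ᴴ := by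
    intro x
    have h1 := hG (1 ⊗ₜ x)
    rw [LinearMap.baseChange_tmul, hσ, ← hf, ← hf] at h1
    calc f (star x) * G⁻¹ = G⁻¹ * (G * f (star x)) * G⁻¹ := by
          rw [← mul_assoc, hGG', one_mul]
      _ = G⁻¹ * (f x)ᴴ * (G * G⁻¹) := by rw [h1]; simp only [mul_assoc]
      _ = _ := by rw [hGG, mul_one]
  have hI : ∀ x, I.τ (f x) = f (star x) := by
    intro x
    change G⁻¹ * (f x)ᴴ * G = _
    rw [← hf2, mul_assoc, hGG', mul_one]
  have hmdl : Mdl BA I B (fa v) f :=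
    { smul := hf1
      basis := hBA
      star := hI
      norm := fun x => norm_algebraMap_eq v x }
  -- density
  have hden : ∀ (y : v.adicCompletion k) (ε : ℝ), 0 < ε →
      ∃ x : k, ‖algebraMap k (v.adicCompletion k) x - y‖ < ε := by
    intro y ε hε
    obtain ⟨x, hx⟩ := dense v y ε hε
    exact ⟨x, by rwa [← norm_neg, neg_sub]⟩
  have hshift : ∀ S : UT BA I, ∃ Z : UT BA I, (∀ W, Z * W = W * Z) ∧ IsUnit (1 + (Z * S).val) := by
    intro S
    obtain ⟨ζ, hζ, hζu⟩ := exists_norm_one_unit hQ S.val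
    have hζ' : star ζ * ζ = 1 := by rw [mul_comm]; exact hζ
    let z : (Matrix (Fin n) (Fin n) L)ˣ := ⟨Matrix.scalar (Fin n) ζ, Matrix.scalar (Fin n) (star ζ),
      by rw [← map_mul, hζ, map_one], by rw [← map_mul, hζ', map_one]⟩
    have hz : ∀ M : Matrix (Fin n) (Fin n) L, Matrix.scalar (Fin n) ζ * M = ζ • M := by
      intro M
      rw [Matrix.scalar_apply, ← Matrix.smul_eq_diagonal_mul]
    have hzc : ∀ M : Matrix (Fin n) (Fin n) L,
        M * Matrix.scalar (Fin n) ζ = Matrix.scalar (Fin n) ζ * M := fun M =>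
      ((Matrix.scalar_commute ζ (fun _ => mul_comm _ _) M)).eq.symm
    have hzU : z ∈ I.grp := by
      rw [mem_invM]
      change Matrix.scalar (Fin n) ζ * G⁻¹ * (Matrix.scalar (Fin n) ζ)ᴴ = G⁻¹
      have h1 : (Matrix.scalar (Fin n) ζ)ᴴ = Matrix.scalar (Fin n) (star ζ) := by
        rw [Matrix.scalar_apply, Matrix.scalar_apply, Matrix.diagonal_conjTranspose]
        rfl
      rw [h1, ← hzc G⁻¹, mul_assoc, ← map_mul, hζ, map_one, mul_one]
    refine ⟨⟨z, hzU⟩, fun W => ?_, ?_⟩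
    · apply UT.ext
      exact (hzc W.val).symm
    · change IsUnit (1 + Matrix.scalar (Fin n) ζ * S.val)
      rw [hz]
      exact hζu
  have hcomm := comm_mem_cl (f := fΩ) hmdl hden hshift
  -- the special unitary group lies in the closure
  have hSU : ∀ T : UT BA I, T.val.det = 1 → T ∈ hmdl.cl fΩ := by
    intro T hT
    have hTU : (T.1 : (Matrix (Fin n) (Fin n) L)ˣ) ∈ UU G⁻¹ :=
      (mem_invM hQ hGis hGG hGG').mp T.2
    have h1 := su_iso hQ (sqNear v) hGis hGid one_ne_zero h00 h11 h01 hTU hT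
    have h2 : Ge G⁻¹ 1 ≤ (hmdl.cl fΩ).map I.grp.subtype := by
      unfold Ge
      rw [Subgroup.closure_le]
      rintro _ ⟨a, ha, b, hb, rfl⟩
      have ha' : a ∈ I.grp := (mem_invM hQ hGis hGG hGG').mpr ha
      have hb' : b ∈ I.grp := (mem_invM hQ hGis hGG hGG').mpr hb
      refine ⟨_, hcomm ⟨a, ha'⟩ ⟨b, hb'⟩, ?_⟩
      rw [pow_one]
      rfl
    obtain ⟨T', hT', h3⟩ := h2 h1
    have h4 : T' = T := Subtype.ext h3
    rw [← h4]
    exact hT'
  have hdet : ∀ t ∈ SUu fΩ, (hmdl.gU t).val.det = 1 := by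
    intro t ht
    have h1 := (W.hasNrd_iff.mp (hasNrd_one hdeg fΩ ht.2)) L φ f hφ
    change (f (t : D)).det = 1
    rw [h1, map_one]
  refine ⟨v.adicCompletion k, Matrix (Fin n) (Fin n) L, inferInstance, inferInstance, inferInstance,
    inferInstance, inferInstance, BA, I, f, hmdl, ?_, ?_⟩
  · -- closed normal subgroups
    intro H _ hHn ⟨x, hxH, y, hxy⟩ t ht
    have hθ0 : θ ≠ 0 := by
      rintro rfl
      rw [zero_pow two_ne_zero] at hθd
      have h1 := (map_eq_zero (algebraMap (v.adicCompletion k) L)).mp hθd.symm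
      exact d.ne_zero ((map_eq_zero (algebraMap k (v.adicCompletion k))).mp h1)
    have hnt : H487.HForm.StarNT L := ⟨θ, fun h => by
      rw [hθs] at h
      apply hθ0
      have h2 : θ + θ = 0 := by
        nth_rewrite 1 [← h]
        rw [neg_add_cancel]
      rw [← two_mul] at h2
      exact (mul_eq_zero.mp h2).resolve_left two_ne_zero⟩
    have h2 : ∃ a : L, a ≠ 0 ∧ star a = a ∧ a ^ 4 ≠ 1 :=
      ⟨2, two_ne_zero, star_ofNat 2, by norm_num⟩
    have hz0 : z ≠ 0 := by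
      rintro rfl
      rw [bh, zero_dotProduct] at h01
      exact zero_ne_one h01
    let Γ : Subgroup (Matrix (Fin n) (Fin n) L)ˣ := H.map I.grp.subtype
    have hΓU : ∀ T ∈ Γ, (T : Matrix (Fin n) (Fin n) L) * G⁻¹ * (T : Matrix (Fin n) (Fin n) L)ᴴ = G⁻¹ := by
      rintro _ ⟨T, -, rfl⟩
      exact (mem_invM hQ hGis hGG hGG').mp T.2
    have hΓ : ∀ S : (Matrix (Fin n) (Fin n) L)ˣ, (S : Matrix (Fin n) (Fin n) L) * G⁻¹ *
        (S : Matrix (Fin n) (Fin n) L)ᴴ = G⁻¹ → (S : Matrix (Fin n) (Fin n) L).det = 1 →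
        ∀ T ∈ Γ, S * T * S⁻¹ ∈ Γ := by
      rintro S hS1 hS2 _ ⟨T, hT, rfl⟩
      have hS' : S ∈ I.grp := (mem_invM hQ hGis hGG hGG').mpr hS1
      exact ⟨_, hHn ⟨S, hS'⟩ (hSU ⟨S, hS'⟩ hS2) T hT, rfl⟩
    have hns : ∃ T ∈ Γ, ∀ a : L, (T : Matrix (Fin n) (Fin n) L) ≠ a • (1 : Matrix (Fin n) (Fin n) L) := by
      refine ⟨_, ⟨x, hxH, rfl⟩, fun a ha => hxy ?_⟩
      have ha' : x.val = a • (1 : Matrix (Fin n) (Fin n) L) := ha
      rw [ha', smul_mul_assoc, one_mul, mul_smul_comm, mul_one]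
    have h3 := H487.mat_NS2 hnt h2 hGis hGid ⟨z, hz0, h00⟩ hΓU hΓ hns
      ((hmdl.gU t).1 : (Matrix (Fin n) (Fin n) L)ˣ)
      ((mem_invM hQ hGis hGG hGG').mp (hmdl.gU t).2) (hdet t ht)
    obtain ⟨T', hT', h4⟩ := h3
    have h5 : T' = hmdl.gU t := Subtype.ext h4
    rw [← h5]
    exact hT'
  · -- unboundedness
    obtain ⟨t0, ht0⟩ := NormedField.exists_one_lt_norm (v.adicCompletion k)
    have ht00 : t0 ≠ 0 := by
      rintro rfl
      rw [norm_zero] at ht0
      linarith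
    obtain ⟨T, hTU, hTd, y0, hy0, hTy⟩ := exists_eig hGis h00 h11 h01
      (t := algebraMap (v.adicCompletion k) L t0) ((map_ne_zero _).mpr ht00)
      ((hfix _).mpr ⟨t0, rfl⟩)
    have hT' : T ∈ I.grp := (mem_invM hQ hGis hGG hGG').mpr hTU
    refine unb_of_model hmdl (τ := ⟨T, hT'⟩) (hSU ⟨T, hT'⟩ hTd) hy0 (t := t0 ^ 2) ?_ ?_
    · rw [norm_pow]
      exact one_lt_pow₀ ht0 two_ne_zero
    · change (T : Matrix (Fin n) (Fin n) L) * y0 *
        ((T⁻¹ : (Matrix (Fin n) (Fin n) L)ˣ) : Matrix (Fin n) (Fin n) L) = t0 ^ 2 • y0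
      rw [hTy, ← map_pow, algebraMap_smul]

end final

end Vale.Agent.P011.H182
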