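import Vale.Agent.P011.H182.Shell

/-!
Finiteness of the reduced norms of the elements which are bounded at all places.
-/

open Module NumberField IsDedekindDomain Filter Topology

set_option linter.unusedSectionVars false

namespace Vale.Agent.P011.H182

open Vale.Agent.P011.Arith Vale.Agent.P011.Even Vale.Agent.P011.Two Vale.Agent.P011.One

section scal

variable {k : Type} [Field k] [NumberField k]

theorem fa_int_le (w : HeightOneSpectrum (𝓞 k)) (x : 𝓞 k) : fa w (algebraMap (𝓞 k) k x) ≤ 1 :=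
  (plAbv_le_one w _).mpr (HeightOneSpectrum.valuation_le_one w x)

theorem exists_small (w : HeightOneSpectrum (𝓞 k)) (M : ℝ) :
    ∃ c : 𝓞 k, c ≠ 0 ∧ fa w (algebraMap (𝓞 k) k c) * M ≤ 1 := by
  obtain ⟨x, hx, hx0⟩ := Submodule.exists_mem_ne_zero_of_ne_bot w.ne_bot
  have h1 : fa w (algebraMap (𝓞 k) k x) < 1 := by
    rw [plAbv_lt_one]
    exact (HeightOneSpectrum.valuation_lt_one_iff_mem w x).mpr hx
  by_cases hM : M ≤ 0
  · refine ⟨x, hx0, ?_⟩
    have := AbsoluteValue.nonneg (fa w) (algebraMap (𝓞 k) k x)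
    nlinarith
  · push Not at hM
    obtain ⟨m, hm⟩ := exists_pow_lt_of_lt_one (inv_pos.mpr hM) h1
    refine ⟨x ^ m, pow_ne_zero _ hx0, ?_⟩
    rw [map_pow, map_pow]
    have := mul_lt_mul_of_pos_right hm hM
    rw [inv_mul_cancel₀ hM.ne'] at this
    exact this.le

/-- A common denominator. -/
theorem exists_den {M : HeightOneSpectrum (𝓞 k) → ℝ} (hM : {w | M w ≠ 1}.Finite) :
    ∃ c : 𝓞 k, c ≠ 0 ∧ ∀ w, M w * fa w (algebraMap (𝓞 k) k c) ≤ 1 := by
  classical
  choose e he0 he using fun w => exists_small w (M w)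
  refine ⟨∏ w ∈ hM.toFinset, e w, Finset.prod_ne_zero_iff.mpr fun w _ => he0 w, fun w => ?_⟩
  rw [map_prod, map_prod]
  by_cases hw : w ∈ hM.toFinset
  · rw [← Finset.mul_prod_erase _ _ hw]
    have h1 : ∏ x ∈ hM.toFinset.erase w, fa w (algebraMap (𝓞 k) k (e x)) ≤ 1 :=
      Finset.prod_le_one (fun _ _ => AbsoluteValue.nonneg _ _) fun x _ => fa_int_le w _
    have h2 : 0 ≤ ∏ x ∈ hM.toFinset.erase w, fa w (algebraMap (𝓞 k) k (e x)) :=
      Finset.prod_nonneg fun _ _ => AbsoluteValue.nonneg _ _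
    have h3 := he w
    have h4 : M w * (fa w (algebraMap (𝓞 k) k (e w)) *
        ∏ x ∈ hM.toFinset.erase w, fa w (algebraMap (𝓞 k) k (e x))) =
        (fa w (algebraMap (𝓞 k) k (e w)) * M w) *
        ∏ x ∈ hM.toFinset.erase w, fa w (algebraMap (𝓞 k) k (e x)) := by ring
    rw [h4]
    rcases le_total 0 (fa w (algebraMap (𝓞 k) k (e w)) * M w) with h5 | h5
    · exact mul_le_one₀ h3 h2 h1
    · exact (mul_nonpos_of_nonpos_of_nonneg h5 h2).trans zero_le_one
  · have h1 : M w = 1 := by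
      by_contra h
      exact hw (hM.mem_toFinset.mpr h)
    rw [h1, one_mul]
    exact Finset.prod_le_one (fun _ _ => AbsoluteValue.nonneg _ _) fun x _ => fa_int_le w _

/-- The elements bounded at all places form a finite set. -/
theorem finite_bounded {M : HeightOneSpectrum (𝓞 k) → ℝ} (hM : {w | M w ≠ 1}.Finite) (R : ℝ) :
    {x : k | (∀ w, fa w x ≤ M w) ∧ ∀ φ : k →+* ℂ, ‖φ x‖ ≤ R}.Finite := by
  classical
  obtain ⟨c, hc0, hc⟩ := exists_den hM
  obtain ⟨R', hR'⟩ : ∃ R' : ℝ, ∀ φ : k →+* ℂ, |R| * ‖φ (algebraMap (𝓞 k) k c)‖ ≤ R' := by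
    refine ⟨∑ φ : k →+* ℂ, |R| * ‖φ (algebraMap (𝓞 k) k c)‖, fun φ => ?_⟩
    exact Finset.single_le_sum (f := fun φ : k →+* ℂ => |R| * ‖φ (algebraMap (𝓞 k) k c)‖)
      (fun _ _ => by positivity) (Finset.mem_univ φ)
  have hc0' : algebraMap (𝓞 k) k c ≠ 0 := by
    rwa [Ne, map_eq_zero_iff _ (IsFractionRing.injective (𝓞 k) k)]
  refine Set.Finite.of_finite_image (f := fun x : k => x * algebraMap (𝓞 k) k c)
    ((NumberField.Embeddings.finite_of_norm_le k ℂ R').subset ?_)
    (fun x _ y _ h => mul_right_cancel₀ hc0' h)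
  rintro _ ⟨x, ⟨hx1, hx2⟩, rfl⟩
  refine ⟨?_, fun φ => ?_⟩
  · have h1 : ∀ w : HeightOneSpectrum (𝓞 k), w.valuation k (x * algebraMap (𝓞 k) k c) ≤ 1 := by
      intro w
      rw [← plAbv_le_one, map_mul]
      exact (mul_le_mul_of_nonneg_right (hx1 w) (AbsoluteValue.nonneg _ _)).trans (hc w)
    obtain ⟨y, hy⟩ := HeightOneSpectrum.mem_integers_of_valuation_le_one k _ h1
    beta_reduce
    rw [← hy]
    exact NumberField.RingOfIntegers.isIntegral_coe y
  · beta_reduce
    rw [map_mul, norm_mul]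
    refine le_trans ?_ (hR' φ)
    exact mul_le_mul_of_nonneg_right ((hx2 φ).trans (le_abs_self R)) (norm_nonneg _)

end scal

section poly

variable {k K D : Type} [Field k] [Field K] [DivisionRing D]
  [Algebra k K] [Algebra k D] [Algebra K D] [IsScalarTower k K D]
  {N m r : ℕ} (B : Basis (Fin N) k D) (bK : Basis (Fin r) k K) (b : Basis (Fin m) K D)
  (a : AbsoluteValue k ℝ)

theorem na_prod_le {C : ℝ} (hC : 0 ≤ C)
    (hm : ∀ x y : K, na bK a (x * y) ≤ C * na bK a x * na bK a y) {ι : Type} (s : Finset ι)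
    (x : ι → K) : na bK a (∏ i ∈ s, x i) ≤ na bK a 1 * ∏ i ∈ s, (C * na bK a (x i)) := by
  classical
  induction s using Finset.induction_on with
  | empty => simp
  | insert j s hj ih =>
    rw [Finset.prod_insert hj, Finset.prod_insert hj]
    have h1 := na_nonneg bK a (x j)
    calc na bK a (x j * ∏ i ∈ s, x i) ≤ C * na bK a (x j) * na bK a (∏ i ∈ s, x i) := hm _ _
      _ ≤ C * na bK a (x j) * (na bK a 1 * ∏ i ∈ s, (C * na bK a (x i))) :=
          mul_le_mul_of_nonneg_left ih (mul_nonneg hC h1)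
      _ = _ := by ring

/-- The entries of the matrix of the left multiplication. -/
noncomputable def entr (i j : Fin m) : D →ₗ[k] K where
  toFun x := Algebra.leftMulMatrix b x i j
  map_add' x y := by rw [map_add, Matrix.add_apply]
  map_smul' c x := by
    have h1 : c • x = algebraMap k K c • x := by rw [algebraMap_smul]
    rw [h1, map_smul, Matrix.smul_apply, RingHom.id_apply, smul_eq_mul, Algebra.smul_def]

theorem na_entr : ∃ C : ℝ, 0 < C ∧ ∀ x, ∀ i j, na bK a (entr (k := k) b i j x) ≤ C * na B a x := by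
  obtain ⟨C, hCd⟩ : ∃ C : ℝ, C = ∑ i, ∑ j, ∑ l, na bK a (entr (k := k) b i j (B l)) + 1 := ⟨_, rfl⟩
  have h0 : ∀ i j, 0 ≤ ∑ l, na bK a (entr (k := k) b i j (B l)) := fun i j =>
    Finset.sum_nonneg fun _ _ => na_nonneg _ _ _
  have h00 : ∀ i, 0 ≤ ∑ j, ∑ l, na bK a (entr (k := k) b i j (B l)) := fun i =>
    Finset.sum_nonneg fun j _ => h0 i j
  have h000 : 0 ≤ ∑ i, ∑ j, ∑ l, na bK a (entr (k := k) b i j (B l)) :=
    Finset.sum_nonneg fun i _ => h00 i
  refine ⟨C, by linarith, fun x i j => ?_⟩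
  have h1 : entr (k := k) b i j x = ∑ l, B.repr x l • entr (k := k) b i j (B l) := by
    conv_lhs => rw [← B.sum_repr x]
    rw [map_sum]
    exact Finset.sum_congr rfl fun l _ => map_smul _ _ _
  have h2 : ∀ l, na bK a (entr (k := k) b i j (B l)) ≤ C := by
    intro l
    have e1 := Finset.single_le_sum (f := fun l => na bK a (entr (k := k) b i j (B l)))
      (fun _ _ => na_nonneg _ _ _) (Finset.mem_univ l)
    have e2 := Finset.single_le_sum
      (f := fun j => ∑ l, na bK a (entr (k := k) b i j (B l))) (fun j _ => h0 i j)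
      (Finset.mem_univ j)
    have e3 := Finset.single_le_sum
      (f := fun i => ∑ j, ∑ l, na bK a (entr (k := k) b i j (B l))) (fun i _ => h00 i)
      (Finset.mem_univ i)
    beta_reduce at e1 e2 e3
    linarith
  rw [h1]
  refine (na_sum_le bK a _ _).trans ?_
  rw [na, Finset.mul_sum]
  refine Finset.sum_le_sum fun l _ => ?_
  rw [na_smul, mul_comm]
  exact mul_le_mul_of_nonneg_right (h2 l) (AbsoluteValue.nonneg _ _)

include b in
/-- The norm is bounded on bounded sets. -/
theorem na_norm_le (R : ℝ) : ∃ R' : ℝ, ∀ x : D, na B a x ≤ R →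
    na bK a (Algebra.norm K x) ≤ R' := by
  obtain ⟨C1, hC1, h1⟩ := na_entr B bK b a
  obtain ⟨C2, hC2, h2⟩ := na_mul bK a
  obtain ⟨R0, hR0⟩ : ∃ R0 : ℝ, R0 = na bK a 1 * ∏ _i : Fin m, (C2 * (C1 * |R|)) := ⟨_, rfl⟩
  refine ⟨∑ _σ : Equiv.Perm (Fin m), R0, fun x hx => ?_⟩
  rw [Algebra.norm_eq_matrix_det b, Matrix.det_apply]
  refine (na_sum_le bK a _ _).trans (Finset.sum_le_sum fun σ _ => ?_)
  have h3 : ∀ y : K, na bK a (Equiv.Perm.sign σ • y) = na bK a y := by
    intro y
    rcases Int.units_eq_one_or (Equiv.Perm.sign σ) with h | h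
    · rw [h, one_smul]
    · rw [h, Units.neg_smul, one_smul, na_neg]
  rw [h3]
  refine (na_prod_le bK a (by linarith) h2 _ _).trans ?_
  rw [hR0]
  refine mul_le_mul_of_nonneg_left ?_ (na_nonneg _ _ _)
  refine Finset.prod_le_prod (fun i _ => mul_nonneg (by linarith) (na_nonneg _ _ _)) fun i _ => ?_
  refine mul_le_mul_of_nonneg_left ?_ (by linarith)
  refine (h1 x (σ i) i).trans ?_
  exact mul_le_mul_of_nonneg_left (hx.trans (le_abs_self R)) hC1.le

variable [StarRing K]

/-- The norm of integral elements is integral. -/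
theorem ig_norm (hgd : Gd bK a) (he : ∀ i j l, Ig bK a (entr (k := k) b i j (B l))) {x : D}
    (hx : Ig B a x) : Ig bK a (Algebra.norm K x) := by
  let RO : Subring K :=
    { carrier := {y | Ig bK a y}
      mul_mem' := fun hx hy => hgd.mul' hx hy
      one_mem' := hgd.one
      add_mem' := fun hx hy => Gd.add hgd.na hx hy
      zero_mem' := ig_zero
      neg_mem' := fun hx => Gd.neg hx }
  have h1 : ∀ i j, Algebra.leftMulMatrix b x i j ∈ RO := by
    intro i j
    have h1 : Algebra.leftMulMatrix b x i j = ∑ l, B.repr x l • entr (k := k) b i j (B l) := by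
      change entr (k := k) b i j x = _
      conv_lhs => rw [← B.sum_repr x]
      rw [map_sum]
      exact Finset.sum_congr rfl fun l _ => map_smul _ _ _
    rw [h1]
    exact Gd.sum hgd.na _ fun l _ => Gd.smul (hx l) (he i j l)
  change Algebra.norm K x ∈ RO
  rw [Algebra.norm_eq_matrix_det b, Matrix.det_apply]
  refine Subring.sum_mem _ fun σ _ => ?_
  have h3 : ∀ y ∈ RO, Equiv.Perm.sign σ • y ∈ RO := by
    intro y hy
    rcases Int.units_eq_one_or (Equiv.Perm.sign σ) with h | h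
    · rw [h, one_smul]; exact hy
    · rw [h, Units.neg_smul, one_smul]; exact RO.neg_mem hy
  exact h3 _ (Subring.prod_mem _ fun i _ => h1 _ _)

end poly

end Vale.Agent.P011.H182
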