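import Vale.Agent.P011.H182.SaArch
import Vale.Agent.P011.H976.NFLev

/-!
Strong approximation in terms of filters: a normal subgroup of the unitary group which lies in the
special unitary group and contains a level contains the elements near one at finitely many places.
-/

open Module NumberField IsDedekindDomain Filter Topology

set_option linter.unusedSectionVars false

namespace Vale.Agent.P011.H182

open Vale.Agent.P011.Arith Vale.Agent.P011.Even Vale.Agent.P011.Two Vale.Agent.P011.One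
  Vale.Agent.P011.H976

variable {k K D : Type} [Field k] [NumberField k] [Field K] [NumberField K] [StarRing K]
  [DivisionRing D] [StarRing D] [Algebra k K] [Algebra k D] [Algebra K D] [IsScalarTower k K D]
  {d : kˣ} {s : K} {N : ℕ} {Ω : Type} [Field Ω] [Algebra K Ω] {n : ℕ}

/-- **Strong approximation (SA).** -/
theorem sa_nr (hS : Setting k K D d s) (hn : 3 ≤ n) (hdeg : finrank K D = n ^ 2)
    (f : D →ₐ[K] Matrix (Fin n) (Fin n) Ω) (B : Basis (Fin N) k D)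
    {q : HeightOneSpectrum (𝓞 k)} (hq : (Sum.inl q : Pl k) ∉ Tdiv k K D)
    (Q : Subgroup (UD D)) (hQn : ∀ g ∈ GD f, ∀ x ∈ Q, g * x * g⁻¹ ∈ Q) (hQG : Q ≤ GD f)
    (hQ : (Q : Set (UD D)) ∈ lvF f B {q}) : (Q : Set (UD D)) ∈ nrF f B := by
  have hD : ∀ {g : D}, g ∈ GU f → ∃ u : UD D, ((u : Dˣ) : D) = g ∧ u ∈ GD f := by
    intro g hg
    let u : UD D := ⟨Units.mk0 g (gu_ne hg), hg.1⟩
    exact ⟨u, rfl, (mem_GD_iff_GU f).mpr hg⟩
  have hinj : ∀ u v : UD D, ((u : Dˣ) : D) = ((v : Dˣ) : D) → u = v := fun u v h =>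
    Subtype.ext (Units.ext h)
  let M : Set D := {x | ∃ u ∈ Q, ((u : Dˣ) : D) = x}
  have hmem : ∀ {u : UD D}, ((u : Dˣ) : D) ∈ M → u ∈ Q := by
    rintro u ⟨v, hv, h⟩
    rwa [← hinj v u h]
  have hMG : M ⊆ GU f := by
    rintro _ ⟨u, hu, rfl⟩
    exact (mem_GD_iff_GU f).mp (hQG hu)
  have h1 : (1 : D) ∈ M := ⟨1, one_mem _, rfl⟩
  have hmul : ∀ a ∈ M, ∀ b ∈ M, a * b ∈ M := by
    rintro _ ⟨u, hu, rfl⟩ _ ⟨v, hv, rfl⟩
    exact ⟨u * v, mul_mem hu hv, rfl⟩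
  have hinv : ∀ a ∈ M, star a ∈ M := by
    intro a ha
    have hG := hMG ha
    obtain ⟨u, hu, rfl⟩ := ha
    refine ⟨u⁻¹, inv_mem hu, ?_⟩
    rw [← gu_inv_eq hG, ← Units.val_inv_eq_inv_val]
    rfl
  have hnm : ∀ g ∈ GU f, ∀ x ∈ M, g * x * g⁻¹ ∈ M := by
    rintro g hg _ ⟨u, hu, rfl⟩
    obtain ⟨v, rfl, hv⟩ := hD hg
    refine ⟨v * u * v⁻¹, hQn v hv u hu, ?_⟩
    rw [← Units.val_inv_eq_inv_val]
    rfl
  obtain ⟨T, hT, hb, ε, hε, h⟩ := hQ
  obtain ⟨S, hSf, ε', hε', h'⟩ := near_pl hS hn hdeg hq hMG h1 hmul hinv hnm hT hb hε (by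
    intro g hg hgL
    obtain ⟨u, rfl, hu⟩ := hD hg
    exact ⟨u, h u hgL hu, rfl⟩)
  exact ⟨S, hSf, fun _ => ε', fun _ => hε', fun g hg hgS =>
    hmem (h' _ ((mem_GD_iff_GU f).mp hg) hgS)⟩

end Vale.Agent.P011.H182
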