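import Vale.Agent.P011.H182.Level
import Vale.Agent.P011.H182.Cen

/-!
Elements of a normal subgroup in a level, which are neither too close to one nor too large at a
given place.
-/

open Module NumberField IsDedekindDomain Filter Topology

set_option linter.unusedSectionVars false

namespace Vale.Agent.P011.H182

open Vale.Agent.P011.Arith Vale.Agent.P011.Even Vale.Agent.P011.Two Vale.Agent.P011.One

variable {k K D : Type} [Field k] [NumberField k] [Field K] [StarRing K]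
  [DivisionRing D] [StarRing D] [Algebra k K] [Algebra k D] [Algebra K D] [IsScalarTower k K D]
  {d : kˣ} {s : K} {N : ℕ} {Ω : Type} [Field Ω] [Algebra K Ω] {n : ℕ}

/-- Cocompactness: every element of `A` at the place `v` is, up to a bounded factor, an element of
`G` which is bounded at all other places. -/
def Coc (B : Basis (Fin N) k D) (v : HeightOneSpectrum (𝓞 k)) (G A : Set D) : Prop :=
  ∃ M : HeightOneSpectrum (𝓞 k) → ℝ, {w | M w ≠ 1}.Finite ∧ ∃ R : ℝ,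
    ∀ a ∈ A, ∃ g ∈ G, g ∈ Bnd B {v} M R ∧ na B (fa v) (g * a⁻¹) ≤ R

/-- Noncentral elements of `M` in all levels. -/
def Inf (B : Basis (Fin N) k D) (q : HeightOneSpectrum (𝓞 k)) (M : Set D) : Prop :=
  ∀ T : Set (HeightOneSpectrum (𝓞 k)), T.Finite → Bad B ⊆ T → ∀ ε : ℝ, 0 < ε →
    ∃ x ∈ M, x ∈ Lv B {q} T ε ∧ ∃ b : D, b * x ≠ x * b

/-- The unitary elements of reduced norm one have unbounded conjugation at `v`. -/
def Unb (f : D →ₐ[K] Matrix (Fin n) (Fin n) Ω) (B : Basis (Fin N) k D)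
    (v : HeightOneSpectrum (𝓞 k)) : Prop :=
  ∃ R : ℝ, na B (fa v) 1 < R ∧ ∃ g : ℕ → D, (∀ m, g m ∈ Wd f B (Sum.inl v) R) ∧ ∃ z : D,
    ∀ M : ℝ, ∃ m, M < na B (fa v) (g m * z * (g m)⁻¹)

variable {f : D →ₐ[K] Matrix (Fin n) (Fin n) Ω} {B : Basis (Fin N) k D}

theorem Bnd.mono {S S' : Set (HeightOneSpectrum (𝓞 k))} (h : S ⊆ S')
    {M : HeightOneSpectrum (𝓞 k) → ℝ} {R : ℝ} : Bnd B S M R ⊆ Bnd B S' M R := fun _ hg =>
  ⟨hg.1, fun w hw => hg.2.1 w fun h' => hw (h h'), hg.2.2⟩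

/-- **Elements in a shell.** -/
theorem shell (hS : Setting k K D d s) {v q : HeightOneSpectrum (𝓞 k)} (hU : Unb f B v)
    {G M : Set D} (hMG : ∀ g ∈ G, ∀ x ∈ M, g * x * g⁻¹ ∈ M)
    (hcoc : Coc B v G (GU f)) (hinf : Inf B q M) (hvq : v ≠ q) :
    ∃ C : ℝ, 1 ≤ C ∧ ∀ δ : ℝ, 0 < δ → ∀ T : Set (HeightOneSpectrum (𝓞 k)), T.Finite →
      Bad B ⊆ T → ∀ ε : ℝ, 0 < ε → ∃ z ∈ M, z ∈ Lv B {v, q} T ε ∧ δ ≤ nc B (fa v) z ∧
        na B (fa v) (z - 1) ≤ C * δ := by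
  have hst : ∀ (c : k) (x : D), star (c • x) = c • star x := fun c x => (Setting.sig hS).map_smul c x
  obtain ⟨R0, hR0, g, hg, z0, hz0⟩ := hU
  obtain ⟨C2, hC2, hexit⟩ := exists_exit hS hR0 hg hz0
  obtain ⟨Mw, hMw, R', hcoc⟩ := hcoc
  obtain ⟨C, hC1, hCm, hCs⟩ := na_const B (fa v) hst
  have hC0 : 0 < C := by linarith
  obtain ⟨R, hRd⟩ : ∃ R : ℝ, R = max R' 1 := ⟨_, rfl⟩
  have hR1 : 1 ≤ R := by rw [hRd]; exact le_max_right _ _
  have hRR : R' ≤ R := by rw [hRd]; exact le_max_left _ _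
  have hR0' : 0 < R := by linarith
  -- the constants of the conjugation
  obtain ⟨K1, hK1d⟩ : ∃ K1 : ℝ, K1 = C * C * C * R * R := ⟨_, rfl⟩
  have hK1 : 1 ≤ K1 := by
    rw [hK1d]
    exact one_le_mul_of_one_le_of_one_le (one_le_mul_of_one_le_of_one_le
      (one_le_mul_of_one_le_of_one_le (one_le_mul_of_one_le_of_one_le hC1 hC1) hC1) hR1) hR1
  obtain ⟨K2, hK2, hK2c⟩ := nc_conj B (fa v) hC1 hCm hCs (R := C * R) (by positivity)
  refine ⟨K1 * C2 * K2, one_le_mul_of_one_le_of_one_le (one_le_mul_of_one_le_of_one_le hK1 hC2) hK2,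
    fun δ hδ T hT hb ε hε => ?_⟩
  have hδ' : 0 < K2 * δ := by positivity
  obtain ⟨T', hT', hTT', ε', hε', hε'ε, hε'1, hconj⟩ :=
    conj_level (B := B) hst (S := {v, q}) hMw R' hT hb hε
  obtain ⟨ε'', hε''d⟩ : ∃ ε'' : ℝ, ε'' = min ε' (K2 * δ / C2) := ⟨_, rfl⟩
  have hε'' : 0 < ε'' := by rw [hε''d]; exact lt_min hε' (by positivity)
  have hb' : Bad B ⊆ T' := hb.trans hTT'
  obtain ⟨x, hxM, hxL, b, hxb⟩ := hinf (insert v T') (hT'.insert v)
    (hb'.trans (Set.subset_insert _ _)) ε'' hε''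
  have hxv : C2 * na B (fa v) (x - 1) < K2 * δ := by
    have h1 : na B (fa v) (x - 1) < K2 * δ / C2 :=
      (hxL.1 v (Set.mem_insert _ _) hvq).trans_le (by rw [hε''d]; exact min_le_right _ _)
    rw [lt_div_iff₀ (by linarith)] at h1
    linarith
  obtain ⟨a, haG, ha1, -, ha2⟩ := hexit x b hxb (K2 * δ) hδ' hxv
  obtain ⟨lam, hlG, hlB, hla⟩ := hcoc a haG
  have hlu := hlB.1
  have hl0 : lam ≠ 0 := left_ne_zero_of_mul_eq_one hlu
  have ha0 := gu_ne haG
  have hxL' : x ∈ Lv B {v, q} T' ε' := by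
    have h1 : x ∈ Lv B {v, q} (insert v T') ε'' :=
      lv_mono_S (Set.subset_insert _ _) hxL
    have hle : ε'' ≤ ε' := by rw [hε''d]; exact min_le_left _ _
    exact lv_mono (Set.subset_insert _ _) hb' hle (hle.trans hε'1) h1
  obtain ⟨c, hcd⟩ : ∃ c, c = lam * a⁻¹ := ⟨_, rfl⟩
  have hcu : c * star c = 1 := by
    have h2 := (gu_inv haG).1
    rw [hcd, star_mul]
    calc lam * a⁻¹ * (star a⁻¹ * star lam) = lam * (a⁻¹ * star a⁻¹) * star lam := by
          simp only [mul_assoc]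
      _ = 1 := by rw [h2, mul_one, hlu]
  have hc0 : c ≠ 0 := left_ne_zero_of_mul_eq_one hcu
  have hci : c⁻¹ = star c := inv_eq_of_mul_eq_one_right hcu
  have hcb : na B (fa v) c ≤ R := by
    rw [hcd]
    exact hla.trans hRR
  refine ⟨lam * x * lam⁻¹, hMG lam hlG x hxM,
    hconj lam (Bnd.mono (Set.singleton_subset_iff.mpr (Set.mem_insert _ _)) hlB) x hxL', ?_, ?_⟩
  · -- lower bound
    have hcs : star c * star (star c) = 1 := by
      rw [star_star, ← hci, inv_mul_cancel₀ hc0]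
    have hcb' : na B (fa v) (star c) ≤ C * R :=
      (hCs c).trans (mul_le_mul_of_nonneg_left hcb hC0.le)
    have h3 := hK2c (star c) hcs hcb' (lam * x * lam⁻¹)
    have e : star c * (lam * x * lam⁻¹) * (star c)⁻¹ = a * x * a⁻¹ := by
      have e1 : (star c)⁻¹ = c := by rw [← hci, inv_inv]
      have e2 : star c = a * lam⁻¹ := by rw [← hci, hcd, mul_inv_rev, inv_inv]
      rw [e1, e2, hcd]
      calc a * lam⁻¹ * (lam * x * lam⁻¹) * (lam * a⁻¹) =
          a * (lam⁻¹ * lam) * x * (lam⁻¹ * lam) * a⁻¹ := by simp only [mul_assoc]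
        _ = _ := by rw [inv_mul_cancel₀ hl0, mul_one, mul_one]
    rw [e] at h3
    exact le_of_mul_le_mul_left (ha1.trans h3) (by linarith)
  · -- upper bound
    have h3 := na_conj_le (B := B) hC1 hCm hCs hcu hcb (x := a * x * a⁻¹) ha2
    have e : c * (a * x * a⁻¹) * c⁻¹ = lam * x * lam⁻¹ := by
      rw [hcd, mul_inv_rev, inv_inv]
      calc lam * a⁻¹ * (a * x * a⁻¹) * (a * lam⁻¹) =
          lam * (a⁻¹ * a) * x * (a⁻¹ * a) * lam⁻¹ := by simp only [mul_assoc]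
        _ = _ := by rw [inv_mul_cancel₀ ha0, mul_one, mul_one]
    rw [e, ← hK1d] at h3
    refine h3.trans (le_of_eq ?_)
    ring

end Vale.Agent.P011.H182
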