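import Vale.Agent.P011.One.TForm
import Vale.Agent.P011.Even.LocFin

/-!
The conjugates of a noncentral element of a division algebra with involution by the Cayley
elements near one generate the algebra over its centre.
-/

open Module NumberField IsDedekindDomain Filter Topology

set_option linter.unusedSectionVars false

namespace Vale.Agent.P011.H182

open Vale.Agent.P011.Arith Vale.Agent.P011.Even Vale.Agent.P011.Two Vale.Agent.P011.One

section abs

variable {K D : Type} [Field K] [DivisionRing D] [Algebra K D] [FiniteDimensional K D]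

/-- A subalgebra of a division algebra which is stable under all inner derivations and
noncommutative is everything. -/
theorem top_of_noncomm (W : Subalgebra K D) (had : ∀ a : D, ∀ w ∈ W, a * w - w * a ∈ W)
    {b w : D} (hb : b ∈ W) (hw : w ∈ W) (hc : b * w - w * b ≠ 0) : W = ⊤ := by
  rw [eq_top_iff]
  intro a _
  obtain ⟨c, hcd⟩ : ∃ c, c = b * w - w * b := ⟨_, rfl⟩
  have hcW : c ∈ W := by rw [hcd]; exact had b w hw
  have hc0 : c ≠ 0 := by rw [hcd]; exact hc
  have hinv : c⁻¹ ∈ W := IsIntegral.inv_mem (Algebra.IsIntegral.isIntegral c) hcW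
  have h1 : a * c ∈ W := by
    have h2 : (a * b) * w - w * (a * b) = a * c + (a * w - w * a) * b := by
      rw [hcd]
      noncomm_ring
    have h3 : a * c = ((a * b) * w - w * (a * b)) - (a * w - w * a) * b := by
      rw [h2]; abel
    rw [h3]
    exact W.sub_mem (had _ _ hw) (W.mul_mem (had _ _ hw) hb)
  have h4 := W.mul_mem h1 hinv
  rwa [mul_assoc, mul_inv_cancel₀ hc0, mul_one] at h4

/-- A subalgebra of a division algebra which is stable under all inner derivations and contains
a noncentral element is everything. -/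
theorem top_of_ad [CharZero D] (W : Subalgebra K D)
    (had : ∀ a : D, ∀ w ∈ W, a * w - w * a ∈ W) {w a : D} (hw : w ∈ W)
    (hwa : a * w ≠ w * a) : W = ⊤ := by
  by_cases hcomm : ∃ b ∈ W, b * w - w * b ≠ 0
  · obtain ⟨b, hb, hbw⟩ := hcomm
    exact top_of_noncomm W had hb hw hbw
  · exfalso
    push Not at hcomm
    -- the square of the derivation vanishes
    have h1 : ∀ x : D, (x * w - w * x) * w - w * (x * w - w * x) = 0 := fun x =>
      hcomm _ (had x w hw)
    have h2 : ∀ x y : D, (x * w - w * x) * (y * w - w * y) = 0 := by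
      intro x y
      have e1 := h1 (x * y)
      have e2 : (x * y * w - w * (x * y)) * w - w * (x * y * w - w * (x * y)) =
          ((x * w - w * x) * w - w * (x * w - w * x)) * y +
          x * ((y * w - w * y) * w - w * (y * w - w * y)) +
          2 * ((x * w - w * x) * (y * w - w * y)) := by noncomm_ring
      rw [e2, h1 x, h1 y, zero_mul, mul_zero, add_zero, zero_add] at e1
      exact (mul_eq_zero.mp e1).resolve_left two_ne_zero
    have h3 := h2 a a
    have h4 := mul_self_eq_zero.mp h3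
    exact hwa (sub_eq_zero.mp h4)

end abs

variable {k K D : Type} [Field k] [NumberField k] [Field K] [StarRing K]
  [DivisionRing D] [StarRing D] [Algebra k K] [Algebra k D] [Algebra K D] [IsScalarTower k K D]
  {d : kˣ} {s : K} {N : ℕ}

/-- Uniqueness of limits. -/
theorem tn_unique {B : Basis (Fin N) k D} {p : Pl k} {X : Type} {l : Filter X} [l.NeBot]
    {f : X → D} {a b : D} (h1 : Tn B p l f a) (h2 : Tn B p l f b) : a = b := by
  by_contra hab
  have h3 : Tn B p l (fun _ => (0 : D)) (a - b) := by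
    have := h1.sub h2
    simpa only [sub_self] using this
  have h4 : Tendsto (fun _ : X => nm B p (0 - (a - b))) l (𝓝 0) := h3
  have h5 := tendsto_nhds_unique h4 (tendsto_const_nhds (x := nm B p (0 - (a - b))))
  have h6 : nm B p (a - b) = 0 := by
    rw [← nm_neg, ← zero_sub]
    exact h5.symm
  exact (nm_pos' B p (sub_ne_zero.mpr hab)).ne' h6

/-- A sequence of nonzero scalars tending to zero. -/
theorem exists_scal (p : Pl k) : ∃ t : ℕ → k, (∀ j, t j ≠ 0) ∧
    Tendsto (fun j => plAbv p (t j - 0)) atTop (𝓝 0) := by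
  obtain ⟨x, hx0, hx1⟩ : ∃ x : k, x ≠ 0 ∧ plAbv p x < 1 := by
    have h1 := plAbv_nontrivial p
    obtain ⟨y, hy0, hy1⟩ := h1.exists_abv_lt_one
    exact ⟨y, hy0, hy1⟩
  refine ⟨fun j => x ^ j, fun j => pow_ne_zero _ hx0, ?_⟩
  have h2 := tendsto_pow_atTop_nhds_zero_of_lt_one (AbsoluteValue.nonneg _ x) hx1
  refine h2.congr fun j => ?_
  rw [sub_zero, map_pow]

/-- A subspace stable under the conjugation with elements tending to one is stable under the
derivation of the tangent direction. -/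
theorem ad_of_tangent {B : Basis (Fin N) k D} {p : Pl k} (W : Submodule k D) {a : ℕ → D}
    {c : ℕ → k} {ζ : D} (ha : Tn B p atTop a 1)
    (hζ : Tn B p atTop (fun j => (c j)⁻¹ • (a j - 1)) ζ)
    (hW : ∀ᶠ j in atTop, a j ≠ 0 ∧ ∀ w ∈ W, a j * w * (a j)⁻¹ ∈ W) {w : D} (hw : w ∈ W) :
    ζ * w - w * ζ ∈ W := by
  obtain ⟨g, hg⟩ : ∃ g : ℕ → D, g = fun j =>
      ((c j)⁻¹ • (a j - 1) * w - w * ((c j)⁻¹ • (a j - 1))) * (a j)⁻¹ := ⟨_, rfl⟩
  have hwc := Tn.const (B := B) (p := p) (l := (atTop : Filter ℕ)) w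
  have hlim : Tn B p atTop g (ζ * w - w * ζ) := by
    have h4 := ((hζ.mul hwc).sub (hwc.mul hζ)).mul (ha.inv one_ne_zero)
    rw [inv_one, mul_one] at h4
    rw [hg]
    exact h4
  have hmem : ∀ᶠ j in atTop, g j ∈ W := by
    filter_upwards [hW] with j hj
    obtain ⟨hj0, hj⟩ := hj
    have h7 : g j = (c j)⁻¹ • (a j * w * (a j)⁻¹ - w) := by
      have e2 : a j * w * (a j)⁻¹ - w = ((a j - 1) * w - w * (a j - 1)) * (a j)⁻¹ := by
        have : (a j - 1) * w - w * (a j - 1) = a j * w - w * a j := by noncomm_ring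
        rw [this, sub_mul, mul_assoc w, mul_inv_cancel₀ hj0, mul_one]
      rw [e2, hg]
      beta_reduce
      rw [smul_mul_assoc, mul_smul_comm, ← smul_sub, smul_mul_assoc]
    rw [h7]
    exact W.smul_mem _ (W.sub_mem (hj w hw) hw)
  obtain ⟨W', hW'⟩ := W.exists_isCompl
  let L : D →ₗ[k] D := W'.subtype ∘ₗ (W'.projectionOnto W hW'.symm)
  have hL : ∀ x, L x = 0 ↔ x ∈ W := by
    intro x
    change (W'.subtype (W'.projectionOnto W hW'.symm x)) = 0 ↔ _
    rw [Submodule.subtype_apply, Submodule.coe_eq_zero, Submodule.projectionOnto_apply_eq_zero_iff]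
  have h8 := hlim.linear L
  have h9 : Tn B p atTop (fun j => L (g j)) 0 := by
    have : Tn B p atTop (fun _ : ℕ => (0 : D)) 0 := Tn.const 0
    refine Tendsto.congr' ?_ this
    filter_upwards [hmem] with j hj
    rw [(hL _).mpr hj]
  exact (hL _).mp (tn_unique h8 h9)

/-- The commutator of two Cayley elements. -/
def cc2 (y z : D) : D := cy y * cy z * (cy y)⁻¹ * (cy z)⁻¹

theorem cc2_ne [CharZero D] {y z : D} (hy : star y = -y) (hz : star z = -z) : cc2 y z ≠ 0 :=
  mul_ne_zero (mul_ne_zero (mul_ne_zero (cy_ne hy) (cy_ne hz)) (inv_ne_zero (cy_ne hy)))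
    (inv_ne_zero (cy_ne hz))

/-- A subspace stable under the conjugation with the commutators of Cayley elements near one is
stable under the derivations of the commutators of skew elements. -/
theorem ad_of_comm [CharZero D] (hst : ∀ (c : k) (x : D), star (c • x) = c • star x)
    (B : Basis (Fin N) k D) (p : Pl k) {δ : ℝ} (hδ : 0 < δ) (W : Submodule k D)
    (hW : ∀ y z : D, star y = -y → star z = -z → nm B p (cc2 y z - 1) < δ →
      ∀ w ∈ W, cc2 y z * w * (cc2 y z)⁻¹ ∈ W)
    {ξ η : D} (hξ : star ξ = -ξ) (hη : star η = -η) {w : D} (hw : w ∈ W) :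
    (ξ * η - η * ξ) * w - w * (ξ * η - η * ξ) ∈ W := by
  obtain ⟨t, ht0, ht⟩ := exists_scal (k := k) p
  have hy : ∀ {ξ : D}, star ξ = -ξ → ∀ j, star (t j • ξ) = -(t j • ξ) := fun h j => by
    rw [hst, h, smul_neg]
  have hty : ∀ ξ : D, Tn B p atTop (fun j => t j • ξ) 0 := fun ξ => by
    have := Tn.smul (B := B) ht ξ
    rwa [zero_smul] at this
  have hcy : ∀ ξ : D, Tn B p atTop (fun j => cy (t j • ξ)) 1 := fun ξ => by
    have := tn_cy (hty ξ) (by rw [star_zero, neg_zero])
    rwa [cy_zero] at this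
  have h1 : ∀ ξ : D, Tn B p atTop (fun j => ξ * (1 + t j • ξ)⁻¹) ξ := fun ξ => by
    have := (Tn.const (B := B) (p := p) (l := (atTop : Filter ℕ)) (1 : D)).add (hty ξ)
    rw [add_zero] at this
    have h2 := this.inv one_ne_zero
    rw [inv_one] at h2
    have h3 := (Tn.const (B := B) (p := p) (l := (atTop : Filter ℕ)) ξ).mul h2
    rwa [mul_one] at h3
  have ha : Tn B p atTop (fun j => cc2 (t j • ξ) (t j • η)) 1 := by
    have := (((hcy ξ).mul (hcy η)).mul ((hcy ξ).inv one_ne_zero)).mul ((hcy η).inv one_ne_zero)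
    simp only [inv_one, mul_one] at this
    exact this
  have hζ : Tn B p atTop (fun j => ((t j * t j)⁻¹ : k) • (cc2 (t j • ξ) (t j • η) - 1))
      ((4 : k) • (ξ * η - η * ξ)) := by
    have h2 := ((((h1 ξ).mul (h1 η)).sub ((h1 η).mul (h1 ξ))).mul
      (((hcy ξ).inv one_ne_zero).mul ((hcy η).inv one_ne_zero))).linear
      ((4 : k) • (LinearMap.id : D →ₗ[k] D))
    simp only [inv_one, mul_one] at h2
    refine h2.congr fun j => ?_
    congr 2
    change (4 : k) • ((ξ * (1 + t j • ξ)⁻¹ * (η * (1 + t j • η)⁻¹) -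
      η * (1 + t j • η)⁻¹ * (ξ * (1 + t j • ξ)⁻¹)) * ((cy (t j • ξ))⁻¹ * (cy (t j • η))⁻¹)) =
      (t j * t j)⁻¹ • (cc2 (t j • ξ) (t j • η) - 1)
    obtain ⟨y, hyd⟩ : ∃ y, y = t j • ξ := ⟨_, rfl⟩
    obtain ⟨z, hzd⟩ : ∃ z, z = t j • η := ⟨_, rfl⟩
    have hys : star y = -y := by rw [hyd]; exact hy hξ j
    have hzs : star z = -z := by rw [hzd]; exact hy hη j
    rw [← hyd, ← hzd]
    have e0 : ∀ y : D, star y = -y → cy y = 1 - 2 * (y * (1 + y)⁻¹) := by
      intro y hys
      have hp := (one_pm_ne hys).1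
      have : (1 + y) * (1 + y)⁻¹ = 1 := mul_inv_cancel₀ hp
      rw [cy]
      calc (1 - y) * (1 + y)⁻¹ = (1 + y) * (1 + y)⁻¹ - 2 * (y * (1 + y)⁻¹) := by noncomm_ring
        _ = _ := by rw [this]
    have e1 : cc2 y z - 1 = (cy y * cy z - cy z * cy y) * ((cy y)⁻¹ * (cy z)⁻¹) := by
      have hy0 := cy_ne hys
      have hz0 := cy_ne hzs
      have : cy z * cy y * ((cy y)⁻¹ * (cy z)⁻¹) = 1 := by
        rw [mul_assoc, ← mul_assoc (cy y), mul_inv_cancel₀ hy0, one_mul, mul_inv_cancel₀ hz0]
      rw [sub_mul, this, cc2]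
      simp only [mul_assoc]
    have e2 : cy y * cy z - cy z * cy y =
        4 * ((y * (1 + y)⁻¹) * (z * (1 + z)⁻¹) - (z * (1 + z)⁻¹) * (y * (1 + y)⁻¹)) := by
      rw [e0 y hys, e0 z hzs]
      noncomm_ring
    have e3 : (y * (1 + y)⁻¹) * (z * (1 + z)⁻¹) - (z * (1 + z)⁻¹) * (y * (1 + y)⁻¹) =
        (t j * t j) • ((ξ * (1 + y)⁻¹) * (η * (1 + z)⁻¹) - (η * (1 + z)⁻¹) * (ξ * (1 + y)⁻¹)) := by
      have f1 : y * (1 + y)⁻¹ = t j • (ξ * (1 + y)⁻¹) := by
        nth_rewrite 1 [hyd]
        rw [smul_mul_assoc]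
      have f2 : z * (1 + z)⁻¹ = t j • (η * (1 + z)⁻¹) := by
        nth_rewrite 1 [hzd]
        rw [smul_mul_assoc]
      rw [f1, f2, smul_mul_smul_comm, smul_mul_smul_comm, ← smul_sub]
    have e4 : (4 : D) = (4 : k) • (1 : D) := by
      rw [ofNat_smul_eq_nsmul k 4, nsmul_one]
      norm_num
    rw [e1, e2, e3, mul_smul_comm, smul_mul_assoc, smul_smul, inv_mul_cancel₀
      (mul_ne_zero (ht0 j) (ht0 j)), one_smul, e4, smul_one_mul, smul_mul_assoc]
  have h5 := ad_of_tangent W ha hζ (by
    filter_upwards [ha.ev_lt hδ] with j hj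
    exact ⟨cc2_ne (hy hξ j) (hy hη j), hW _ _ (hy hξ j) (hy hη j) hj⟩) hw
  have h6 := W.smul_mem ((4 : k)⁻¹) h5
  have e5 : ((4 : k) • (ξ * η - η * ξ)) * w - w * ((4 : k) • (ξ * η - η * ξ)) =
      (4 : k) • ((ξ * η - η * ξ) * w - w * (ξ * η - η * ξ)) := by
    rw [smul_mul_assoc, mul_smul_comm, ← smul_sub]
  rwa [e5, smul_smul, inv_mul_cancel₀ (by norm_num), one_smul] at h6

section trace

variable {K D : Type} [Field K] [CharZero K] [DivisionRing D] [Algebra K D]
  [FiniteDimensional K D] [Algebra.IsCentral K D]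

/-- The trace form of a division algebra. -/
noncomputable def tf (K : Type) {D : Type} [Field K] [DivisionRing D] [Algebra K D] :
    D →ₗ[K] Module.Dual K D where
  toFun y := (LinearMap.trace K D) ∘ₗ (LinearMap.mul K D) ∘ₗ (LinearMap.mulLeft K y)
  map_add' y z := by
    ext x
    simp [add_mul]
  map_smul' c y := by
    ext x
    simp

theorem tf_apply (y x : D) : tf K y x = LinearMap.trace K D (LinearMap.mulLeft K (y * x)) := rfl

theorem tf_comm (y x : D) : tf K y x = tf K x y := by
  rw [tf_apply, tf_apply, LinearMap.mulLeft_mul, LinearMap.mulLeft_mul]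
  exact LinearMap.trace_mul_comm K _ _

theorem tf_inj : Function.Injective (tf K : D →ₗ[K] Module.Dual K D) := by
  rw [← LinearMap.ker_eq_bot, LinearMap.ker_eq_bot']
  intro y hy
  by_contra hy0
  have h1 := congrArg (fun f : Module.Dual K D => f y⁻¹) hy
  beta_reduce at h1
  rw [tf_apply, mul_inv_cancel₀ hy0, LinearMap.mulLeft_one, LinearMap.trace_id,
    LinearMap.zero_apply] at h1
  have h2 : 0 < finrank K D := Module.finrank_pos
  exact h2.ne' (by exact_mod_cast h1)

/-- A division algebra is the sum of its centre and the span of the commutators. -/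
theorem center_sup_comm : Submodule.span K {x : D | x = 1 ∨ ∃ a b : D, x = a * b - b * a} = ⊤ := by
  by_contra hne
  obtain ⟨φ, hφ0, hφ⟩ : ∃ φ : Module.Dual K D, φ ≠ 0 ∧
      ∀ x ∈ Submodule.span K {x : D | x = 1 ∨ ∃ a b : D, x = a * b - b * a}, φ x = 0 := by
    obtain ⟨φ, h1, h2⟩ := Submodule.exists_le_ker_of_lt_top _ (lt_top_iff_ne_top.mpr hne)
    exact ⟨φ, h1, fun x hx => h2 hx⟩
  have hsurj : Function.Surjective (tf K : D →ₗ[K] Module.Dual K D) := by
    refine (LinearMap.injective_iff_surjective_of_finrank_eq_finrank ?_).mp tf_inj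
    exact (Subspace.dual_finrank_eq).symm
  obtain ⟨y, hy⟩ := hsurj φ
  have h1 : ∀ a b : D, tf K (y * a - a * y) b = 0 := by
    intro a b
    have h2 := hφ (a * b - b * a) (Submodule.subset_span (Or.inr ⟨a, b, rfl⟩))
    rw [← hy, tf_apply] at h2
    have e1 : y * (a * b - b * a) = y * a * b - y * b * a := by noncomm_ring
    have e2 : ∀ u v : D, LinearMap.mulLeft K (u - v) =
        LinearMap.mulLeft K u - LinearMap.mulLeft K v := fun u v => by
      ext x
      simp [sub_mul]
    rw [e1, e2, map_sub] at h2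
    have e3 : LinearMap.trace K D (LinearMap.mulLeft K (y * b * a)) =
        LinearMap.trace K D (LinearMap.mulLeft K (a * y * b)) := by
      have := tf_comm (K := K) (y * b) a
      rw [tf_apply, tf_apply, ← mul_assoc] at this
      exact this
    rw [tf_apply, sub_mul, e2, map_sub, ← e3]
    exact h2
  have h3 : ∀ a : D, y * a = a * y := by
    intro a
    have h4 : tf K (y * a - a * y) = (0 : Module.Dual K D) := by
      ext b
      exact h1 a b
    exact sub_eq_zero.mp ((map_eq_zero_iff (tf K : D →ₗ[K] Module.Dual K D) tf_inj).mp h4)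
  have h5 : y ∈ Subalgebra.center K D := by
    rw [Subalgebra.mem_center_iff]
    exact fun a => (h3 a).symm
  obtain ⟨c, hc⟩ := Algebra.mem_bot.mp (Algebra.IsCentral.out h5)
  have h6 := hφ 1 (Submodule.subset_span (Or.inl rfl))
  rw [← hy, tf_apply, mul_one, ← hc] at h6
  have h7 : LinearMap.mulLeft K (algebraMap K D c) = c • (LinearMap.id : D →ₗ[K] D) := by
    ext x
    simp [Algebra.smul_def]
  rw [h7, map_smul, LinearMap.trace_id, smul_eq_mul] at h6
  have h8 : (finrank K D : K) ≠ 0 := by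
    have h2 : 0 < finrank K D := Module.finrank_pos
    exact_mod_cast h2.ne'
  have h9 : c = 0 := (mul_eq_zero.mp h6).resolve_right h8
  apply hφ0
  rw [← hy, ← hc, h9, map_zero, map_zero]

end trace

/-- **The conjugates of a noncentral element generate the algebra over its centre.** -/
theorem adjoin_conj (hS : Setting k K D d s) (B : Basis (Fin N) k D) (p : Pl k) {δ : ℝ}
    (hδ : 0 < δ) {A : Set D} (h1A : (1 : D) ∈ A) (hmul : ∀ a ∈ A, ∀ b ∈ A, a * b ∈ A)
    (hA0 : (0 : D) ∉ A)
    (hA : ∀ y z : D, star y = -y → star z = -z → nm B p (cc2 y z - 1) < δ → cc2 y z ∈ A)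
    {x a : D} (hx : a * x ≠ x * a) :
    Algebra.adjoin K {y | ∃ b ∈ A, y = b * x * b⁻¹} = ⊤ := by
  have := hS.fin
  have := hS.cen
  have hcharD : CharZero D := charZero_of_injective_algebraMap (algebraMap k D).injective
  have hcharK : CharZero K := charZero_of_injective_algebraMap (algebraMap k K).injective
  have hst : ∀ (c : k) (x : D), star (c • x) = c • star x := fun c x => (Setting.sig hS).map_smul c x
  obtain ⟨W, hWd⟩ : ∃ W, W = Algebra.adjoin K {y | ∃ b ∈ A, y = b * x * b⁻¹} := ⟨_, rfl⟩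
  have hxW : x ∈ W := by
    rw [hWd]
    exact Algebra.subset_adjoin ⟨1, h1A, by rw [one_mul, inv_one, mul_one]⟩
  have hconj : ∀ b ∈ A, ∀ w ∈ W, b * w * b⁻¹ ∈ W := by
    intro b hb w hw
    have hb0 : b ≠ 0 := fun h => hA0 (h ▸ hb)
    rw [hWd] at hw
    induction hw using Algebra.adjoin_induction with
    | mem y hy =>
      obtain ⟨b', hb', rfl⟩ := hy
      rw [hWd]
      refine Algebra.subset_adjoin ⟨b * b', hmul _ hb _ hb', ?_⟩
      rw [mul_inv_rev]
      simp only [mul_assoc]
    | algebraMap r =>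
      rw [← Algebra.commutes r b, mul_assoc, mul_inv_cancel₀ hb0, mul_one]
      exact W.algebraMap_mem r
    | add y z _ _ hy hz =>
      rw [mul_add, add_mul]
      exact W.add_mem hy hz
    | mul y z _ _ hy hz =>
      have e : b * (y * z) * b⁻¹ = (b * y * b⁻¹) * (b * z * b⁻¹) := by
        calc b * (y * z) * b⁻¹ = b * y * (b⁻¹ * b) * z * b⁻¹ := by
              rw [inv_mul_cancel₀ hb0]; simp only [mul_assoc, one_mul]
          _ = _ := by simp only [mul_assoc]
      rw [e]
      exact W.mul_mem hy hz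
  have hskew : ∀ ξ η : D, star ξ = -ξ → star η = -η → ∀ w ∈ W,
      (ξ * η - η * ξ) * w - w * (ξ * η - η * ξ) ∈ W := by
    intro ξ η hξ hη w hw
    exact ad_of_comm hst B p hδ ((Subalgebra.toSubmodule W).restrictScalars k)
      (fun y z hy hz hyz w hw => hconj _ (hA y z hy hz hyz) w hw) hξ hη hw
  have hs0 : s ≠ 0 := by
    intro h0
    have h1 := hS.sq
    rw [h0, zero_pow two_ne_zero] at h1
    exact d.ne_zero ((map_eq_zero _).mp h1.symm)
  have h2 : (2 : K) ≠ 0 := two_ne_zero
  -- decomposition into skew elements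
  have hdec : ∀ y : D, ∃ y1 y2 : D, star y1 = -y1 ∧ star y2 = -y2 ∧ y = y1 + s • y2 := by
    intro y
    refine ⟨(2 : K)⁻¹ • (y - star y), (2 : K)⁻¹ • (s⁻¹ • (y + star y)), ?_, ?_, ?_⟩
    · rw [hS.star_smul, star_sub, star_star, star_inv₀, star_ofNat, ← smul_neg, neg_sub]
    · rw [hS.star_smul, hS.star_smul, star_inv₀, star_inv₀, hS.star_s, star_add, star_star,
        inv_neg, neg_smul, star_ofNat, add_comm (star y), smul_neg]
    · rw [smul_comm s, ← smul_add, smul_smul s, mul_inv_cancel₀ hs0, one_smul]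
      have : y - star y + (y + star y) = (2 : K) • y := by
        rw [two_smul]; abel
      rw [this, smul_smul, inv_mul_cancel₀ h2, one_smul]
  have had1 : ∀ y z : D, ∀ w ∈ W, (y * z - z * y) * w - w * (y * z - z * y) ∈ W := by
    intro y z w hw
    obtain ⟨y1, y2, hy1, hy2, hy⟩ := hdec y
    obtain ⟨z1, z2, hz1, hz2, hz⟩ := hdec z
    have e1 : (y * z - z * y) * w - w * (y * z - z * y) =
        ((y1 * z1 - z1 * y1) * w - w * (y1 * z1 - z1 * y1)) +
        s • ((y1 * z2 - z2 * y1) * w - w * (y1 * z2 - z2 * y1)) +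
        s • ((y2 * z1 - z1 * y2) * w - w * (y2 * z1 - z1 * y2)) +
        s • (s • ((y2 * z2 - z2 * y2) * w - w * (y2 * z2 - z2 * y2))) := by
      rw [hy, hz]
      simp only [add_mul, mul_add, sub_mul, mul_sub, smul_mul_assoc, mul_smul_comm, smul_sub,
        smul_add]
      abel
    rw [e1]
    exact W.add_mem (W.add_mem (W.add_mem (hskew _ _ hy1 hz1 _ hw)
      (W.smul_mem (hskew _ _ hy1 hz2 _ hw) _)) (W.smul_mem (hskew _ _ hy2 hz1 _ hw) _))
      (W.smul_mem (W.smul_mem (hskew _ _ hy2 hz2 _ hw) _) _)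
  have had : ∀ y : D, ∀ w ∈ W, y * w - w * y ∈ W := by
    intro y w hw
    have hy : y ∈ Submodule.span K {x : D | x = 1 ∨ ∃ a b : D, x = a * b - b * a} := by
      rw [center_sup_comm]
      exact Submodule.mem_top
    induction hy using Submodule.span_induction with
    | mem x hx =>
      rcases hx with rfl | ⟨a, b, rfl⟩
      · rw [one_mul, mul_one, sub_self]
        exact W.zero_mem
      · exact had1 a b w hw
    | zero =>
      rw [zero_mul, mul_zero, sub_self]
      exact W.zero_mem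
    | add x y _ _ hx hy =>
      have e : (x + y) * w - w * (x + y) = (x * w - w * x) + (y * w - w * y) := by noncomm_ring
      rw [e]
      exact W.add_mem hx hy
    | smul c x _ hx =>
      have e : (c • x) * w - w * (c • x) = c • (x * w - w * x) := by
        rw [smul_mul_assoc, mul_smul_comm, smul_sub]
      rw [e]
      exact W.smul_mem hx c
  rw [← hWd]
  exact top_of_ad W had hxW hx

end Vale.Agent.P011.H182
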