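import Vale.Agent.P011.One.TForm
import Vale.Agent.P011.Even.LocFin

/-!
# Weak approximation for the unitary group

Given unitary elements `u p` at finitely many places `p` (finite or real), there is a unitary
element close to `u p` at `p` for all of them.
-/

open Module NumberField IsDedekindDomain Topology Filter

set_option linter.unusedSectionVars false

namespace Vale.Agent.P011.H182

open Vale.Agent.P011.Arith Vale.Agent.P011.Even Vale.Agent.P011.Two Vale.Agent.P011.One

section alg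

variable {D : Type} [DivisionRing D] [StarRing D] [CharZero D]

/-- every unitary element different from minus one is a Cayley element -/
theorem exists_cy {u : D} (hu : u * star u = 1) (h : 1 + u ≠ 0) :
    ∃ x : D, star x = -x ∧ cy x = u := by
  have hu0 : u ≠ 0 := left_ne_zero_of_mul_eq_one hu
  have hsu : star u = u⁻¹ := (inv_eq_of_mul_eq_one_right hu).symm
  have h2 : (2 : D) ≠ 0 := two_ne_zero
  have e1 : 1 + (1 - u) * (1 + u)⁻¹ = 2 * (1 + u)⁻¹ := by
    have h3 : (1 : D) = (1 + u) * (1 + u)⁻¹ := (mul_inv_cancel₀ h).symm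
    calc 1 + (1 - u) * (1 + u)⁻¹ = (1 + u) * (1 + u)⁻¹ + (1 - u) * (1 + u)⁻¹ := by rw [← h3]
      _ = 2 * (1 + u)⁻¹ := by
        rw [← add_mul]
        congr 1
        rw [← one_add_one_eq_two]
        abel
  have e2 : 1 - (1 - u) * (1 + u)⁻¹ = 2 * u * (1 + u)⁻¹ := by
    have h3 : (1 : D) = (1 + u) * (1 + u)⁻¹ := (mul_inv_cancel₀ h).symm
    calc 1 - (1 - u) * (1 + u)⁻¹ = (1 + u) * (1 + u)⁻¹ - (1 - u) * (1 + u)⁻¹ := by rw [← h3]
      _ = 2 * u * (1 + u)⁻¹ := by rw [← sub_mul]; congr 1; rw [two_mul]; abel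
  refine ⟨(1 - u) * (1 + u)⁻¹, ?_, ?_⟩
  · have h3 : star (1 + u) = u⁻¹ * (1 + u) := by
      rw [star_add, star_one, hsu, mul_add, mul_one, inv_mul_cancel₀ hu0, add_comm]
    have h4 : star (1 - u) = -(u⁻¹ * (1 - u)) := by
      rw [star_sub, star_one, hsu, mul_sub, mul_one, inv_mul_cancel₀ hu0, neg_sub]
    have hc : Commute (1 + u) (1 - u) := by
      change (1 + u) * (1 - u) = (1 - u) * (1 + u)
      noncomm_ring
    rw [star_mul, star_inv₀, h3, h4, mul_inv_rev, inv_inv, mul_neg, mul_assoc,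
      mul_inv_cancel_left₀ hu0, hc.inv_left₀.eq]
  · rw [cy, e1, e2, mul_inv_rev, inv_inv]
    calc 2 * u * (1 + u)⁻¹ * ((1 + u) * 2⁻¹) = 2 * u * ((1 + u)⁻¹ * (1 + u)) * 2⁻¹ := by
          simp only [mul_assoc]
      _ = u := by
        rw [inv_mul_cancel₀ h, mul_one, (Commute.ofNat_left 2 u).eq, mul_assoc,
          mul_inv_cancel₀ h2, mul_one]

/-- every unitary element is a product of two Cayley elements -/
theorem exists_cy2 {a : D} (ha : star a = -a) (ha0 : a ≠ 0) {u : D} (hu : u * star u = 1) :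
    ∃ x y : D, star x = -x ∧ star y = -y ∧ cy x * cy y = u := by
  by_cases h : 1 + u = 0
  · have hu1 : u = -1 := (neg_eq_of_add_eq_zero_right h).symm
    have h1 := (one_pm_ne ha).1
    have h2 := (one_pm_ne ha).2
    refine ⟨a, -a⁻¹, ha, by rw [star_neg, star_inv₀, ha, inv_neg], ?_⟩
    have e1 : 1 - -a⁻¹ = (1 + a) * a⁻¹ := by
      rw [add_mul, one_mul, mul_inv_cancel₀ ha0]
      abel
    have e2 : 1 + -a⁻¹ = -((1 - a) * a⁻¹) := by
      rw [sub_mul, one_mul, mul_inv_cancel₀ ha0]
      abel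
    have hc : Commute (1 - a) (1 + a) := by
      change (1 - a) * (1 + a) = (1 + a) * (1 - a)
      noncomm_ring
    rw [cy, cy, e1, e2, hu1, inv_neg, mul_inv_rev, inv_inv, mul_neg, mul_neg]
    congr 1
    calc (1 - a) * (1 + a)⁻¹ * ((1 + a) * a⁻¹ * (a * (1 - a)⁻¹))
        = (1 - a) * ((1 + a)⁻¹ * (1 + a)) * (a⁻¹ * a) * (1 - a)⁻¹ := by simp only [mul_assoc]
      _ = 1 := by rw [inv_mul_cancel₀ h1, inv_mul_cancel₀ ha0, mul_one, mul_one,
        mul_inv_cancel₀ h2]
  · obtain ⟨x, hx, hxu⟩ := exists_cy hu h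
    exact ⟨x, 0, hx, by rw [star_zero, neg_zero], by rw [cy_zero, mul_one, hxu]⟩

end alg

variable {k D : Type} [Field k] [NumberField k] [DivisionRing D] [StarRing D] [Algebra k D]
  {N : ℕ} {B : Basis (Fin N) k D}

/-- Approximation by skew elements at several places. -/
theorem exists_seqs (hst : ∀ (c : k) (x : D), star (c • x) = c • star x) {P : Set (Pl k)}
    (hP : P.Finite) {y : Pl k → D} (hy : ∀ p ∈ P, star (y p) = -y p) :
    ∃ f : ℕ → D, (∀ j, star (f j) = -f j) ∧ ∀ p ∈ P, Tn B p atTop f (y p) := by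
  classical
  have h2 : (2 : k) ≠ 0 := two_ne_zero
  let L : D →ₗ[k] D :=
    { toFun := fun x => (2 : k)⁻¹ • (x - star x)
      map_add' := fun x z => by rw [← smul_add, star_add]; congr 1; abel
      map_smul' := fun c x => by
        rw [hst, RingHom.id_apply, ← smul_sub, smul_comm] }
  have hL : ∀ x, L x = (2 : k)⁻¹ • (x - star x) := fun _ => rfl
  have hLs : ∀ x, star (L x) = -L x := by
    intro x
    rw [hL, hst, star_sub, star_star, ← smul_neg, neg_sub]
  have hLy : ∀ p ∈ P, L (y p) = y p := by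
    intro p hp
    rw [hL, hy p hp, sub_neg_eq_add, ← two_smul k (y p), smul_smul, inv_mul_cancel₀ h2, one_smul]
  have h1 : ∀ j : ℕ, ∃ x : D, ∀ p ∈ P, nm B p (x - y p) < 1 / ((j : ℝ) + 1) := fun j =>
    approxD B P hP y (fun _ => 1 / ((j : ℝ) + 1)) fun _ => by positivity
  choose x hx using h1
  refine ⟨fun j => L (x j), fun j => hLs _, fun p hp => ?_⟩
  have h3 : Tn B p atTop x (y p) := squeeze_zero (fun _ => nm_nonneg B p _)
    (fun j => (hx j p hp).le) tendsto_one_div_add_atTop_nhds_zero_nat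
  have := h3.linear L
  rwa [hLy p hp] at this

/-- Approximation by symmetric elements at several places. -/
theorem exists_seqs_symm (hst : ∀ (c : k) (x : D), star (c • x) = c • star x) {P : Set (Pl k)}
    (hP : P.Finite) {y : Pl k → D} (hy : ∀ p ∈ P, star (y p) = y p) :
    ∃ f : ℕ → D, (∀ j, star (f j) = f j) ∧ ∀ p ∈ P, Tn B p atTop f (y p) := by
  classical
  have h2 : (2 : k) ≠ 0 := two_ne_zero
  let L : D →ₗ[k] D :=
    { toFun := fun x => (2 : k)⁻¹ • (x + star x)
      map_add' := fun x z => by rw [← smul_add, star_add]; congr 1; abel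
      map_smul' := fun c x => by
        rw [hst, RingHom.id_apply, ← smul_add, smul_comm] }
  have hL : ∀ x, L x = (2 : k)⁻¹ • (x + star x) := fun _ => rfl
  have hLs : ∀ x, star (L x) = L x := by
    intro x
    rw [hL, hst, star_add, star_star, add_comm]
  have hLy : ∀ p ∈ P, L (y p) = y p := by
    intro p hp
    rw [hL, hy p hp, ← two_smul k (y p), smul_smul, inv_mul_cancel₀ h2, one_smul]
  have h1 : ∀ j : ℕ, ∃ x : D, ∀ p ∈ P, nm B p (x - y p) < 1 / ((j : ℝ) + 1) := fun j =>
    approxD B P hP y (fun _ => 1 / ((j : ℝ) + 1)) fun _ => by positivity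
  choose x hx using h1
  refine ⟨fun j => L (x j), fun j => hLs _, fun p hp => ?_⟩
  have h3 : Tn B p atTop x (y p) := squeeze_zero (fun _ => nm_nonneg B p _)
    (fun j => (hx j p hp).le) tendsto_one_div_add_atTop_nhds_zero_nat
  have := h3.linear L
  rwa [hLy p hp] at this

/-- **Weak approximation for the unitary group.** -/
theorem wa_unitary_seq (hst : ∀ (c : k) (x : D), star (c • x) = c • star x) {a : D}
    (ha : star a = -a) (ha0 : a ≠ 0) {P : Set (Pl k)} (hP : P.Finite) {u : Pl k → D}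
    (hu : ∀ p ∈ P, u p * star (u p) = 1) :
    ∃ v : ℕ → D, (∀ j, v j * star (v j) = 1) ∧ ∀ p ∈ P, Tn B p atTop v (u p) := by
  have hcharD : CharZero D := charZero_of_injective_algebraMap (algebraMap k D).injective
  have h1 : ∀ p : Pl k, ∃ x y : D, star x = -x ∧ star y = -y ∧
      (p ∈ P → cy x * cy y = u p) := by
    intro p
    by_cases hp : p ∈ P
    · obtain ⟨x, y, hx, hy, hxy⟩ := exists_cy2 ha ha0 (hu p hp)
      exact ⟨x, y, hx, hy, fun _ => hxy⟩
    · exact ⟨0, 0, by simp, by simp, fun h => absurd h hp⟩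
  choose x y hx hy hxy using h1
  obtain ⟨f, hf, hfx⟩ := exists_seqs (B := B) hst hP (y := x) fun p _ => hx p
  obtain ⟨g, hg, hgy⟩ := exists_seqs (B := B) hst hP (y := y) fun p _ => hy p
  refine ⟨fun j => cy (f j) * cy (g j), fun j => ?_, fun p hp => ?_⟩
  · rw [star_mul]
    calc cy (f j) * cy (g j) * (star (cy (g j)) * star (cy (f j)))
        = cy (f j) * (cy (g j) * star (cy (g j))) * star (cy (f j)) := by simp only [mul_assoc]
      _ = 1 := by rw [cy_mul_star (hg j), mul_one, cy_mul_star (hf j)]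
  · rw [← hxy p hp]
    exact (tn_cy (hfx p hp) (hx p)).mul (tn_cy (hgy p hp) (hy p))

/-- **Weak approximation for the unitary group**, in a `Setting`. -/
theorem wa_unitary {K : Type} [Field K] [StarRing K] [Algebra k K] [Algebra K D]
    [IsScalarTower k K D] {d : kˣ} {s : K} (hS : Setting k K D d s) {P : Set (Pl k)}
    (hP : P.Finite) {u : Pl k → D} (hu : ∀ p ∈ P, u p * star (u p) = 1) {ε : Pl k → ℝ}
    (hε : ∀ p, 0 < ε p) :
    ∃ v : D, v * star v = 1 ∧ ∀ p ∈ P, nm B p (v - u p) < ε p := by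
  have hst : ∀ (c : k) (x : D), star (c • x) = c • star x :=
    fun c x => (Setting.sig hS).map_smul c x
  have hs0 : s ≠ 0 := by
    intro h
    have h1 := hS.sq
    rw [h, zero_pow two_ne_zero] at h1
    exact (map_ne_zero (algebraMap k K)).2 d.ne_zero h1.symm
  have ha : star (s • (1 : D)) = -(s • (1 : D)) := by
    rw [hS.star_smul, hS.star_s, star_one, neg_smul]
  have ha0 : s • (1 : D) ≠ 0 := smul_ne_zero hs0 one_ne_zero
  obtain ⟨v, hv, h⟩ := wa_unitary_seq (B := B) hst ha ha0 hP hu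
  have h2 : ∀ᶠ j in atTop, ∀ p ∈ P, nm B p (v j - u p) < ε p := by
    rw [Filter.eventually_all_finite hP]
    intro p hp
    exact (h p hp).ev_lt (hε p)
  obtain ⟨j, hj⟩ := h2.exists
  exact ⟨v j, hv j, hj⟩

end Vale.Agent.P011.H182
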