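import Vale.Agent.P011.H182.Nma
import Vale.Agent.P011.One.Final

/-!
Conjugates of a noncentral element of the special unitary group by words in a bounded set leave
every bounded set, with bounded ratio.
-/

open Module NumberField IsDedekindDomain Filter Topology

set_option linter.unusedSectionVars false

namespace Vale.Agent.P011.H182

open Vale.Agent.P011.Arith Vale.Agent.P011.Even Vale.Agent.P011.Two Vale.Agent.P011.One

section gu

variable {K D Ω : Type} [Field K] [DivisionRing D] [StarRing D] [Algebra K D] [Field Ω]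
    [Algebra K Ω] {n : ℕ} {f : D →ₐ[K] Matrix (Fin n) (Fin n) Ω}

theorem gu_ne {g : D} (hg : g ∈ GU f) : g ≠ 0 := left_ne_zero_of_mul_eq_one hg.1

theorem gu_inv_eq {g : D} (hg : g ∈ GU f) : g⁻¹ = star g := inv_eq_of_mul_eq_one_right hg.1

theorem gu_star_mul {g : D} (hg : g ∈ GU f) : star g * g = 1 := by
  rw [← gu_inv_eq hg, inv_mul_cancel₀ (gu_ne hg)]

theorem gu_one : (1 : D) ∈ GU f := ⟨by rw [star_one, one_mul], by rw [map_one, Matrix.det_one]⟩

theorem gu_mul {g h : D} (hg : g ∈ GU f) (hh : h ∈ GU f) : g * h ∈ GU f := by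
  refine ⟨?_, ?_⟩
  · rw [star_mul, mul_assoc, ← mul_assoc h, hh.1, one_mul, hg.1]
  · rw [map_mul, Matrix.det_mul, hg.2, hh.2, one_mul]

theorem gu_inv {g : D} (hg : g ∈ GU f) : g⁻¹ ∈ GU f := by
  have h1 : (f g).det * (f g⁻¹).det = 1 := by
    rw [← Matrix.det_mul, ← map_mul, mul_inv_cancel₀ (gu_ne hg), map_one, Matrix.det_one]
  refine ⟨?_, ?_⟩
  · rw [gu_inv_eq hg, star_star, gu_star_mul hg]
  · rwa [hg.2, one_mul] at h1

theorem gu_star {g : D} (hg : g ∈ GU f) : star g ∈ GU f := by
  rw [← gu_inv_eq hg]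
  exact gu_inv hg

/-- Commutators of unitary elements have reduced norm one. -/
theorem gu_comm {y z : D} (hy : y * star y = 1) (hz : z * star z = 1) :
    y * z * y⁻¹ * z⁻¹ ∈ GU f := by
  have hy0 : y ≠ 0 := left_ne_zero_of_mul_eq_one hy
  have hz0 : z ≠ 0 := left_ne_zero_of_mul_eq_one hz
  have hyi : y⁻¹ = star y := inv_eq_of_mul_eq_one_right hy
  have hzi : z⁻¹ = star z := inv_eq_of_mul_eq_one_right hz
  have hys : star y * y = 1 := by rw [← hyi, inv_mul_cancel₀ hy0]
  have hzs : star z * z = 1 := by rw [← hzi, inv_mul_cancel₀ hz0]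
  refine ⟨?_, ?_⟩
  · rw [hyi, hzi]
    simp only [star_mul, star_star]
    calc y * z * star y * star z * (z * (y * (star z * star y)))
        = y * z * star y * (star z * z) * (y * (star z * star y)) := by simp only [mul_assoc]
      _ = y * z * (star y * y) * (star z * star y) := by rw [hzs, mul_one]; simp only [mul_assoc]
      _ = y * (z * star z) * star y := by rw [hys, mul_one]; simp only [mul_assoc]
      _ = 1 := by rw [hz, mul_one, hy]
  · have h1 : ∀ x : D, x ≠ 0 → (f x).det * (f x⁻¹).det = 1 := by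
      intro x hx
      rw [← Matrix.det_mul, ← map_mul, mul_inv_cancel₀ hx, map_one, Matrix.det_one]
    rw [map_mul, map_mul, map_mul, Matrix.det_mul, Matrix.det_mul, Matrix.det_mul]
    calc (f y).det * (f z).det * (f y⁻¹).det * (f z⁻¹).det
        = ((f y).det * (f y⁻¹).det) * ((f z).det * (f z⁻¹).det) := by ring
      _ = 1 := by rw [h1 y hy0, h1 z hz0, one_mul]

theorem cc2_mem [CharZero D] {y z : D} (hy : star y = -y) (hz : star z = -z) :
    cc2 y z ∈ GU f := gu_comm (cy_mul_star hy) (cy_mul_star hz)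

end gu

variable {k K D : Type} [Field k] [NumberField k] [Field K] [StarRing K]
  [DivisionRing D] [StarRing D] [Algebra k K] [Algebra k D] [Algebra K D] [IsScalarTower k K D]
  {d : kˣ} {s : K} {N : ℕ} {Ω : Type} [Field Ω] [Algebra K Ω] {n : ℕ}

/-- The group generated by the elements of bounded size. -/
def Wd (f : D →ₐ[K] Matrix (Fin n) (Fin n) Ω) (B : Basis (Fin N) k D) (p : Pl k) (R : ℝ) :
    Submonoid D :=
  Submonoid.closure {s | s ∈ GU f ∧ na B (plAbv p) s ≤ R ∧ na B (plAbv p) s⁻¹ ≤ R}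

variable {f : D →ₐ[K] Matrix (Fin n) (Fin n) Ω} {B : Basis (Fin N) k D} {p : Pl k} {R : ℝ}

theorem wd_gu {a : D} (ha : a ∈ Wd f B p R) : a ∈ GU f := by
  unfold Wd at ha
  induction ha using Submonoid.closure_induction with
  | mem x hx => exact hx.1
  | one => exact gu_one
  | mul x y _ _ hx hy => exact gu_mul hx hy

theorem wd_inv {a : D} (ha : a ∈ Wd f B p R) : a⁻¹ ∈ Wd f B p R := by
  unfold Wd at ha ⊢
  induction ha using Submonoid.closure_induction with
  | mem x hx => exact Submonoid.subset_closure ⟨gu_inv hx.1, hx.2.2, by rw [inv_inv]; exact hx.2.1⟩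
  | one => rw [inv_one]; exact Submonoid.one_mem _
  | mul x y _ _ hx hy =>
    rw [mul_inv_rev]
    exact Submonoid.mul_mem _ hy hx

/-- **Unboundedness of the conjugates.** -/
theorem unbounded_conj (hS : Setting k K D d s) (hR : na B (plAbv p) 1 < R)
    {g : ℕ → D} (hg : ∀ m, g m ∈ Wd f B p R) {z : D}
    (hz : ∀ M : ℝ, ∃ m, M < na B (plAbv p) (g m * z * (g m)⁻¹)) {x b : D}
    (hx : b * x ≠ x * b) (M : ℝ) :
    ∃ a ∈ Wd f B p R, M < na B (plAbv p) (a * x * a⁻¹) := by
  have := hS.fin
  have := hS.cen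
  have hcharD : CharZero D := charZero_of_injective_algebraMap (algebraMap k D).injective
  have hst : ∀ (c : k) (x : D), star (c • x) = c • star x := fun c x => (Setting.sig hS).map_smul c x
  by_contra hcon
  push Not at hcon
  obtain ⟨C, hC1, hCm, hCs⟩ := na_const B (plAbv p) hst
  have hC0 : 0 < C := by linarith
  have hn1 := na_nonneg B (plAbv p) 1
  -- Cayley elements near one are bounded
  obtain ⟨δ, hδ0, hδ⟩ : ∃ δ : ℝ, 0 < δ ∧ na B (plAbv p) 1 + C * δ ≤ R := by
    refine ⟨(R - na B (plAbv p) 1) / C, div_pos (sub_pos.mpr hR) hC0, ?_⟩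
    rw [mul_div_cancel₀ _ hC0.ne']
    linarith
  have hnear : ∀ y z : D, star y = -y → star z = -z → nm B p (cc2 y z - 1) < δ →
      cc2 y z ∈ Wd f B p R := by
    intro y z hy hz h
    have h' : na B (plAbv p) (cc2 y z - 1) < δ := h
    have hmem : cc2 y z ∈ GU f := cc2_mem hy hz
    refine Submonoid.subset_closure ⟨hmem, ?_, ?_⟩
    · have e : cc2 y z = (cc2 y z - 1) + 1 := by abel
      rw [e]
      refine (na_add_le _ _ _ _).trans ?_
      nlinarith
    · have e : (cc2 y z)⁻¹ = star (cc2 y z - 1) + 1 := by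
        rw [gu_inv_eq hmem, star_sub, star_one, sub_add_cancel]
      rw [e]
      refine (na_add_le _ _ _ _).trans ?_
      have := hCs (cc2 y z - 1)
      nlinarith
  have htop := adjoin_conj hS B p hδ0 (A := {a | a ∈ Wd f B p R}) (Submonoid.one_mem (Wd f B p R))
    (fun a ha b hb => Submonoid.mul_mem (Wd f B p R) ha hb) (fun h => gu_ne (wd_gu h) rfl)
    (fun y z hy hz h => hnear y z hy hz h) hx
  -- the bounded elements
  let Bd : D → Prop := fun y => ∃ M : ℝ, ∀ a ∈ Wd f B p R, na B (plAbv p) (a * y * a⁻¹) ≤ M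
  have hBd : ∀ y : D, Bd y := by
    intro y
    have hy : y ∈ Submodule.span K ((Submonoid.closure {y : D | ∃ b ∈ {a | a ∈ Wd f B p R},
        y = b * x * b⁻¹} : Submonoid D) : Set D) := by
      rw [← Algebra.adjoin_eq_span, Subalgebra.mem_toSubmodule, htop]
      exact Algebra.mem_top
    induction hy using Submodule.span_induction with
    | mem u hu =>
      induction hu using Submonoid.closure_induction with
      | mem w hw =>
        obtain ⟨b, hb, rfl⟩ := hw
        refine ⟨M, fun a ha => ?_⟩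
        have := hcon (a * b) (Submonoid.mul_mem _ ha hb)
        rw [mul_inv_rev] at this
        simpa only [mul_assoc] using this
      | one =>
        refine ⟨na B (plAbv p) 1, fun a ha => ?_⟩
        rw [mul_one, mul_inv_cancel₀ (gu_ne (wd_gu ha))]
      | mul u v _ _ hu hv =>
        obtain ⟨M1, h1⟩ := hu
        obtain ⟨M2, h2⟩ := hv
        refine ⟨C * M1 * M2, fun a ha => ?_⟩
        have ha0 := gu_ne (wd_gu ha)
        have e : a * (u * v) * a⁻¹ = (a * u * a⁻¹) * (a * v * a⁻¹) := by
          calc a * (u * v) * a⁻¹ = a * u * (a⁻¹ * a) * v * a⁻¹ := by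
                rw [inv_mul_cancel₀ ha0]; simp only [mul_assoc, one_mul]
            _ = _ := by simp only [mul_assoc]
        rw [e]
        refine (hCm _ _).trans ?_
        have g1 := h1 a ha
        have g2 := h2 a ha
        have g3 := na_nonneg B (plAbv p) (a * u * a⁻¹)
        have g4 := na_nonneg B (plAbv p) (a * v * a⁻¹)
        exact mul_le_mul (mul_le_mul_of_nonneg_left g1 hC0.le) g2 g4
          (mul_nonneg hC0.le (g3.trans g1))
    | zero =>
      refine ⟨0, fun a ha => ?_⟩
      rw [mul_zero, zero_mul, na_zero]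
    | add u v _ _ hu hv =>
      obtain ⟨M1, h1⟩ := hu
      obtain ⟨M2, h2⟩ := hv
      refine ⟨M1 + M2, fun a ha => ?_⟩
      rw [mul_add, add_mul]
      exact (na_add_le _ _ _ _).trans (add_le_add (h1 a ha) (h2 a ha))
    | smul c u _ hu =>
      obtain ⟨M1, h1⟩ := hu
      refine ⟨C * na B (plAbv p) (algebraMap K D c) * M1, fun a ha => ?_⟩
      rw [Algebra.smul_def]
      have e : a * (algebraMap K D c * u) * a⁻¹ = algebraMap K D c * (a * u * a⁻¹) := by
        rw [← mul_assoc a, ← Algebra.commutes c a]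
        simp only [mul_assoc]
      rw [e]
      refine (hCm _ _).trans ?_
      exact mul_le_mul_of_nonneg_left (h1 a ha) (mul_nonneg hC0.le (na_nonneg _ _ _))
  obtain ⟨M', hM'⟩ := hBd z
  obtain ⟨m, hm⟩ := hz M'
  exact absurd (hM' _ (hg m)) (not_le.mpr hm)

end Vale.Agent.P011.H182
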